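import Claimed.Agent.R316.Pack016_2
import Claimed.Agent.R316.Pack011
import Claimed.Agent.R316.CW.Green

/-!
# `BP-G14` part Bo: Bochner formulas for a holomorphic function in ONE holomorphic chart of a Kaehler metric

Architect: helper195.  PAPER FREE.  ALL IDENTITIES BELOW WERE CHECKED NUMERICALLY (power series, `n = 2`, random Kaehler potential with non diagonal `H(0)`, random holomorphic `g`).

`H : CE ι → Matrix ι ι ℂ` is a Kaehler matrix on `U` (`IsKMat H U`, `Base/RGeo/Kahler.lean`; column convention `h_{j \bar l} = H l j`, `K = H⁻¹`, `h^{k \bar l} = K k l`), `g` is holomorphic on `U`.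
MATRIX CALCULUS: `dzM p A`, `dzbM p A` (entrywise `∂_p`, `∂_{\bar p}`) with the product rules `dzM_mul`, `dzM_inv`, `dzM_transpose`, `dzM_conjTranspose`, `dz_matTrace`, ... of `CW/MatFun.lean` (all PROVED); curvature
matrices `RmM H z l m` of `CM/Curv.lean` (PROVED: `RmM_eq_dzbM_connection`, `trace_inv_mul_RmM`, `RmM_symm13`, `RmM_symm24`).

* `bcTh H p z = K ∂_p H`: connection matrices, `(θ_p) a j = Γ^a_{pj}`.
* `bcSig H g z j k = σ_{jk} = ∂_j ∂_k g - Γ^l_{jk} ∂_l g`: the `(2,0)` Hessian `∇∂g`.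
* `bcPair A B C = tr (A⁻ᵀ B A⁻¹ Cᴴ) = h^{b \bar a} h^{c \bar d} B_{bc} \bar C_{ad}`: Hermitian product of `(2,0)`-tensors (`A = H z`).
* `bcD H A p z = ∂_p A - θ_pᵀ A - A θ_p`: covariant derivative `∇_p A`.
* `bcN1 = |∂g|²`, `bcN2 = |σ|²`, `bcT m = ∂_{\bar m} σ` (`= Rm * ∂g`, no derivative of `g` of order 2), `bcNT = |T|²`, `bcY^p = h^{p \bar m} ⟨T_m, σ⟩`, `bcND = |∇σ|²`.

**BOCHNER**:  `Δ|g|² = |∂g|²`;   `Δ|∂g|² = |σ|² + Ric(∂g,∂g)`;   `Δ|σ|² = |∇σ|² - |T|² + 2 Re div Y + Ric * σ * σ`.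
The third formula contains NO derivative of the curvature: it is hidden in the divergence.

## Leaves (sections)
* `G14-Bo-A` (section `alg`): linear algebra of `bcPair` at one point.      * `G14-Bo-B` (section `calculus`): product rules, smoothness.
* `G14-Bo-C` (section `curv`): curvature identities, divergence, commutation.   * `G14-Bo-D` (section `boch12`): first and second formula.
* `G14-Bo-E` (section `boch3`): third formula.      * `G14-Bo-F` (section `bounds`): real Hessian; `|T|² ≤ 4 n³ R² |∂g|²`.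

## RECIPES
**Bo-A.**  Take `T` with `Tᴴ A T = 1` (`exists_simDiag`/`exists_sqrt_posDef`, `CW/MatAlg.lean`), `A⁻¹ = T Tᴴ` (`simDiag_inv`).  Then `bcPair A B C = tr (B' C'ᴴ) = ∑_{i,j} B'_{ij} conj C'_{ij}` with `B' = Tᵀ B T` (cyclicity of the trace: `A⁻ᵀ = conj(T) Tᵀ`): the standard Hermitian
product of matrices.  Everything follows from Cauchy-Schwarz for finite sums (`inner_mul_le_norm_mul_norm` in `EuclideanSpace ℂ (ι × ι)` or `Finset.inner_mul_le_norm_mul_norm`/`Finset.sum_mul_sq_le_sq_mul_sq`).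
`bcPair_bilin_le`: `a = T a'`, `qf A a = ∑ |a'_i|²` (`simDiag_qf_one`), `∑ B_{jk} a_j b_k = ∑ B'_{ij} a'_i b'_j`.  `bc_qf_Y_le`, `bc_NT_nonneg`: also expand `A⁻¹ p m = ∑_i T p i conj (T m i)`, `T'_i = ∑_m conj (T m i) T_m`: `nT = ∑_i |T'_i|²`, `Y = T y'`, `y'_i = ⟨T'_i, C⟩`.
`bc_NT_le_of_forall`: `nT = ∑_{i,i',i''} |∑ conj (T m i) T b i' T c i'' (T_m)_{bc}|²`, each term is the trilinear form on the unit vectors `T e_i`.  `bc_ric_terms_nonneg`: `Rc = Sᴴ S`/(`exists_sqrt_posSemidef`), each trace is `tr (M Mᴴ) ≥ 0`.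
**Bo-B.**  `dzM_inv`, `dzbM_inv`; `(∂_p H)ᴴ = ∂_{\bar p} H` (`conjTranspose_dzM_of_isHermitian`).  `dz_bcPair`: expand `dz p (tr (Kᵀ A K Bᴴ))` by `dz_matTrace`, `dzM_mul` (3 times), `dzM_transpose`, `dzM_conjTranspose`; `∂_p K = - θ_p K`, `∂_p Kᵀ = - Kᵀ θ_pᵀ`, `∂_p (Bᴴ) = (∂_{\bar p} B)ᴴ`.
`dzb_bcPair`: `∂_{\bar q} K = - K θ_qᴴ`, `∂_{\bar q} Kᵀ = - conj(θ_q) Kᵀ`, `tr (conj(θ_q) M) = tr (M conj(θ_q))`, `(θ_qᵀ B)ᴴ = Bᴴ conj(θ_q)`, `(B θ_q)ᴴ = θ_qᴴ Bᴴ`.  Smoothness: `contDiffOn_matInv_of_posDef`, `contDiffOn_dzM`, `hol_contDiffOn_real`, `contDiffOn_matMul`, `contDiffOn_matTrace`.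
**Bo-C.**  `dzbM_bcTh` = `RmM_eq_dzbM_connection` multiplied by `K`.  `bcT_eq`: `∂_{\bar m}` of `σ_{jk}`; `∂_j∂_k g`, `∂_l g` are holomorphic (`differentiableOn_dz`, `dzb = 0` for holomorphic functions).  `sum_inv_RmM`: entry `(a,k)`: `RmM p q a k = RmM k a q p`-type symmetries (`RmM_symm13` then `RmM_symm24`) reduce to
`trace_inv_mul_RmM`.  `bcDiv_eq`: `sum_dz_cofactor` (`CW/Green.lean`: `∑_p ∂_p (det H K_{pm}) = 0` for closed `H`) and the Leibniz rule.  `dzbM_bcD`: `dzbM_mul`, `dzM_dzbM_comm`, `dzbM_transpose`, `dzbM_bcTh`.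
**Bo-D.**  First: `levi |g|² j k = conj (∂_j g) ∂_k g` (`g` holomorphic; see `CW/Levi.lean`), `lapP = tr (K levi)`, `trace_inv_mul_outer`.  Second: rank one analogue of the product rules: with `⟨ξ,η⟩₁ = ∑ K_{kj} ξ_k conj η_j` (so `bcN1 = ⟨γ,γ⟩₁`, `γ = bcGr g`), `∇_p ξ = ∂_p ξ - θ_pᵀ ξ`:
`∂_p⟨ξ,η⟩₁ = ⟨∇_pξ,η⟩₁ + ⟨ξ,∂_{\bar p}η⟩₁`, `∂_{\bar q}⟨ξ,η⟩₁ = ⟨∂_{\bar q}ξ,η⟩₁ + ⟨ξ,∇_qη⟩₁`.  `∇_pγ = σ_{p·}`, `∂_{\bar p}γ = 0`: `∂_p n1 = ⟨σ_p,γ⟩₁`, `∂_{\bar q}∂_p n1 = ⟨T_{q;p·},γ⟩₁ + ⟨σ_p,σ_q⟩₁`; contraction with `K_{pq}`: `∑ K_{pq}⟨σ_p,σ_q⟩₁ = bcN2`, `∑ K_{pq} T_{q;pk} = ∑_l (K Rc)_{lk} γ_l` (`bcT_eq`, `sum_inv_RmM`).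
**Bo-E.**  `n2 = ⟨σ,σ⟩` (complex valued function, real: `bcPair_self`).  `∂_p n2 = ⟨∇_pσ,σ⟩ + ⟨σ,T_p⟩`;  `∂_{\bar q}⟨∇_pσ,σ⟩ = ⟨∂_{\bar q}∇_pσ,σ⟩ + ⟨∇_pσ,∇_qσ⟩`;  `∂_{\bar q}⟨σ,T_p⟩ = ⟨T_q,T_p⟩ + ⟨σ,∇_qT_p⟩`.  With `Z = ∑ K_{pm}⟨∇_pT_m,σ⟩`: `∑K_{pq}⟨σ,∇_qT_p⟩ = conj Z` (`bcPair_conj`, `K` Hermitian),
`∑K_{pq}⟨∂_{\bar q}∇_pσ,σ⟩ = Z + ric2` (`dzbM_bcD`, `sum_inv_RmM`), `div Y = ∑K_{pm}∂_p⟨T_m,σ⟩ = Z + nT` (`bcDiv_eq`, `dz_bcPair`).  Sum: `Δ n2 = nD + nT + Z + conj Z + ric2 = nD - nT + 2 Re div Y + ric2`.  (`lapP A f z = ∑_{p,q} K_{pq} ∂_{\bar q}∂_p f`: `lapP_eq_sum`.)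
**Bo-F.**  `matGeo_hess_re`: `hess u z a b = D²u(a,b) - du(Γ(a,b))` (`RGeo.hess_eq`), `u = Re g`: `du(c) = Re ∑ ∂_l g c_l`, `D²u(a,b) = Re ∑ ∂_j∂_k g a_j b_k` (`fderiv ℝ g z c = fderiv ℂ g z c = ∑ ∂_l g c_l`), `Γ(a,b)^l = ∑ θ_j l k a_j b_k` (`chris`).  `bcNT_le`: by `bcT_eq` and `Rm_eq_RmM`:
`∑ (T_m)_{jk} conj(c_m) a_j b_k = RmV h Φ z b u a c` with `u = K conj(γ)` (`u_k = ∑_a K_{ka} conj γ_a`, `qf H u = bcN1`); `norm_RmV_le`; `bc_NT_le_of_forall` with `M = 2 R √n1`.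
-/

set_option autoImplicit false
set_option linter.unusedSectionVars false
set_option maxSynthPendingDepth 3
open scoped ContDiff Topology ComplexOrder ComplexConjugate Matrix

namespace Claimed.Agent.R316

variable {ι : Type} [Fintype ι] [DecidableEq ι]

/-- connection matrices `θ_p = H⁻¹ ∂_p H`, `(θ_p) a j = Γ^a_{pj}`. -/
noncomputable def bcTh (H : CE ι → Matrix ι ι ℂ) (p : ι) (z : CE ι) : Matrix ι ι ℂ :=
  (H z)⁻¹ * dzM p H z

/-- `(∂_k g)_k`. -/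
noncomputable def bcGr (g : CE ι → ℂ) (z : CE ι) : ι → ℂ := fun k => dz k g z

/-- the `(2,0)`-Hessian `σ_{jk} = ∂_j∂_k g - Γ^l_{jk} ∂_l g`. -/
noncomputable def bcSig (H : CE ι → Matrix ι ι ℂ) (g : CE ι → ℂ) (z : CE ι) : Matrix ι ι ℂ :=
  fun j k => dz j (fun y => dz k g y) z - ∑ l, bcTh H j z l k * dz l g z

/-- Hermitian product of `(2,0)`-tensors for the metric matrix `A`. -/
noncomputable def bcPair (A B C : Matrix ι ι ℂ) : ℂ := (A⁻¹ᵀ * B * A⁻¹ * Cᴴ).trace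

/-- covariant derivative `∇_p A` of a field of `(2,0)`-tensors. -/
noncomputable def bcD (H : CE ι → Matrix ι ι ℂ) (A : CE ι → Matrix ι ι ℂ) (p : ι) (z : CE ι) :
    Matrix ι ι ℂ :=
  dzM p A z - (bcTh H p z)ᵀ * A z - A z * bcTh H p z

/-- `|∂g|²`. -/
noncomputable def bcN1 (H : CE ι → Matrix ι ι ℂ) (g : CE ι → ℂ) (z : CE ι) : ℝ :=
  qf (H z)⁻¹ᵀ (bcGr g z)

/-- `|σ|²`. -/
noncomputable def bcN2 (H : CE ι → Matrix ι ι ℂ) (g : CE ι → ℂ) (z : CE ι) : ℝ :=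
  (bcPair (H z) (bcSig H g z) (bcSig H g z)).re

/-- `T_m = ∂_{\bar m} σ`. -/
noncomputable def bcT (H : CE ι → Matrix ι ι ℂ) (g : CE ι → ℂ) (m : ι) (z : CE ι) : Matrix ι ι ℂ :=
  dzbM m (bcSig H g) z

/-- `Y^p = h^{p \bar m} ⟨T_m, σ⟩`. -/
noncomputable def bcY (H : CE ι → Matrix ι ι ℂ) (g : CE ι → ℂ) (z : CE ι) : ι → ℂ :=
  fun p => ∑ m, (H z)⁻¹ p m * bcPair (H z) (bcT H g m z) (bcSig H g z)

/-- `h^{p \bar m} ⟨T_m, T_p⟩` for a family of tensors. -/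
noncomputable def bcSq3 (A : Matrix ι ι ℂ) (T : ι → Matrix ι ι ℂ) : ℝ :=
  (∑ p, ∑ m, A⁻¹ p m * bcPair A (T m) (T p)).re

/-- `|T|²`. -/
noncomputable def bcNT (H : CE ι → Matrix ι ι ℂ) (g : CE ι → ℂ) (z : CE ι) : ℝ :=
  bcSq3 (H z) (fun m => bcT H g m z)

/-- `|∇σ|² = h^{p \bar q} ⟨∇_pσ, ∇_qσ⟩`. -/
noncomputable def bcND (H : CE ι → Matrix ι ι ℂ) (g : CE ι → ℂ) (z : CE ι) : ℝ :=
  (∑ p, ∑ q, (H z)⁻¹ p q * bcPair (H z) (bcD H (bcSig H g) p z) (bcD H (bcSig H g) q z)).re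

/-- chart divergence `(det H)⁻¹ ∑_p ∂_p (det H Y^p)`. -/
noncomputable def bcDiv (H : CE ι → Matrix ι ι ℂ) (Y : CE ι → ι → ℂ) (z : CE ι) : ℂ :=
  ((H z).det)⁻¹ * ∑ p, dz p (fun y => (H y).det * Y y p) z

/-- the Ricci matrix `- levi (log det H)`. -/
noncomputable def bcRic (H : CE ι → Matrix ι ι ℂ) (z : CE ι) : Matrix ι ι ℂ :=
  - levi (fun w => Real.log (H w).det.re) z

/-- the Ricci term of the third Bochner formula. -/
noncomputable def bcRic2 (A Rc B : Matrix ι ι ℂ) : ℝ :=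
  (((A⁻¹ * Rc * A⁻¹)ᵀ * B * A⁻¹ * Bᴴ).trace + (A⁻¹ᵀ * B * (A⁻¹ * Rc * A⁻¹) * Bᴴ).trace).re

section alg

variable {A B C Rc : Matrix ι ι ℂ}

theorem bc_trace_mul_conjTranspose (X Y : Matrix ι ι ℂ) :
    (X * Yᴴ).trace = ∑ i, ∑ j, X i j * conj (Y i j) := by
  simp only [Matrix.trace, Matrix.diag_apply, Matrix.mul_apply, Matrix.conjTranspose_apply,
    Complex.star_def]

theorem bc_conjTranspose_transpose (F : Matrix ι ι ℂ) : Fᵀᴴ = Fᴴᵀ := by
  ext i j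
  rfl

/-- in a unitary frame `F` of `A` the product `bcPair` is the standard Hermitian product. -/
theorem bcPair_frame {F : Matrix ι ι ℂ} (h1 : Fᴴ * A * F = 1) (B C : Matrix ι ι ℂ) :
    bcPair A B C = ∑ i, ∑ j, (Fᵀ * B * F) i j * conj ((Fᵀ * C * F) i j) := by
  rw [← bc_trace_mul_conjTranspose, bcPair, simDiag_inv h1, Matrix.transpose_mul,
    Matrix.conjTranspose_mul, Matrix.conjTranspose_mul, bc_conjTranspose_transpose]
  calc (Fᴴᵀ * Fᵀ * B * (F * Fᴴ) * Cᴴ).trace = (Fᴴᵀ * (Fᵀ * B * F * (Fᴴ * Cᴴ))).trace := by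
        simp only [Matrix.mul_assoc]
    _ = (Fᵀ * B * F * (Fᴴ * Cᴴ) * Fᴴᵀ).trace := Matrix.trace_mul_comm _ _
    _ = _ := by simp only [Matrix.mul_assoc]

theorem bc_exists_frame (hA : A.PosDef) : ∃ F : Matrix ι ι ℂ, F.det ≠ 0 ∧ Fᴴ * A * F = 1 := by
  obtain ⟨F, d, h0, h1, -⟩ := exists_simDiag hA hA.isHermitian
  exact ⟨F, h0, h1⟩

theorem bc_inv_apply {F : Matrix ι ι ℂ} (h1 : Fᴴ * A * F = 1) (p m : ι) :
    A⁻¹ p m = ∑ i, F p i * conj (F m i) := by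
  rw [simDiag_inv h1, Matrix.mul_apply]
  rfl

theorem bcPair_self_frame {F : Matrix ι ι ℂ} (h1 : Fᴴ * A * F = 1) (B : Matrix ι ι ℂ) :
    bcPair A B B = ((∑ i, ∑ j, ‖(Fᵀ * B * F) i j‖ ^ 2 : ℝ) : ℂ) := by
  rw [bcPair_frame h1]
  push_cast
  refine Finset.sum_congr rfl fun i _ => Finset.sum_congr rfl fun j _ => ?_
  rw [Complex.mul_conj']

theorem bcPair_self_re_frame {F : Matrix ι ι ℂ} (h1 : Fᴴ * A * F = 1) (B : Matrix ι ι ℂ) :
    (bcPair A B B).re = ∑ i, ∑ j, ‖(Fᵀ * B * F) i j‖ ^ 2 := by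
  rw [bcPair_self_frame h1, Complex.ofReal_re]

/-- Cauchy-Schwarz for double sums. -/
theorem bc_cs2 (X Y : ι → ι → ℂ) :
    ‖∑ i, ∑ j, X i j * conj (Y i j)‖ ^ 2 ≤ (∑ i, ∑ j, ‖X i j‖ ^ 2) * ∑ i, ∑ j, ‖Y i j‖ ^ 2 := by
  have h := lv_cauchy_schwarz (Finset.univ : Finset (ι × ι)) (fun q => Y q.1 q.2)
    (fun q => X q.1 q.2)
  simp only [Fintype.sum_prod_type] at h
  rw [mul_comm]
  refine le_trans (le_of_eq ?_) h
  congr 2
  exact Finset.sum_congr rfl fun i _ => Finset.sum_congr rfl fun j _ => mul_comm _ _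

theorem bcPair_sum_left {α : Type} (s : Finset α) (A : Matrix ι ι ℂ) (B : α → Matrix ι ι ℂ)
    (C : Matrix ι ι ℂ) : bcPair A (∑ a ∈ s, B a) C = ∑ a ∈ s, bcPair A (B a) C := by
  simp only [bcPair, Matrix.mul_sum, Matrix.sum_mul, Matrix.trace_sum]

theorem bcPair_sum_right {α : Type} (s : Finset α) (A B : Matrix ι ι ℂ) (C : α → Matrix ι ι ℂ) :
    bcPair A B (∑ a ∈ s, C a) = ∑ a ∈ s, bcPair A B (C a) := by
  simp only [bcPair, Matrix.conjTranspose_sum, Matrix.mul_sum, Matrix.trace_sum]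

theorem bcPair_conj (hA : A.PosDef) (B C : Matrix ι ι ℂ) : conj (bcPair A B C) = bcPair A C B := by
  have hi : (A⁻¹)ᴴ = A⁻¹ := hA.inv.isHermitian.eq
  have hit : (A⁻¹ᵀ)ᴴ = A⁻¹ᵀ := by rw [bc_conjTranspose_transpose, hi]
  rw [bcPair, bcPair, ← Complex.star_def, ← Matrix.trace_conjTranspose]
  simp only [Matrix.conjTranspose_mul, Matrix.conjTranspose_conjTranspose, hi, hit]
  calc (C * (A⁻¹ * (Bᴴ * A⁻¹ᵀ))).trace = ((C * A⁻¹ * Bᴴ) * A⁻¹ᵀ).trace := by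
        simp only [Matrix.mul_assoc]
    _ = (A⁻¹ᵀ * (C * A⁻¹ * Bᴴ)).trace := Matrix.trace_mul_comm _ _
    _ = _ := by simp only [Matrix.mul_assoc]

theorem bcPair_self (hA : A.PosDef) (B : Matrix ι ι ℂ) :
    (((bcPair A B B).re : ℝ) : ℂ) = bcPair A B B ∧ 0 ≤ (bcPair A B B).re := by
  obtain ⟨F, -, h1⟩ := bc_exists_frame hA
  rw [bcPair_self_frame h1, Complex.ofReal_re]
  exact ⟨rfl, Finset.sum_nonneg fun _ _ => Finset.sum_nonneg fun _ _ => sq_nonneg _⟩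

theorem bcPair_add_left (A B B' C : Matrix ι ι ℂ) :
    bcPair A (B + B') C = bcPair A B C + bcPair A B' C := by
  simp only [bcPair, Matrix.mul_add, Matrix.add_mul, Matrix.trace_add]

theorem bcPair_add_right (A B C C' : Matrix ι ι ℂ) :
    bcPair A B (C + C') = bcPair A B C + bcPair A B C' := by
  simp only [bcPair, Matrix.conjTranspose_add, Matrix.mul_add, Matrix.trace_add]

theorem bcPair_smul_left (A : Matrix ι ι ℂ) (c : ℂ) (B C : Matrix ι ι ℂ) :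
    bcPair A (c • B) C = c * bcPair A B C := by
  simp only [bcPair, Matrix.mul_smul, Matrix.smul_mul, Matrix.trace_smul, smul_eq_mul]

theorem bcPair_smul_right (A : Matrix ι ι ℂ) (c : ℂ) (B C : Matrix ι ι ℂ) :
    bcPair A B (c • C) = conj c * bcPair A B C := by
  simp only [bcPair, Matrix.conjTranspose_smul, Matrix.mul_smul, Matrix.trace_smul, smul_eq_mul,
    Complex.star_def]

/-- Cauchy-Schwarz. -/
theorem bcPair_norm_sq_le (hA : A.PosDef) (B C : Matrix ι ι ℂ) :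
    ‖bcPair A B C‖ ^ 2 ≤ (bcPair A B B).re * (bcPair A C C).re := by
  obtain ⟨F, -, h1⟩ := bc_exists_frame hA
  rw [bcPair_self_re_frame h1, bcPair_self_re_frame h1, bcPair_frame h1]
  exact bc_cs2 _ _

theorem bc_frame_apply (F X : Matrix ι ι ℂ) (a b : ι) :
    (Fᵀ * X * F) a b = ∑ j, ∑ k, X j k * F j a * F k b := by
  simp only [Matrix.mul_apply, Matrix.transpose_apply, Finset.sum_mul]
  rw [Finset.sum_comm]
  refine Finset.sum_congr rfl fun j _ => Finset.sum_congr rfl fun k _ => ?_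
  ring

theorem bc_bilin_frame (F B : Matrix ι ι ℂ) (a b : ι → ℂ) :
    ∑ j, ∑ k, B j k * (F *ᵥ a) j * (F *ᵥ b) k = ∑ i, ∑ l, (Fᵀ * B * F) i l * a i * b l := by
  simp only [bc_frame_apply, Matrix.mulVec, dotProduct, Finset.sum_mul, Finset.mul_sum]
  calc ∑ j, ∑ k, ∑ l, ∑ i, B j k * (F j i * a i) * (F k l * b l)
      = ∑ j, ∑ l, ∑ k, ∑ i, B j k * (F j i * a i) * (F k l * b l) :=
        Finset.sum_congr rfl fun j _ => Finset.sum_comm
    _ = ∑ l, ∑ j, ∑ k, ∑ i, B j k * (F j i * a i) * (F k l * b l) := Finset.sum_comm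
    _ = ∑ l, ∑ j, ∑ i, ∑ k, B j k * (F j i * a i) * (F k l * b l) :=
        Finset.sum_congr rfl fun l _ => Finset.sum_congr rfl fun j _ => Finset.sum_comm
    _ = ∑ l, ∑ i, ∑ j, ∑ k, B j k * (F j i * a i) * (F k l * b l) :=
        Finset.sum_congr rfl fun l _ => Finset.sum_comm
    _ = ∑ i, ∑ l, ∑ j, ∑ k, B j k * (F j i * a i) * (F k l * b l) := Finset.sum_comm
    _ = _ := by
        refine Finset.sum_congr rfl fun i _ => Finset.sum_congr rfl fun l _ =>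
          Finset.sum_congr rfl fun j _ => Finset.sum_congr rfl fun k _ => ?_
        ring

theorem bc_mulVec_inv {F : Matrix ι ι ℂ} (hF : F.det ≠ 0) (a : ι → ℂ) : F *ᵥ (F⁻¹ *ᵥ a) = a := by
  rw [Matrix.mulVec_mulVec, Matrix.mul_nonsing_inv F (isUnit_iff_ne_zero.2 hF), Matrix.one_mulVec]

/-- the family `T` in the frame `F` (last index). -/
noncomputable def bcFr (F : Matrix ι ι ℂ) (T : ι → Matrix ι ι ℂ) (i : ι) : Matrix ι ι ℂ :=
  ∑ m, conj (F m i) • T m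

theorem bc_sum_inv_pair_left {F : Matrix ι ι ℂ} (h1 : Fᴴ * A * F = 1) (T : ι → Matrix ι ι ℂ)
    (C : Matrix ι ι ℂ) (p : ι) :
    ∑ m, A⁻¹ p m * bcPair A (T m) C = ∑ i, F p i * bcPair A (bcFr F T i) C := by
  simp only [bcFr, bcPair_sum_left, bcPair_smul_left, bc_inv_apply h1, Finset.sum_mul,
    Finset.mul_sum]
  rw [Finset.sum_comm]
  refine Finset.sum_congr rfl fun i _ => Finset.sum_congr rfl fun m _ => ?_
  ring

theorem bcSq3_frame {F : Matrix ι ι ℂ} (h1 : Fᴴ * A * F = 1) (T : ι → Matrix ι ι ℂ) :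
    ∑ p, ∑ m, A⁻¹ p m * bcPair A (T m) (T p) = ∑ i, bcPair A (bcFr F T i) (bcFr F T i) := by
  have e1 : ∀ p, ∑ m, A⁻¹ p m * bcPair A (T m) (T p) =
      ∑ i, F p i * bcPair A (bcFr F T i) (T p) := fun p => bc_sum_inv_pair_left h1 T (T p) p
  rw [Finset.sum_congr rfl fun p _ => e1 p, Finset.sum_comm]
  refine Finset.sum_congr rfl fun i _ => ?_
  conv_rhs => rw [bcFr, bcPair_sum_right]
  refine Finset.sum_congr rfl fun p _ => ?_
  rw [bcPair_smul_right, Complex.conj_conj]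
  rfl

theorem bcSq3_eq_frame {F : Matrix ι ι ℂ} (h1 : Fᴴ * A * F = 1) (T : ι → Matrix ι ι ℂ) :
    bcSq3 A T = ∑ i, (bcPair A (bcFr F T i) (bcFr F T i)).re := by
  rw [bcSq3, bcSq3_frame h1, Complex.re_sum]

/-- the bilinear form of a `(2,0)`-tensor. -/
theorem bcPair_bilin_le (hA : A.PosDef) (B : Matrix ι ι ℂ) (a b : ι → ℂ) :
    ‖∑ j, ∑ k, B j k * a j * b k‖ ^ 2 ≤ (bcPair A B B).re * (qf A a * qf A b) := by
  obtain ⟨F, hF, h1⟩ := bc_exists_frame hA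
  rw [← bc_mulVec_inv hF a, ← bc_mulVec_inv hF b, bc_bilin_frame, simDiag_qf_one h1,
    simDiag_qf_one h1, bcPair_self_re_frame h1]
  set a' := F⁻¹ *ᵥ a
  set b' := F⁻¹ *ᵥ b
  have h := bc_cs2 (fun i l => (Fᵀ * B * F) i l) (fun i l => conj (a' i * b' l))
  have e1 : ∑ i, ∑ l, (Fᵀ * B * F) i l * conj (conj (a' i * b' l)) =
      ∑ i, ∑ l, (Fᵀ * B * F) i l * a' i * b' l := by
    refine Finset.sum_congr rfl fun i _ => Finset.sum_congr rfl fun l _ => ?_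
    rw [Complex.conj_conj]
    ring
  have e2 : ∑ i, ∑ l, ‖conj (a' i * b' l)‖ ^ 2 = (∑ i, ‖a' i‖ ^ 2) * ∑ l, ‖b' l‖ ^ 2 := by
    rw [Finset.sum_mul_sum]
    refine Finset.sum_congr rfl fun i _ => Finset.sum_congr rfl fun l _ => ?_
    rw [RCLike.norm_conj, norm_mul, mul_pow]
  rw [e1, e2] at h
  exact h

theorem bcSq3_nonneg (hA : A.PosDef) (T : ι → Matrix ι ι ℂ) : 0 ≤ bcSq3 A T := by
  obtain ⟨F, -, h1⟩ := bc_exists_frame hA
  rw [bcSq3_eq_frame h1]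
  exact Finset.sum_nonneg fun i _ => (bcPair_self hA _).2

/-- `|Y|² ≤ |T|² |C|²` for `Y^p = h^{p \bar m}⟨T_m, C⟩`. -/
theorem bc_qf_Y_le (hA : A.PosDef) (T : ι → Matrix ι ι ℂ) (C : Matrix ι ι ℂ) :
    qf A (fun p => ∑ m, A⁻¹ p m * bcPair A (T m) C) ≤ bcSq3 A T * (bcPair A C C).re := by
  obtain ⟨F, -, h1⟩ := bc_exists_frame hA
  have e1 : (fun p => ∑ m, A⁻¹ p m * bcPair A (T m) C) =
      F *ᵥ fun i => bcPair A (bcFr F T i) C := by
    funext p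
    rw [bc_sum_inv_pair_left h1]
    rfl
  rw [e1, simDiag_qf_one h1, bcSq3_eq_frame h1, Finset.sum_mul]
  exact Finset.sum_le_sum fun i _ => bcPair_norm_sq_le hA _ _

/-- `|T|² ≤ n³ M²` if the trilinear form of `T` is bounded by `M`. -/
theorem bcSq3_le_of_forall (hA : A.PosDef) (T : ι → Matrix ι ι ℂ) {M : ℝ} (hM : 0 ≤ M)
    (h : ∀ a b c : ι → ℂ, ‖∑ m, ∑ j, ∑ k, T m j k * conj (c m) * a j * b k‖ ≤
      M * (Real.sqrt (qf A a) * Real.sqrt (qf A b) * Real.sqrt (qf A c))) :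
    bcSq3 A T ≤ (Fintype.card ι : ℝ) ^ 3 * M ^ 2 := by
  obtain ⟨F, -, h1⟩ := bc_exists_frame hA
  have hq : ∀ i, qf A (fun j => F j i) = 1 := by
    intro i
    have e : (fun j => F j i) = F *ᵥ Pi.single i 1 := by
      rw [Matrix.mulVec_single_one]
      rfl
    rw [e, simDiag_qf_one h1, Finset.sum_eq_single i]
    · simp
    · intro l _ hl
      simp [Pi.single_eq_of_ne hl]
    · intro hi
      exact absurd (Finset.mem_univ i) hi
  have key : ∀ i a b, ‖(Fᵀ * bcFr F T i * F) a b‖ ^ 2 ≤ M ^ 2 := by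
    intro i a b
    have h2 := h (fun j => F j a) (fun j => F j b) (fun j => F j i)
    rw [hq, hq, hq, Real.sqrt_one, mul_one, mul_one, mul_one] at h2
    have e : (Fᵀ * bcFr F T i * F) a b = ∑ m, ∑ j, ∑ k, T m j k * conj (F m i) * F j a * F k b := by
      rw [bc_frame_apply]
      simp only [bcFr, Matrix.sum_apply, Matrix.smul_apply, smul_eq_mul, Finset.sum_mul]
      calc ∑ j, ∑ k, ∑ m, conj (F m i) * T m j k * F j a * F k b
          = ∑ j, ∑ m, ∑ k, conj (F m i) * T m j k * F j a * F k b :=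
            Finset.sum_congr rfl fun j _ => Finset.sum_comm
        _ = ∑ m, ∑ j, ∑ k, conj (F m i) * T m j k * F j a * F k b := Finset.sum_comm
        _ = _ := by
            refine Finset.sum_congr rfl fun m _ => Finset.sum_congr rfl fun j _ =>
              Finset.sum_congr rfl fun k _ => ?_
            ring
    rw [e]
    exact pow_le_pow_left₀ (norm_nonneg _) h2 2
  rw [bcSq3_eq_frame h1]
  calc ∑ i, (bcPair A (bcFr F T i) (bcFr F T i)).re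
      = ∑ i, ∑ a, ∑ b, ‖(Fᵀ * bcFr F T i * F) a b‖ ^ 2 :=
        Finset.sum_congr rfl fun i _ => bcPair_self_re_frame h1 _
    _ ≤ ∑ _i : ι, ∑ _a : ι, ∑ _b : ι, M ^ 2 :=
        Finset.sum_le_sum fun i _ => Finset.sum_le_sum fun a _ => Finset.sum_le_sum fun b _ =>
          key i a b
    _ = (Fintype.card ι : ℝ) ^ 3 * M ^ 2 := by
        simp only [Finset.sum_const, Finset.card_univ, nsmul_eq_mul]
        ring

theorem bcRic2_nonneg (hA : A.PosDef) (hR : Rc.PosSemidef) (B : Matrix ι ι ℂ) :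
    0 ≤ bcRic2 A Rc B := by
  have hi : A⁻¹.PosDef := hA.inv
  have hP : (A⁻¹ * Rc * A⁻¹).PosSemidef := by
    have := hR.conjTranspose_mul_mul_same A⁻¹
    rwa [hi.isHermitian.eq] at this
  have h1 : 0 ≤ ((A⁻¹ * Rc * A⁻¹)ᵀ * (B * A⁻¹ * Bᴴ)).trace.re :=
    trace_mul_nonneg hP.transpose (hi.posSemidef.mul_mul_conjTranspose_same B)
  have h2 : 0 ≤ (A⁻¹ᵀ * (B * (A⁻¹ * Rc * A⁻¹) * Bᴴ)).trace.re :=
    trace_mul_nonneg hi.posSemidef.transpose (hP.mul_mul_conjTranspose_same B)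
  rw [bcRic2, Complex.add_re]
  simp only [Matrix.mul_assoc] at h1 h2 ⊢
  linarith

theorem bc_qf_ric_nonneg (hA : A.PosDef) (hR : Rc.PosSemidef) (ξ : ι → ℂ) :
    0 ≤ qf (A⁻¹ * Rc * A⁻¹)ᵀ ξ := by
  have hi : A⁻¹.PosDef := hA.inv
  have hP : (A⁻¹ * Rc * A⁻¹).PosSemidef := by
    have := hR.conjTranspose_mul_mul_same A⁻¹
    rwa [hi.isHermitian.eq] at this
  exact qf_nonneg hP.transpose ξ

end alg

variable {H : CE ι → Matrix ι ι ℂ} {U : Set (CE ι)} {g : CE ι → ℂ} {z : CE ι}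

section calculus

theorem IsKMat.cdAt (hH : IsKMat H U) (hz : z ∈ U) (j k : ι) :
    ContDiffAt ℝ ∞ (fun y => H y j k) z :=
  (hH.smooth j k).contDiffAt (hH.isOpen.mem_nhds hz)

theorem IsKMat.cdAt2 (hH : IsKMat H U) (hz : z ∈ U) (j k : ι) :
    ContDiffAt ℝ 2 (fun y => H y j k) z :=
  (hH.cdAt hz j k).of_le lv_two_le_infty

theorem IsKMat.diffAt (hH : IsKMat H U) (hz : z ∈ U) (j k : ι) :
    DifferentiableAt ℝ (fun y => H y j k) z :=
  (hH.cdAt hz j k).differentiableAt (by simp)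

theorem IsKMat.det_ne (hH : IsKMat H U) (hz : z ∈ U) : (H z).det ≠ 0 :=
  det_ne_zero_of_posDef (hH.posDef z hz)

theorem IsKMat.ev_mem (hH : IsKMat H U) (hz : z ∈ U) : ∀ᶠ y in 𝓝 z, y ∈ U :=
  hH.isOpen.mem_nhds hz

theorem IsKMat.ev_herm (hH : IsKMat H U) (hz : z ∈ U) : ∀ᶠ y in 𝓝 z, (H y).IsHermitian := by
  filter_upwards [hH.ev_mem hz] with y hy
  exact (hH.posDef y hy).isHermitian

theorem IsKMat.ev_closed (hH : IsKMat H U) (hz : z ∈ U) :
    ∀ᶠ w in 𝓝 z, ∀ a b c, dz c (fun y => H y a b) w = dz b (fun y => H y a c) w := by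
  filter_upwards [hH.ev_mem hz] with y hy
  exact fun a b c => hH.closed y hy a b c

theorem IsKMat.diffAt_inv (hH : IsKMat H U) (hz : z ∈ U) (j k : ι) :
    DifferentiableAt ℝ (fun y => (H y)⁻¹ j k) z :=
  differentiableAt_matInv (hH.diffAt hz) (hH.det_ne hz) j k

theorem IsKMat.inv_herm (hH : IsKMat H U) (hz : z ∈ U) : ((H z)⁻¹)ᴴ = (H z)⁻¹ :=
  (hH.posDef z hz).inv.isHermitian.eq

theorem bcTh_conjTranspose (hH : IsKMat H U) (hz : z ∈ U) (q : ι) :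
    (bcTh H q z)ᴴ = dzbM q H z * (H z)⁻¹ := by
  rw [bcTh, Matrix.conjTranspose_mul, hH.inv_herm hz,
    conjTranspose_dzM_of_isHermitian (hH.ev_herm hz)]

theorem bc_dzM_mul4 {P Q R S : CE ι → Matrix ι ι ℂ}
    (hP : ∀ j k, DifferentiableAt ℝ (fun y => P y j k) z)
    (hQ : ∀ j k, DifferentiableAt ℝ (fun y => Q y j k) z)
    (hR : ∀ j k, DifferentiableAt ℝ (fun y => R y j k) z)
    (hS : ∀ j k, DifferentiableAt ℝ (fun y => S y j k) z) (p : ι) :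
    dzM p (fun y => P y * Q y * R y * S y) z =
      dzM p P z * Q z * R z * S z + P z * dzM p Q z * R z * S z + P z * Q z * dzM p R z * S z
        + P z * Q z * R z * dzM p S z := by
  have h2 := differentiableAt_matMul hP hQ
  have h3 := differentiableAt_matMul h2 hR
  rw [dzM_mul (A := fun y => P y * Q y * R y) h3 hS, dzM_mul (A := fun y => P y * Q y) h2 hR,
    dzM_mul hP hQ]
  simp only [Matrix.add_mul]

theorem bc_dzbM_mul4 {P Q R S : CE ι → Matrix ι ι ℂ}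
    (hP : ∀ j k, DifferentiableAt ℝ (fun y => P y j k) z)
    (hQ : ∀ j k, DifferentiableAt ℝ (fun y => Q y j k) z)
    (hR : ∀ j k, DifferentiableAt ℝ (fun y => R y j k) z)
    (hS : ∀ j k, DifferentiableAt ℝ (fun y => S y j k) z) (p : ι) :
    dzbM p (fun y => P y * Q y * R y * S y) z =
      dzbM p P z * Q z * R z * S z + P z * dzbM p Q z * R z * S z + P z * Q z * dzbM p R z * S z
        + P z * Q z * R z * dzbM p S z := by
  have h2 := differentiableAt_matMul hP hQ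
  have h3 := differentiableAt_matMul h2 hR
  rw [dzbM_mul (A := fun y => P y * Q y * R y) h3 hS, dzbM_mul (A := fun y => P y * Q y) h2 hR,
    dzbM_mul hP hQ]
  simp only [Matrix.add_mul]

theorem bc_diffAt_conjTranspose {B : CE ι → Matrix ι ι ℂ}
    (hB : ∀ j k, DifferentiableAt ℝ (fun y => B y j k) z) (j k : ι) :
    DifferentiableAt ℝ (fun y => (B y)ᴴ j k) z :=
  (hB k j).star

theorem bc_dzM_inv (hH : IsKMat H U) (hz : z ∈ U) (p : ι) :
    dzM p (fun y => (H y)⁻¹) z = - (bcTh H p z * (H z)⁻¹) := by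
  rw [dzM_inv (hH.diffAt hz) (hH.det_ne hz), bcTh]

theorem bc_dzbM_inv (hH : IsKMat H U) (hz : z ∈ U) (q : ι) :
    dzbM q (fun y => (H y)⁻¹) z = - ((H z)⁻¹ * (bcTh H q z)ᴴ) := by
  rw [dzbM_inv (hH.diffAt hz) (hH.det_ne hz), bcTh_conjTranspose hH hz, Matrix.mul_assoc]

/-- Kaehler symmetry `Γ^a_{pj} = Γ^a_{jp}`. -/
theorem bcTh_symm (hH : IsKMat H U) (hz : z ∈ U) (p j a : ι) : bcTh H p z a j = bcTh H j z a p := by
  simp only [bcTh, Matrix.mul_apply, dzM_apply]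
  exact Finset.sum_congr rfl fun b _ => by rw [hH.closed z hz b j p]

theorem bcSig_symm (hH : IsKMat H U) (hg : DifferentiableOn ℂ g U) (hz : z ∈ U) (j k : ι) :
    bcSig H g z j k = bcSig H g z k j := by
  have hg2 : ContDiffAt ℝ 2 g z :=
    ((hol_contDiffOn_real hH.isOpen hg).contDiffAt (hH.isOpen.mem_nhds hz)).of_le lv_two_le_infty
  simp only [bcSig]
  rw [dz_dz_comm hg2]
  congr 1
  exact Finset.sum_congr rfl fun l _ => by rw [bcTh_symm hH hz j k l]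

/-- **metric compatibility**, holomorphic direction. -/
theorem dz_bcPair (hH : IsKMat H U) (hz : z ∈ U) {A B : CE ι → Matrix ι ι ℂ}
    (hA : ∀ j k, DifferentiableAt ℝ (fun y => A y j k) z)
    (hB : ∀ j k, DifferentiableAt ℝ (fun y => B y j k) z) (p : ι) :
    dz p (fun y => bcPair (H y) (A y) (B y)) z =
      bcPair (H z) (bcD H A p z) (B z) + bcPair (H z) (A z) (dzbM p B z) := by
  have dK := hH.diffAt_inv hz
  have dKT : ∀ j k, DifferentiableAt ℝ (fun y => ((H y)⁻¹)ᵀ j k) z := fun j k => dK k j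
  have dBH := bc_diffAt_conjTranspose hB
  have d4 := differentiableAt_matMul (differentiableAt_matMul (differentiableAt_matMul dKT hA) dK) dBH
  simp only [bcPair]
  rw [dz_matTrace d4, bc_dzM_mul4 dKT hA dK dBH, dzM_transpose (fun y => (H y)⁻¹),
    bc_dzM_inv hH hz, dzM_conjTranspose, bcD, ← Matrix.trace_add]
  congr 1
  simp only [Matrix.transpose_neg, Matrix.transpose_mul, Matrix.neg_mul, Matrix.mul_neg,
    Matrix.mul_sub, Matrix.sub_mul, Matrix.mul_assoc]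
  abel

/-- **metric compatibility**, antiholomorphic direction. -/
theorem dzb_bcPair (hH : IsKMat H U) (hz : z ∈ U) {A B : CE ι → Matrix ι ι ℂ}
    (hA : ∀ j k, DifferentiableAt ℝ (fun y => A y j k) z)
    (hB : ∀ j k, DifferentiableAt ℝ (fun y => B y j k) z) (q : ι) :
    dzb q (fun y => bcPair (H y) (A y) (B y)) z =
      bcPair (H z) (dzbM q A z) (B z) + bcPair (H z) (A z) (bcD H B q z) := by
  have dK := hH.diffAt_inv hz
  have dKT : ∀ j k, DifferentiableAt ℝ (fun y => ((H y)⁻¹)ᵀ j k) z := fun j k => dK k j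
  have dBH := bc_diffAt_conjTranspose hB
  have d4 := differentiableAt_matMul (differentiableAt_matMul (differentiableAt_matMul dKT hA) dK) dBH
  simp only [bcPair]
  rw [dzb_matTrace d4, bc_dzbM_mul4 dKT hA dK dBH, dzbM_transpose (fun y => (H y)⁻¹),
    bc_dzbM_inv hH hz, dzbM_conjTranspose, bcD]
  simp only [Matrix.transpose_neg, Matrix.transpose_mul, Matrix.neg_mul, Matrix.mul_neg,
    Matrix.conjTranspose_sub, Matrix.conjTranspose_mul, Matrix.mul_sub, Matrix.trace_add,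
    Matrix.trace_sub, Matrix.trace_neg, bc_conjTranspose_transpose]
  have e : ((bcTh H q z)ᴴᵀ * (H z)⁻¹ᵀ * A z * (H z)⁻¹ * (B z)ᴴ).trace =
      ((H z)⁻¹ᵀ * A z * (H z)⁻¹ * ((B z)ᴴ * (bcTh H q z)ᴴᵀ)).trace := by
    calc _ = ((bcTh H q z)ᴴᵀ * ((H z)⁻¹ᵀ * A z * (H z)⁻¹ * (B z)ᴴ)).trace := by
          simp only [Matrix.mul_assoc]
      _ = (((H z)⁻¹ᵀ * A z * (H z)⁻¹ * (B z)ᴴ) * (bcTh H q z)ᴴᵀ).trace :=
          Matrix.trace_mul_comm _ _
      _ = _ := by simp only [Matrix.mul_assoc]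
  rw [e]
  simp only [Matrix.mul_assoc]
  ring

theorem IsKMat.cdOn_inv (hH : IsKMat H U) (j k : ι) : ContDiffOn ℝ ∞ (fun y => (H y)⁻¹ j k) U :=
  contDiffOn_matInv_of_posDef hH.smooth hH.posDef j k

theorem bc_cdOn_hol (hH : IsKMat H U) (hg : DifferentiableOn ℂ g U) : ContDiffOn ℝ ∞ g U :=
  hol_contDiffOn_real hH.isOpen hg

theorem contDiffOn_bcTh (hH : IsKMat H U) (p a j : ι) :
    ContDiffOn ℝ ∞ (fun y => bcTh H p y a j) U := by
  exact contDiffOn_matMul hH.cdOn_inv (contDiffOn_dzM hH.isOpen hH.smooth) a j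

theorem contDiffOn_bcSig (hH : IsKMat H U) (hg : DifferentiableOn ℂ g U) (j k : ι) :
    ContDiffOn ℝ ∞ (fun y => bcSig H g y j k) U := by
  have hg' := bc_cdOn_hol hH hg
  simp only [bcSig]
  exact (contDiffOn_dz hH.isOpen (contDiffOn_dz hH.isOpen hg')).sub
    (ContDiffOn.sum fun l _ => (contDiffOn_bcTh hH j l k).mul (contDiffOn_dz hH.isOpen hg'))

theorem contDiffOn_bcT (hH : IsKMat H U) (hg : DifferentiableOn ℂ g U) (m j k : ι) :
    ContDiffOn ℝ ∞ (fun y => bcT H g m y j k) U := by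
  exact contDiffOn_dzbM hH.isOpen (contDiffOn_bcSig hH hg) j k

theorem contDiffOn_bcD (hH : IsKMat H U) {A : CE ι → Matrix ι ι ℂ}
    (hA : ∀ j k, ContDiffOn ℝ ∞ (fun y => A y j k) U) (p j k : ι) :
    ContDiffOn ℝ ∞ (fun y => bcD H A p y j k) U := by
  have h1 := contDiffOn_dzM (l := p) hH.isOpen hA j k
  have h2 := contDiffOn_matMul (A := fun y => (bcTh H p y)ᵀ) (B := A)
    (fun a b => contDiffOn_bcTh hH p b a) hA j k
  have h3 := contDiffOn_matMul (A := A) (B := fun y => bcTh H p y) hA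
    (fun a b => contDiffOn_bcTh hH p a b) j k
  exact (h1.sub h2).sub h3

theorem contDiffOn_bcPair (hH : IsKMat H U) {A B : CE ι → Matrix ι ι ℂ}
    (hA : ∀ j k, ContDiffOn ℝ ∞ (fun y => A y j k) U)
    (hB : ∀ j k, ContDiffOn ℝ ∞ (fun y => B y j k) U) :
    ContDiffOn ℝ ∞ (fun y => bcPair (H y) (A y) (B y)) U := by
  exact contDiffOn_matTrace (contDiffOn_matMul (contDiffOn_matMul (contDiffOn_matMul
    (A := fun y => ((H y)⁻¹)ᵀ) (fun a b => hH.cdOn_inv b a) hA) hH.cdOn_inv)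
    (contDiffOn_conjTranspose hB))

theorem contDiffOn_bcN1 (hH : IsKMat H U) (hg : DifferentiableOn ℂ g U) :
    ContDiffOn ℝ ∞ (bcN1 H g) U := by
  exact contDiffOn_qf (H := fun y => ((H y)⁻¹)ᵀ) (fun a b => hH.cdOn_inv b a)
    (fun j => contDiffOn_dz hH.isOpen (bc_cdOn_hol hH hg))

theorem contDiffOn_bcN2 (hH : IsKMat H U) (hg : DifferentiableOn ℂ g U) :
    ContDiffOn ℝ ∞ (bcN2 H g) U := by
  exact Complex.reCLM.contDiff.comp_contDiffOn
    (contDiffOn_bcPair hH (contDiffOn_bcSig hH hg) (contDiffOn_bcSig hH hg))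

theorem contDiffOn_bcY (hH : IsKMat H U) (hg : DifferentiableOn ℂ g U) (p : ι) :
    ContDiffOn ℝ ∞ (fun y => bcY H g y p) U := by
  simp only [bcY]
  exact ContDiffOn.sum fun m _ => (hH.cdOn_inv p m).mul
    (contDiffOn_bcPair hH (contDiffOn_bcT hH hg m) (contDiffOn_bcSig hH hg))

end calculus

section curv

theorem IsKMat.diffAt_bcTh (hH : IsKMat H U) (hz : z ∈ U) (p a j : ι) :
    DifferentiableAt ℝ (fun y => bcTh H p y a j) z :=
  ((contDiffOn_bcTh hH p a j).contDiffAt (hH.isOpen.mem_nhds hz)).differentiableAt (by simp)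

theorem bc_holAt (hH : IsKMat H U) {F : CE ι → ℂ} (hF : DifferentiableOn ℂ F U) (hz : z ∈ U) :
    DifferentiableAt ℂ F z :=
  (hF z hz).differentiableAt (hH.isOpen.mem_nhds hz)

/-- `∂_{\bar m} θ_l = - K Rm_{l \bar m}`. -/
theorem dzbM_bcTh (hH : IsKMat H U) (hz : z ∈ U) (l m : ι) :
    dzbM m (bcTh H l) z = - ((H z)⁻¹ * RmM H z l m) := by
  have h := RmM_eq_dzbM_connection (hH.cdAt2 hz) (hH.det_ne hz) l m
  have e : bcTh H l = fun w => (H w)⁻¹ * dzM l H w := rfl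
  rw [h, e, Matrix.mul_neg, neg_neg, ← Matrix.mul_assoc,
    inv_mul_cancel_of_posDef (hH.posDef z hz), Matrix.one_mul]

/-- `T = Rm * ∂g`. -/
theorem bcT_eq (hH : IsKMat H U) (hg : DifferentiableOn ℂ g U) (hz : z ∈ U) (m j k : ι) :
    bcT H g m z j k = ∑ l, ((H z)⁻¹ * RmM H z j m) l k * dz l g z := by
  have h1 : DifferentiableAt ℂ (dz j (fun y => dz k g y)) z :=
    bc_holAt hH (differentiableOn_dz hH.isOpen (differentiableOn_dz hH.isOpen hg k) j) hz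
  have h2 : ∀ l, DifferentiableAt ℂ (dz l g) z := fun l =>
    bc_holAt hH (differentiableOn_dz hH.isOpen hg l) hz
  have h2r : ∀ l, DifferentiableAt ℝ (dz l g) z := fun l => (h2 l).restrictScalars ℝ
  have h3 : ∀ l, DifferentiableAt ℝ (fun y => bcTh H j y l k * dz l g y) z := fun l =>
    (hH.diffAt_bcTh hz j l k).mul (h2r l)
  show dzb m (fun y => dz j (fun y => dz k g y) y - ∑ l, bcTh H j y l k * dz l g y) z = _
  rw [dzb_sub (h1.restrictScalars ℝ) (DifferentiableAt.fun_sum fun l _ => h3 l),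
    dzb_of_differentiableAt h1, dzb_sum _ _ (fun l _ => h3 l), zero_sub, ← Finset.sum_neg_distrib]
  refine Finset.sum_congr rfl fun l _ => ?_
  rw [dzb_mul (hH.diffAt_bcTh hz j l k) (h2r l), dzb_of_differentiableAt (h2 l), mul_zero,
    add_zero]
  have e : dzb m (fun y => bcTh H j y l k) z = dzbM m (bcTh H j) z l k := rfl
  rw [e, dzbM_bcTh hH hz, Matrix.neg_apply]
  ring

/-- the Ricci contraction over the SECOND pair of indices. -/
theorem sum_inv_RmM (hH : IsKMat H U) (hz : z ∈ U) :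
    ∑ p, ∑ q, (H z)⁻¹ p q • RmM H z p q = bcRic H z := by
  ext a k
  have h1 := trace_inv_mul_RmM (hH.cdAt2 hz) (hH.ev_herm hz) (hH.posDef z hz) k a
  rw [bcRic, Matrix.neg_apply, ← h1, Matrix.sum_apply]
  simp only [Matrix.sum_apply, Matrix.smul_apply, smul_eq_mul, Matrix.trace, Matrix.diag_apply,
    Matrix.mul_apply]
  refine Finset.sum_congr rfl fun p _ => Finset.sum_congr rfl fun q _ => ?_
  rw [RmM_symm13 (hH.cdAt2 hz) (hH.ev_closed hz) k a p q,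
    RmM_symm24 (hH.cdAt2 hz) (hH.ev_herm hz) (hH.ev_closed hz) p a k q]

/-- divergence of `Y^p = h^{p \bar m} X_m` (Kaehler). -/
theorem bcDiv_eq (hH : IsKMat H U) (hz : z ∈ U) {X : ι → CE ι → ℂ}
    (hX : ∀ m, DifferentiableAt ℝ (X m) z) :
    bcDiv H (fun y p => ∑ m, (H y)⁻¹ p m * X m y) z = ∑ p, ∑ m, (H z)⁻¹ p m * dz p (X m) z := by
  have hdet : DifferentiableAt ℝ (fun y => (H y).det) z := differentiableAt_det (hH.diffAt hz)
  have hc : ∀ p m, DifferentiableAt ℝ (fun y => (H y).det * (H y)⁻¹ p m) z := fun p m =>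
    hdet.mul (hH.diffAt_inv hz p m)
  have e1 : ∀ p, dz p (fun y => (H y).det * ∑ m, (H y)⁻¹ p m * X m y) z =
      ∑ m, (dz p (fun y => (H y).det * (H y)⁻¹ p m) z * X m z
        + (H z).det * (H z)⁻¹ p m * dz p (X m) z) := by
    intro p
    have e2 : (fun y => (H y).det * ∑ m, (H y)⁻¹ p m * X m y) =
        fun y => ∑ m, ((H y).det * (H y)⁻¹ p m) * X m y := by
      funext y
      rw [Finset.mul_sum]
      exact Finset.sum_congr rfl fun m _ => by ring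
    rw [e2, dz_sum Finset.univ (fun m y => ((H y).det * (H y)⁻¹ p m) * X m y)
      (fun m _ => (hc p m).fun_mul (hX m))]
    exact Finset.sum_congr rfl fun m _ => dz_mul (hc p m) (hX m)
  rw [bcDiv, Finset.sum_congr rfl fun p _ => e1 p]
  simp only [Finset.sum_add_distrib]
  have e3 : ∑ p, ∑ m, dz p (fun y => (H y).det * (H y)⁻¹ p m) z * X m z = 0 := by
    rw [Finset.sum_comm]
    refine Finset.sum_eq_zero fun m _ => ?_
    rw [← Finset.sum_mul, sum_dz_cofactor (hH.diffAt hz) (hH.det_ne hz)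
      (fun j k l => hH.closed z hz j k l) m, zero_mul]
  rw [e3, zero_add, Finset.mul_sum]
  refine Finset.sum_congr rfl fun p _ => ?_
  rw [Finset.mul_sum]
  refine Finset.sum_congr rfl fun m _ => ?_
  have := hH.det_ne hz
  field_simp

/-- commutation of `∂_{\bar p}` and `∇_q`. -/
theorem dzbM_bcD (hH : IsKMat H U) (hz : z ∈ U) {A : CE ι → Matrix ι ι ℂ}
    (hA : ∀ j k, ContDiffAt ℝ 2 (fun y => A y j k) z) (p q : ι) :
    dzbM p (bcD H A q) z = bcD H (dzbM p A) q z + ((H z)⁻¹ * RmM H z q p)ᵀ * A z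
      + A z * ((H z)⁻¹ * RmM H z q p) := by
  have dA : ∀ j k, DifferentiableAt ℝ (fun y => A y j k) z := fun j k =>
    (hA j k).differentiableAt (by norm_num)
  have dAq : ∀ j k, DifferentiableAt ℝ (fun y => dzM q A y j k) z := fun j k =>
    (contDiffAt_dzM (N := 1) hA (by norm_num) j k).differentiableAt (by norm_num)
  have dθ := hH.diffAt_bcTh hz q
  have dθT : ∀ j k, DifferentiableAt ℝ (fun y => (bcTh H q y)ᵀ j k) z := fun j k => dθ k j
  have d1 := differentiableAt_matMul dθT dA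
  have d2 := differentiableAt_matMul dA dθ
  have d3 : ∀ j k, DifferentiableAt ℝ (fun y => (dzM q A y - (bcTh H q y)ᵀ * A y) j k) z :=
    fun j k => (dAq j k).sub (d1 j k)
  show dzbM p (fun y => dzM q A y - (bcTh H q y)ᵀ * A y - A y * bcTh H q y) z = _
  rw [dzbM_sub (A := fun y => dzM q A y - (bcTh H q y)ᵀ * A y) (A₂ := fun y => A y * bcTh H q y)
      d3 d2,
    dzbM_sub (A := fun y => dzM q A y) (A₂ := fun y => (bcTh H q y)ᵀ * A y) dAq d1,
    dzbM_mul (A := fun y => (bcTh H q y)ᵀ) dθT dA, dzbM_mul (B := fun y => bcTh H q y) dA dθ,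
    dzbM_transpose (fun y => bcTh H q y), bcD, dzM_dzbM_comm hA]
  have e : dzbM p (fun y => bcTh H q y) z = - ((H z)⁻¹ * RmM H z q p) := dzbM_bcTh hH hz q p
  rw [e]
  simp only [Matrix.transpose_neg, Matrix.neg_mul, Matrix.mul_neg]
  abel

end curv

section boch12

/-- the gradient as a column. -/
noncomputable def bcGrM (g : CE ι → ℂ) (y : CE ι) : Matrix ι Unit ℂ := fun k _ => dz k g y

/-- the `p`-th row of `σ` as a column. -/
noncomputable def bcSigM (H : CE ι → Matrix ι ι ℂ) (g : CE ι → ℂ) (p : ι) (y : CE ι) :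
    Matrix ι Unit ℂ := fun k _ => bcSig H g y p k

section rankone

variable {κ : Type} [Fintype κ] [DecidableEq κ] {ξ η : CE ι → Matrix ι κ ℂ}

theorem bc_dzM_P1 (hH : IsKMat H U) (hz : z ∈ U)
    (hξ : ∀ j k, DifferentiableAt ℝ (fun y => ξ y j k) z)
    (hη : ∀ j k, DifferentiableAt ℝ (fun y => η y j k) z) (p : ι) :
    dzM p (fun y => (η y)ᴴ * ((H y)⁻¹)ᵀ * ξ y) z =
      (dzbM p η z)ᴴ * ((H z)⁻¹)ᵀ * ξ z
        + (η z)ᴴ * ((H z)⁻¹)ᵀ * (dzM p ξ z - (bcTh H p z)ᵀ * ξ z) := by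
  have dK := hH.diffAt_inv hz
  have dKT : ∀ j k, DifferentiableAt ℝ (fun y => ((H y)⁻¹)ᵀ j k) z := fun j k => dK k j
  have dηH : ∀ j k, DifferentiableAt ℝ (fun y => (η y)ᴴ j k) z := fun j k => (hη k j).star
  rw [dzM_mul (A := fun y => (η y)ᴴ * ((H y)⁻¹)ᵀ) (differentiableAt_matMul dηH dKT) hξ,
    dzM_mul dηH dKT, dzM_conjTranspose, dzM_transpose (fun y => (H y)⁻¹), bc_dzM_inv hH hz]
  simp only [Matrix.transpose_neg, Matrix.transpose_mul, Matrix.mul_neg, Matrix.neg_mul,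
    Matrix.add_mul, Matrix.mul_sub, Matrix.mul_assoc]
  abel

theorem bc_dzbM_P1 (hH : IsKMat H U) (hz : z ∈ U)
    (hξ : ∀ j k, DifferentiableAt ℝ (fun y => ξ y j k) z)
    (hη : ∀ j k, DifferentiableAt ℝ (fun y => η y j k) z) (q : ι) :
    dzbM q (fun y => (η y)ᴴ * ((H y)⁻¹)ᵀ * ξ y) z =
      (dzM q η z - (bcTh H q z)ᵀ * η z)ᴴ * ((H z)⁻¹)ᵀ * ξ z
        + (η z)ᴴ * ((H z)⁻¹)ᵀ * dzbM q ξ z := by
  have dK := hH.diffAt_inv hz
  have dKT : ∀ j k, DifferentiableAt ℝ (fun y => ((H y)⁻¹)ᵀ j k) z := fun j k => dK k j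
  have dηH : ∀ j k, DifferentiableAt ℝ (fun y => (η y)ᴴ j k) z := fun j k => (hη k j).star
  rw [dzbM_mul (A := fun y => (η y)ᴴ * ((H y)⁻¹)ᵀ) (differentiableAt_matMul dηH dKT) hξ,
    dzbM_mul dηH dKT, dzbM_conjTranspose, dzbM_transpose (fun y => (H y)⁻¹), bc_dzbM_inv hH hz]
  simp only [Matrix.transpose_neg, Matrix.transpose_mul, Matrix.mul_neg, Matrix.neg_mul,
    Matrix.add_mul, Matrix.sub_mul, Matrix.conjTranspose_sub, Matrix.conjTranspose_mul,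
    bc_conjTranspose_transpose, Matrix.mul_assoc]
  abel

end rankone

theorem bc_cdOn_GrM (hH : IsKMat H U) (hg : DifferentiableOn ℂ g U) (k : ι) (u : Unit) :
    ContDiffOn ℝ ∞ (fun y => bcGrM g y k u) U :=
  contDiffOn_dz hH.isOpen (bc_cdOn_hol hH hg)

theorem bc_diffAt_GrM (hH : IsKMat H U) (hg : DifferentiableOn ℂ g U) (hz : z ∈ U) (k : ι)
    (u : Unit) : DifferentiableAt ℝ (fun y => bcGrM g y k u) z :=
  ((bc_cdOn_GrM hH hg k u).contDiffAt (hH.isOpen.mem_nhds hz)).differentiableAt (by simp)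

theorem bc_diffAt_SigM (hH : IsKMat H U) (hg : DifferentiableOn ℂ g U) (hz : z ∈ U) (p k : ι)
    (u : Unit) : DifferentiableAt ℝ (fun y => bcSigM H g p y k u) z :=
  ((contDiffOn_bcSig hH hg p k).contDiffAt (hH.isOpen.mem_nhds hz)).differentiableAt (by simp)

theorem bc_dzbM_GrM (hH : IsKMat H U) (hg : DifferentiableOn ℂ g U) (hz : z ∈ U) (p : ι) :
    dzbM p (bcGrM g) z = 0 := by
  ext k u
  exact dzb_of_differentiableAt (bc_holAt hH (differentiableOn_dz hH.isOpen hg k) hz)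

theorem bc_D_GrM (H : CE ι → Matrix ι ι ℂ) (g : CE ι → ℂ) (z : CE ι) (p : ι) :
    dzM p (bcGrM g) z - (bcTh H p z)ᵀ * bcGrM g z = bcSigM H g p z := by
  ext k u
  simp only [Matrix.sub_apply, Matrix.mul_apply, Matrix.transpose_apply, bcSigM, bcSig]
  rfl

/-- `|∂g|²` as the entry of a `1 × 1` matrix. -/
theorem bc_ofReal_N1 (hH : IsKMat H U) (hz : z ∈ U) :
    ((bcN1 H g z : ℝ) : ℂ) = ((bcGrM g z)ᴴ * ((H z)⁻¹)ᵀ * bcGrM g z) () () := by
  have h1 := qf_ofReal (v := bcGr g z) (posDef_inv_transpose (hH.posDef z hz)).isHermitian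
  refine h1.trans ?_
  simp only [Matrix.mul_apply, dotProduct, Matrix.mulVec, Matrix.conjTranspose_apply, bcGrM, bcGr,
    Pi.star_apply, Finset.sum_mul, Finset.mul_sum]
  rw [Finset.sum_comm]
  refine Finset.sum_congr rfl fun a _ => Finset.sum_congr rfl fun b _ => ?_
  ring

theorem bc_dzM_N1 (hH : IsKMat H U) (hg : DifferentiableOn ℂ g U) (hz : z ∈ U) (p : ι) :
    dzM p (fun y => (bcGrM g y)ᴴ * ((H y)⁻¹)ᵀ * bcGrM g y) z =
      (bcGrM g z)ᴴ * ((H z)⁻¹)ᵀ * bcSigM H g p z := by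
  rw [bc_dzM_P1 hH hz (bc_diffAt_GrM hH hg hz) (bc_diffAt_GrM hH hg hz), bc_dzbM_GrM hH hg hz,
    bc_D_GrM]
  simp

/-- the Levi form of `|∂g|²`. -/
theorem bc_levi_N1 (hH : IsKMat H U) (hg : DifferentiableOn ℂ g U) (hz : z ∈ U) (q p : ι) :
    levi (bcN1 H g) z q p =
      ((bcSigM H g q z)ᴴ * ((H z)⁻¹)ᵀ * bcSigM H g p z
        + (bcGrM g z)ᴴ * ((H z)⁻¹)ᵀ * dzbM q (bcSigM H g p) z) () () := by
  have e1 : (fun y => ((bcN1 H g y : ℝ) : ℂ)) =ᶠ[𝓝 z]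
      fun y => ((bcGrM g y)ᴴ * ((H y)⁻¹)ᵀ * bcGrM g y) () () := by
    filter_upwards [hH.ev_mem hz] with y hy
    exact bc_ofReal_N1 hH hy
  have e2 : ∀ᶠ y in 𝓝 z, dzM p (fun y => (bcGrM g y)ᴴ * ((H y)⁻¹)ᵀ * bcGrM g y) y =
      (bcGrM g y)ᴴ * ((H y)⁻¹)ᵀ * bcSigM H g p y := by
    filter_upwards [hH.ev_mem hz] with y hy
    exact bc_dzM_N1 hH hg hy p
  have e3 : levi (bcN1 H g) z q p =
      dzbM q (dzM p (fun y => (bcGrM g y)ᴴ * ((H y)⁻¹)ᵀ * bcGrM g y)) z () () :=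
    dzb_congr (dz_eventuallyEq e1)
  rw [e3, dzbM_congr e2, bc_dzbM_P1 hH hz (bc_diffAt_SigM hH hg hz p) (bc_diffAt_GrM hH hg hz),
    bc_D_GrM]

theorem bc_sum_inv_mul (K X : Matrix ι ι ℂ) : ∑ p, ∑ q, K p q * X q p = (K * X).trace := by
  simp only [Matrix.trace, Matrix.diag_apply, Matrix.mul_apply]

theorem bc_contract_sig (K S : Matrix ι ι ℂ) :
    (K * (Sᴴᵀ * Kᵀ * Sᵀ)).trace = (Kᵀ * S * K * Sᴴ).trace := by
  calc (K * (Sᴴᵀ * Kᵀ * Sᵀ)).trace = ((K * (Sᴴᵀ * Kᵀ * Sᵀ))ᵀ).trace :=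
        (Matrix.trace_transpose _).symm
    _ = (S * K * Sᴴ * Kᵀ).trace := by
        simp only [Matrix.transpose_mul, Matrix.transpose_transpose, Matrix.mul_assoc]
    _ = (Kᵀ * (S * K * Sᴴ)).trace := Matrix.trace_mul_comm _ _
    _ = _ := by simp only [Matrix.mul_assoc]

theorem bc_entry3 (A B : Matrix ι Unit ℂ) (M : Matrix ι ι ℂ) :
    (Aᴴ * M * B) () () = star (fun k => A k ()) ⬝ᵥ (M *ᵥ fun k => B k ()) := by
  simp only [Matrix.mul_apply, dotProduct, Matrix.mulVec, Matrix.conjTranspose_apply,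
    Pi.star_apply, Finset.sum_mul, Finset.mul_sum]
  rw [Finset.sum_comm]
  refine Finset.sum_congr rfl fun a _ => Finset.sum_congr rfl fun b _ => ?_
  ring

theorem bc_sum_T (hH : IsKMat H U) (hg : DifferentiableOn ℂ g U) (hz : z ∈ U) :
    ∑ p, ∑ q, (H z)⁻¹ p q • dzbM q (bcSigM H g p) z =
      ((H z)⁻¹ * bcRic H z)ᵀ * bcGrM g z := by
  ext k u
  have e1 : ∀ p q, dzbM q (bcSigM H g p) z k u =
      ∑ l, ((H z)⁻¹ * RmM H z p q) l k * dz l g z := fun p q => bcT_eq hH hg hz q p k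
  rw [← sum_inv_RmM hH hz]
  simp only [Matrix.sum_apply, Matrix.smul_apply, smul_eq_mul, e1, Matrix.mul_smul,
    Matrix.transpose_apply, Matrix.mul_apply (M := (_ : Matrix ι ι ℂ)ᵀ), Finset.mul_sum,
    Finset.sum_mul, bcGrM]
  calc ∑ p, ∑ q, ∑ l, (H z)⁻¹ p q * (((H z)⁻¹ * RmM H z p q) l k * dz l g z)
      = ∑ p, ∑ l, ∑ q, (H z)⁻¹ p q * (((H z)⁻¹ * RmM H z p q) l k * dz l g z) :=
        Finset.sum_congr rfl fun p _ => Finset.sum_comm
    _ = ∑ l, ∑ p, ∑ q, (H z)⁻¹ p q * (((H z)⁻¹ * RmM H z p q) l k * dz l g z) := Finset.sum_comm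
    _ = _ := by
        refine Finset.sum_congr rfl fun l _ => Finset.sum_congr rfl fun p _ =>
          Finset.sum_congr rfl fun q _ => ?_
        ring

/-- **Bochner 1**: `Δ |g|² = |∂g|²`. -/
theorem bc_lap_normSq (hH : IsKMat H U) (hg : DifferentiableOn ℂ g U) (hz : z ∈ U) :
    lapP (H z) (fun y => ‖g y‖ ^ 2) z = bcN1 H g z := by
  have hev : ∀ᶠ w in 𝓝 z, DifferentiableAt ℂ g w := by
    filter_upwards [hH.ev_mem hz] with y hy
    exact bc_holAt hH hg hy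
  have e : levi (fun y => ‖g y‖ ^ 2) z = Matrix.of fun j k => conj (bcGr g z j) * bcGr g z k := by
    ext j k
    exact levi_normSq_hol g hev
  rw [lapP, e, trace_inv_mul_rankOne]
  rfl

/-- **Bochner 2**: `Δ |∂g|² = |σ|² + Ric(∂g, ∂g)`. -/
theorem bc_lap_N1 (hH : IsKMat H U) (hg : DifferentiableOn ℂ g U) (hz : z ∈ U) :
    lapP (H z) (bcN1 H g) z =
      bcN2 H g z + qf ((H z)⁻¹ * bcRic H z * (H z)⁻¹)ᵀ (bcGr g z) := by
  set K := (H z)⁻¹ with hK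
  set S := bcSig H g z with hS
  have e1 : ∀ q p, ((bcSigM H g q z)ᴴ * Kᵀ * bcSigM H g p z) () () = (Sᴴᵀ * Kᵀ * Sᵀ) q p := by
    intro q p
    simp only [Matrix.mul_apply, Matrix.conjTranspose_apply, Matrix.transpose_apply, bcSigM, hS]
  have a1 : ∑ p, ∑ q, K p q * ((bcSigM H g q z)ᴴ * Kᵀ * bcSigM H g p z) () () =
      bcPair (H z) S S := by
    simp only [e1]
    rw [bc_sum_inv_mul, bc_contract_sig]
    rfl
  have a2 : ∑ p, ∑ q, K p q * ((bcGrM g z)ᴴ * Kᵀ * dzbM q (bcSigM H g p) z) () () =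
      star (bcGr g z) ⬝ᵥ ((K * bcRic H z * K)ᵀ *ᵥ bcGr g z) := by
    have b1 : ((bcGrM g z)ᴴ * Kᵀ * ∑ p, ∑ q, K p q • dzbM q (bcSigM H g p) z) () () =
        ∑ p, ∑ q, K p q * ((bcGrM g z)ᴴ * Kᵀ * dzbM q (bcSigM H g p) z) () () := by
      simp only [Matrix.mul_sum, Matrix.mul_smul, Matrix.sum_apply, Matrix.smul_apply, smul_eq_mul]
    rw [← b1, bc_sum_T hH hg hz, ← Matrix.mul_assoc, Matrix.mul_assoc (bcGrM g z)ᴴ,
      ← Matrix.transpose_mul, bc_entry3]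
    rfl
  rw [lapP_eq_sum]
  simp only [bc_levi_N1 hH hg hz, Matrix.add_apply, mul_add, Finset.sum_add_distrib]
  rw [a1, a2, Complex.add_re]
  rfl

theorem bc_N2_le_lap_N1 (hH : IsKMat H U) (hg : DifferentiableOn ℂ g U) (hz : z ∈ U)
    (hR : (bcRic H z).PosSemidef) : bcN2 H g z ≤ lapP (H z) (bcN1 H g) z := by
  rw [bc_lap_N1 hH hg hz]
  have := bc_qf_ric_nonneg (hH.posDef z hz) hR (bcGr g z)
  linarith

end boch12

section boch3

theorem bc_cdAt_of_on (hH : IsKMat H U) (hz : z ∈ U) {F : CE ι → ℂ} (hF : ContDiffOn ℝ ∞ F U) :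
    ContDiffAt ℝ ∞ F z :=
  hF.contDiffAt (hH.isOpen.mem_nhds hz)

theorem bc_diffAt_of_on (hH : IsKMat H U) (hz : z ∈ U) {F : CE ι → ℂ} (hF : ContDiffOn ℝ ∞ F U) :
    DifferentiableAt ℝ F z :=
  (bc_cdAt_of_on hH hz hF).differentiableAt (by simp)

theorem bc_ofReal_N2 (hH : IsKMat H U) (hz : z ∈ U) :
    ((bcN2 H g z : ℝ) : ℂ) = bcPair (H z) (bcSig H g z) (bcSig H g z) :=
  (bcPair_self (hH.posDef z hz) _).1

theorem bc_dz_N2 (hH : IsKMat H U) (hg : DifferentiableOn ℂ g U) (hz : z ∈ U) (p : ι) :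
    dz p (fun y => bcPair (H y) (bcSig H g y) (bcSig H g y)) z =
      bcPair (H z) (bcD H (bcSig H g) p z) (bcSig H g z)
        + bcPair (H z) (bcSig H g z) (bcT H g p z) :=
  dz_bcPair hH hz (fun j k => bc_diffAt_of_on hH hz (contDiffOn_bcSig hH hg j k))
    (fun j k => bc_diffAt_of_on hH hz (contDiffOn_bcSig hH hg j k)) p

/-- the Levi form of `|σ|²`. -/
theorem bc_levi_N2 (hH : IsKMat H U) (hg : DifferentiableOn ℂ g U) (hz : z ∈ U) (q p : ι) :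
    levi (bcN2 H g) z q p =
      bcPair (H z) (bcD H (bcT H g q) p z) (bcSig H g z)
        + bcPair (H z) (((H z)⁻¹ * RmM H z p q)ᵀ * bcSig H g z) (bcSig H g z)
        + bcPair (H z) (bcSig H g z * ((H z)⁻¹ * RmM H z p q)) (bcSig H g z)
        + bcPair (H z) (bcD H (bcSig H g) p z) (bcD H (bcSig H g) q z)
        + bcPair (H z) (bcT H g q z) (bcT H g p z)
        + bcPair (H z) (bcSig H g z) (bcD H (bcT H g p) q z) := by
  have cσ := contDiffOn_bcSig hH hg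
  have cT := contDiffOn_bcT hH hg
  have cD := contDiffOn_bcD hH cσ
  have dσ : ∀ j k, DifferentiableAt ℝ (fun y => bcSig H g y j k) z := fun j k =>
    bc_diffAt_of_on hH hz (cσ j k)
  have dT : ∀ m j k, DifferentiableAt ℝ (fun y => bcT H g m y j k) z := fun m j k =>
    bc_diffAt_of_on hH hz (cT m j k)
  have dD : ∀ m j k, DifferentiableAt ℝ (fun y => bcD H (bcSig H g) m y j k) z := fun m j k =>
    bc_diffAt_of_on hH hz (cD m j k)
  have e1 : (fun y => ((bcN2 H g y : ℝ) : ℂ)) =ᶠ[𝓝 z]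
      fun y => bcPair (H y) (bcSig H g y) (bcSig H g y) := by
    filter_upwards [hH.ev_mem hz] with y hy
    exact bc_ofReal_N2 hH hy
  have e2 : dz p (fun y => bcPair (H y) (bcSig H g y) (bcSig H g y)) =ᶠ[𝓝 z]
      fun y => bcPair (H y) (bcD H (bcSig H g) p y) (bcSig H g y)
        + bcPair (H y) (bcSig H g y) (bcT H g p y) := by
    filter_upwards [hH.ev_mem hz] with y hy
    exact bc_dz_N2 hH hg hy p
  have e3 : levi (bcN2 H g) z q p =
      dzb q (dz p (fun y => bcPair (H y) (bcSig H g y) (bcSig H g y))) z :=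
    dzb_congr (dz_eventuallyEq e1)
  have d1 : DifferentiableAt ℝ
      (fun y => bcPair (H y) (bcD H (bcSig H g) p y) (bcSig H g y)) z :=
    bc_diffAt_of_on hH hz (contDiffOn_bcPair hH (cD p) cσ)
  have d2 : DifferentiableAt ℝ (fun y => bcPair (H y) (bcSig H g y) (bcT H g p y)) z :=
    bc_diffAt_of_on hH hz (contDiffOn_bcPair hH cσ (cT p))
  have e4 : dzbM q (bcD H (bcSig H g) p) z = bcD H (bcT H g q) p z
      + ((H z)⁻¹ * RmM H z p q)ᵀ * bcSig H g z + bcSig H g z * ((H z)⁻¹ * RmM H z p q) :=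
    dzbM_bcD hH hz (fun j k => (bc_cdAt_of_on hH hz (cσ j k)).of_le lv_two_le_infty) q p
  have e5 : dzbM q (bcSig H g) z = bcT H g q z := rfl
  rw [e3, dzb_congr e2, dzb_add d1 d2, dzb_bcPair hH hz (dD p) dσ, dzb_bcPair hH hz dσ (dT p), e4,
    e5, bcPair_add_left, bcPair_add_left]
  ring

theorem bc_contract_left (A S : Matrix ι ι ℂ) (c : ι → ι → ℂ) (M : ι → ι → Matrix ι ι ℂ) :
    ∑ p, ∑ q, c p q * bcPair A (M p q) S = bcPair A (∑ p, ∑ q, c p q • M p q) S := by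
  simp only [bcPair_sum_left, bcPair_smul_left]

theorem bc_contract_ric (hH : IsKMat H U) (hz : z ∈ U) (S : Matrix ι ι ℂ) :
    (∑ p, ∑ q, (H z)⁻¹ p q * bcPair (H z) (((H z)⁻¹ * RmM H z p q)ᵀ * S) S
      + ∑ p, ∑ q, (H z)⁻¹ p q * bcPair (H z) (S * ((H z)⁻¹ * RmM H z p q)) S).re =
      bcRic2 (H z) (bcRic H z) S := by
  have a1 : ∑ p, ∑ q, (H z)⁻¹ p q • (((H z)⁻¹ * RmM H z p q)ᵀ * S) =
      ((H z)⁻¹ * bcRic H z)ᵀ * S := by
    rw [← sum_inv_RmM hH hz]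
    simp only [Matrix.mul_sum, Matrix.mul_smul, Matrix.transpose_sum, Matrix.transpose_smul,
      Matrix.sum_mul, Matrix.smul_mul]
  have a2 : ∑ p, ∑ q, (H z)⁻¹ p q • (S * ((H z)⁻¹ * RmM H z p q)) =
      S * ((H z)⁻¹ * bcRic H z) := by
    rw [← sum_inv_RmM hH hz]
    simp only [Matrix.mul_sum, Matrix.mul_smul]
  have b1 := bc_contract_left (H z) S (fun p q => (H z)⁻¹ p q)
    (fun p q => ((H z)⁻¹ * RmM H z p q)ᵀ * S)
  have b2 := bc_contract_left (H z) S (fun p q => (H z)⁻¹ p q)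
    (fun p q => S * ((H z)⁻¹ * RmM H z p q))
  rw [b1, b2, a1, a2, bcRic2, bcPair, bcPair]
  simp only [Matrix.transpose_mul, Matrix.mul_assoc]

theorem bc_contract_conj (hH : IsKMat H U) (hz : z ∈ U) (S : Matrix ι ι ℂ)
    (M : ι → ι → Matrix ι ι ℂ) :
    ∑ p, ∑ q, (H z)⁻¹ p q * bcPair (H z) S (M q p) =
      conj (∑ p, ∑ q, (H z)⁻¹ p q * bcPair (H z) (M p q) S) := by
  have hK : ∀ p q, conj ((H z)⁻¹ p q) = (H z)⁻¹ q p := fun p q =>
    (hH.posDef z hz).inv.isHermitian.apply q p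
  simp only [map_sum, map_mul, bcPair_conj (hH.posDef z hz), hK]
  exact Finset.sum_comm

theorem bc_div_Y (hH : IsKMat H U) (hg : DifferentiableOn ℂ g U) (hz : z ∈ U) :
    bcDiv H (bcY H g) z =
      ∑ p, ∑ q, (H z)⁻¹ p q * bcPair (H z) (bcD H (bcT H g q) p z) (bcSig H g z)
        + ∑ p, ∑ q, (H z)⁻¹ p q * bcPair (H z) (bcT H g q z) (bcT H g p z) := by
  have cσ := contDiffOn_bcSig hH hg
  have cT := contDiffOn_bcT hH hg
  have h1 := bcDiv_eq hH hz (X := fun m y => bcPair (H y) (bcT H g m y) (bcSig H g y))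
    (fun m => bc_diffAt_of_on hH hz (contDiffOn_bcPair hH (cT m) cσ))
  have h2 : ∀ p m, dz p (fun y => bcPair (H y) (bcT H g m y) (bcSig H g y)) z =
      bcPair (H z) (bcD H (bcT H g m) p z) (bcSig H g z)
        + bcPair (H z) (bcT H g m z) (bcT H g p z) := fun p m =>
    dz_bcPair hH hz (fun j k => bc_diffAt_of_on hH hz (cT m j k))
      (fun j k => bc_diffAt_of_on hH hz (cσ j k)) p
  have h3 : bcDiv H (bcY H g) z =
      bcDiv H (fun y p => ∑ m, (H y)⁻¹ p m * bcPair (H y) (bcT H g m y) (bcSig H g y)) z := rfl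
  rw [h3, h1]
  simp only [h2, mul_add, Finset.sum_add_distrib]

/-- **Bochner 3**: `Δ |σ|² = |∇σ|² - |T|² + 2 Re div Y + Ric * σ * σ`. -/
theorem bc_lap_N2 (hH : IsKMat H U) (hg : DifferentiableOn ℂ g U) (hz : z ∈ U) :
    lapP (H z) (bcN2 H g) z =
      bcND H g z - bcNT H g z + 2 * (bcDiv H (bcY H g) z).re
        + bcRic2 (H z) (bcRic H z) (bcSig H g z) := by
  rw [lapP_eq_sum]
  simp only [bc_levi_N2 hH hg hz, mul_add, Finset.sum_add_distrib]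
  rw [bc_div_Y hH hg hz,
    bc_contract_conj hH hz (bcSig H g z) (fun p q => bcD H (bcT H g q) p z)]
  have hr := bc_contract_ric hH hz (bcSig H g z)
  simp only [Complex.add_re, Complex.conj_re] at hr ⊢
  rw [← hr, bcND, bcNT, bcSq3]
  ring

theorem bc_sq3h_frame {A F : Matrix ι ι ℂ} (h1 : Fᴴ * A * F = 1) (D : ι → Matrix ι ι ℂ) :
    ∑ p, ∑ q, A⁻¹ p q * bcPair A (D p) (D q) =
      ∑ i, bcPair A (∑ p, F p i • D p) (∑ p, F p i • D p) := by
  simp only [bcPair_sum_left, bcPair_sum_right, bcPair_smul_left, bcPair_smul_right,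
    bc_inv_apply h1, Finset.sum_mul, Finset.mul_sum]
  calc ∑ p, ∑ q, ∑ i, F p i * conj (F q i) * bcPair A (D p) (D q)
      = ∑ p, ∑ i, ∑ q, F p i * conj (F q i) * bcPair A (D p) (D q) :=
        Finset.sum_congr rfl fun p _ => Finset.sum_comm
    _ = ∑ i, ∑ p, ∑ q, F p i * conj (F q i) * bcPair A (D p) (D q) := Finset.sum_comm
    _ = ∑ i, ∑ q, ∑ p, F p i * conj (F q i) * bcPair A (D p) (D q) :=
        Finset.sum_congr rfl fun i _ => Finset.sum_comm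
    _ = _ := by
        refine Finset.sum_congr rfl fun i _ => Finset.sum_congr rfl fun p _ =>
          Finset.sum_congr rfl fun q _ => ?_
        ring

theorem bcND_nonneg (hH : IsKMat H U) (hz : z ∈ U) : 0 ≤ bcND H g z := by
  obtain ⟨F, -, h1⟩ := bc_exists_frame (hH.posDef z hz)
  rw [bcND, bc_sq3h_frame h1, Complex.re_sum]
  exact Finset.sum_nonneg fun i _ => (bcPair_self (hH.posDef z hz) _).2

theorem bc_le_lap_N2 (hH : IsKMat H U) (hg : DifferentiableOn ℂ g U) (hz : z ∈ U)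
    (hR : (bcRic H z).PosSemidef) :
    2 * (bcDiv H (bcY H g) z).re - bcNT H g z ≤ lapP (H z) (bcN2 H g) z := by
  rw [bc_lap_N2 hH hg hz]
  have h1 := bcRic2_nonneg (hH.posDef z hz) hR (bcSig H g z)
  have h2 := bcND_nonneg (g := g) hH hz
  linarith

end boch3

section bounds

theorem bc_fderiv_hol {F : CE ι → ℂ} (hF : DifferentiableAt ℂ F z) (a : CE ι) :
    fderiv ℝ F z a = ∑ l, dz l F z * a l := by
  rw [fderiv_eq_sum]
  refine Finset.sum_congr rfl fun l _ => ?_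
  rw [dzb_of_differentiableAt hF, zero_mul, add_zero]

theorem bc_fderiv_clm (L : ℂ →L[ℝ] ℝ) {F : CE ι → ℂ} (hF : DifferentiableAt ℝ F z) (a : CE ι) :
    fderiv ℝ (fun y => L (F y)) z a = L (fderiv ℝ F z a) := by
  have h := (L.hasFDerivAt.comp z hF.hasFDerivAt).fderiv
  have h' : fderiv ℝ (fun y => L (F y)) z = L.comp (fderiv ℝ F z) := h
  rw [h']
  rfl

theorem bc_chris_apply (H : CE ι → Matrix ι ι ℂ) (z a b : CE ι) (l : ι) :
    chris H z a b l = ∑ j, ∑ k, bcTh H j z l k * a j * b k := by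
  simp only [chris, bcTh, Matrix.mul_apply, Finset.sum_mul]
  calc ∑ l', ∑ i, ∑ j, (H z)⁻¹ l l' * dz i (fun y => H y l' j) z * a i * b j
      = ∑ i, ∑ l', ∑ j, (H z)⁻¹ l l' * dz i (fun y => H y l' j) z * a i * b j := Finset.sum_comm
    _ = ∑ i, ∑ j, ∑ l', (H z)⁻¹ l l' * dz i (fun y => H y l' j) z * a i * b j :=
        Finset.sum_congr rfl fun i _ => Finset.sum_comm
    _ = _ := rfl

/-- the real Hessian of `L ∘ g` (`L` real linear) is `L` of `σ`. -/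
theorem bc_hess_clm (hH : IsKMat H U) (hg : DifferentiableOn ℂ g U) (hz : z ∈ U)
    (L : ℂ →L[ℝ] ℝ) (a b : CE ι) :
    (matGeo H U).hess (fun y => L (g y)) z a b = L (∑ j, ∑ k, bcSig H g z j k * a j * b k) := by
  have h2 : ∀ l, DifferentiableAt ℂ (dz l g) z := fun l =>
    bc_holAt hH (differentiableOn_dz hH.isOpen hg l) hz
  have e1 : (fun y => fderiv ℝ (fun w => L (g w)) y b) =ᶠ[𝓝 z]
      fun y => L (∑ k, dz k g y * b k) := by
    filter_upwards [hH.ev_mem hz] with y hy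
    rw [bc_fderiv_clm L ((bc_holAt hH hg hy).restrictScalars ℝ), bc_fderiv_hol (bc_holAt hH hg hy)]
  have d1 : DifferentiableAt ℂ (fun y => ∑ k, dz k g y * b k) z :=
    DifferentiableAt.fun_sum fun k _ => (h2 k).mul_const _
  have e2 : ∀ j, dz j (fun y => ∑ k, dz k g y * b k) z =
      ∑ k, dz j (fun y => dz k g y) z * b k := by
    intro j
    rw [dz_sum Finset.univ (fun k y => dz k g y * b k)
      (fun k _ => ((h2 k).restrictScalars ℝ).mul_const _)]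
    refine Finset.sum_congr rfl fun k _ => ?_
    exact dz_mul_const _ ((h2 k).restrictScalars ℝ)
  rw [RGeo.hess, e1.fderiv_eq, bc_fderiv_clm L (d1.restrictScalars ℝ), bc_fderiv_hol d1,
    bc_fderiv_clm L ((bc_holAt hH hg hz).restrictScalars ℝ), bc_fderiv_hol (bc_holAt hH hg hz),
    ← map_sub, matGeo_Γ_apply]
  congr 1
  simp only [e2, bc_chris_apply, bcSig, sub_mul, Finset.sum_sub_distrib, Finset.sum_mul,
    Finset.mul_sum]
  congr 1
  · refine Finset.sum_congr rfl fun j _ => Finset.sum_congr rfl fun k _ => ?_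
    ring
  · calc ∑ l, ∑ j, ∑ k, dz l g z * (bcTh H j z l k * a j * b k)
        = ∑ j, ∑ l, ∑ k, dz l g z * (bcTh H j z l k * a j * b k) := Finset.sum_comm
      _ = ∑ j, ∑ k, ∑ l, dz l g z * (bcTh H j z l k * a j * b k) :=
          Finset.sum_congr rfl fun j _ => Finset.sum_comm
      _ = _ := by
          refine Finset.sum_congr rfl fun j _ => Finset.sum_congr rfl fun k _ =>
            Finset.sum_congr rfl fun l _ => ?_
          ring

theorem bc_nrm_eq (H : CE ι → Matrix ι ι ℂ) (U : Set (CE ι)) (z a : CE ι) :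
    (matGeo H U).nrm z a = Real.sqrt (qf (H z) a) := rfl

theorem bc_norm_sig_le (hH : IsKMat H U) (hz : z ∈ U) (a b : CE ι) :
    ‖∑ j, ∑ k, bcSig H g z j k * a j * b k‖ ≤
      Real.sqrt (bcN2 H g z) * ((matGeo H U).nrm z a * (matGeo H U).nrm z b) := by
  have h := bcPair_bilin_le (hH.posDef z hz) (bcSig H g z) a b
  have ha : 0 ≤ qf (H z) a := qf_nonneg (hH.posDef z hz).posSemidef a
  have hb : 0 ≤ qf (H z) b := qf_nonneg (hH.posDef z hz).posSemidef b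
  have hn : 0 ≤ bcN2 H g z := (bcPair_self (hH.posDef z hz) _).2
  rw [bc_nrm_eq, bc_nrm_eq, ← Real.sqrt_mul ha, ← Real.sqrt_mul hn]
  exact Real.le_sqrt_of_sq_le h

/-- the real Hessian of `Re g` is the real part of `σ`. -/
theorem matGeo_hess_re (hH : IsKMat H U) (hg : DifferentiableOn ℂ g U) (hz : z ∈ U) (a b : CE ι) :
    (matGeo H U).hess (fun y => (g y).re) z a b = (∑ j, ∑ k, bcSig H g z j k * a j * b k).re := by
  exact bc_hess_clm hH hg hz Complex.reCLM a b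

theorem matGeo_hess_im (hH : IsKMat H U) (hg : DifferentiableOn ℂ g U) (hz : z ∈ U) (a b : CE ι) :
    (matGeo H U).hess (fun y => (g y).im) z a b = (∑ j, ∑ k, bcSig H g z j k * a j * b k).im := by
  exact bc_hess_clm hH hg hz Complex.imCLM a b

theorem abs_matGeo_hess_re_le (hH : IsKMat H U) (hg : DifferentiableOn ℂ g U) (hz : z ∈ U)
    (a b : CE ι) :
    |(matGeo H U).hess (fun y => (g y).re) z a b| ≤
      Real.sqrt (bcN2 H g z) * ((matGeo H U).nrm z a * (matGeo H U).nrm z b) := by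
  rw [matGeo_hess_re hH hg hz]
  exact (Complex.abs_re_le_norm _).trans (bc_norm_sig_le hH hz a b)

theorem abs_matGeo_hess_im_le (hH : IsKMat H U) (hg : DifferentiableOn ℂ g U) (hz : z ∈ U)
    (a b : CE ι) :
    |(matGeo H U).hess (fun y => (g y).im) z a b| ≤
      Real.sqrt (bcN2 H g z) * ((matGeo H U).nrm z a * (matGeo H U).nrm z b) := by
  rw [matGeo_hess_im hH hg hz]
  exact (Complex.abs_im_le_norm _).trans (bc_norm_sig_le hH hz a b)

/-- the differential: `|dg(a)|² ≤ |∂g|² |a|²`. -/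
theorem norm_fderiv_sq_le_bcN1 (hH : IsKMat H U) (hg : DifferentiableOn ℂ g U) (hz : z ∈ U)
    (a : CE ι) : ‖fderiv ℝ g z a‖ ^ 2 ≤ bcN1 H g z * qf (H z) a := by
  rw [bc_fderiv_hol (bc_holAt hH hg hz)]
  exact dual_cauchy_schwarz (hH.posDef z hz) (bcGr g z) a

theorem bc_qf_bcY_le (hH : IsKMat H U) (hz : z ∈ U) :
    qf (H z) (bcY H g z) ≤ bcNT H g z * bcN2 H g z :=
  bc_qf_Y_le (hH.posDef z hz) _ _

variable {V : Type} [NormedAddCommGroup V] [NormedSpace ℝ V]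
variable {𝓜 : CMfd V ι} {h : HFam V ι} {Φ : CE ι → V}

theorem bc_star_dot (K R : Matrix ι ι ℂ) (hK : Kᴴ = K) (γ b : ι → ℂ) :
    star (K *ᵥ star γ) ⬝ᵥ (R *ᵥ b) = ∑ k, (∑ l, (K * R) l k * γ l) * b k := by
  rw [Matrix.star_mulVec, star_star, hK, Matrix.dotProduct_mulVec, Matrix.vecMul_vecMul]
  simp only [dotProduct, Matrix.vecMul, mul_comm]

theorem bc_T_eq_RmV (hH : IsKMat (h Φ) U) (hg : DifferentiableOn ℂ g U) (hz : z ∈ U)
    (a b c : ι → ℂ) :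
    ∑ m, ∑ j, ∑ k, bcT (h Φ) g m z j k * conj (c m) * a j * b k =
      RmV h Φ z b ((h Φ z)⁻¹ *ᵥ star (bcGr g z)) a c := by
  rw [RmV_eq_sum_dot, Finset.sum_comm]
  refine Finset.sum_congr rfl fun j _ => Finset.sum_congr rfl fun m _ => ?_
  rw [bc_star_dot _ _ (hH.posDef z hz).inv.isHermitian.eq, Finset.mul_sum]
  refine Finset.sum_congr rfl fun k _ => ?_
  rw [bcT_eq hH hg hz]
  simp only [bcGr, Complex.star_def]
  ring

/-- **`|T|² ≤ 4 n³ R² |∂g|²`** (`BK ≥ 0`, `R` = scalar curvature). -/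
theorem bcNT_le (hk : IsKahler 𝓜 h) (hb : BisecNonneg 𝓜 h) (hΦ : 𝓜.IsHol Φ U)
    (hg : DifferentiableOn ℂ g U) (hz : z ∈ U) :
    bcNT (h Φ) g z ≤ 4 * (Fintype.card ι : ℝ) ^ 3 * (trF h (ricF h) Φ z) ^ 2 * bcN1 (h Φ) g z := by
  have hH : IsKMat (h Φ) U := hk.isKMat hΦ
  have hP := hH.posDef z hz
  set R := trF h (ricF h) Φ z with hR
  have hn1 : 0 ≤ bcN1 (h Φ) g z := qf_nonneg (posDef_inv_transpose hP).posSemidef _
  have hu : qf (h Φ z) ((h Φ z)⁻¹ *ᵥ star (bcGr g z)) = bcN1 (h Φ) g z :=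
    (dual_attained hP (bcGr g z)).1
  have key := bcSq3_le_of_forall hP (fun m => bcT (h Φ) g m z)
    (M := 2 * |R| * Real.sqrt (bcN1 (h Φ) g z)) (by positivity) (by
      intro a b c
      rw [bc_T_eq_RmV hH hg hz]
      refine (norm_RmV_le hk hb hΦ hz _ _ _ _).trans ?_
      rw [hu, ← hR]
      have h1 : R ≤ |R| := le_abs_self R
      have h2 : 0 ≤ Real.sqrt (qf (h Φ z) b) * Real.sqrt (bcN1 (h Φ) g z) *
          Real.sqrt (qf (h Φ z) a) * Real.sqrt (qf (h Φ z) c) := by positivity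
      calc 2 * R * (Real.sqrt (qf (h Φ z) b) * Real.sqrt (bcN1 (h Φ) g z) *
            Real.sqrt (qf (h Φ z) a) * Real.sqrt (qf (h Φ z) c))
          ≤ 2 * |R| * (Real.sqrt (qf (h Φ z) b) * Real.sqrt (bcN1 (h Φ) g z) *
            Real.sqrt (qf (h Φ z) a) * Real.sqrt (qf (h Φ z) c)) := by gcongr
        _ = _ := by ring)
  refine key.trans (le_of_eq ?_)
  rw [mul_pow, mul_pow, sq_abs, Real.sq_sqrt hn1]
  ring

end bounds

end Claimed.Agent.R316
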