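import Claimed.Agent.R316.Base.Chart.Boch
import Claimed.Agent.R316.Pack022
import Claimed.Agent.R316.Pack011

/-!
# `BP-G14` part BoG: the Bochner quantities of a holomorphic function as global objects on a Kaehler manifold

Architect: helper195.  PAPER FREE.  `(𝓜,h)` Kaehler, `f : V → ℂ` holomorphic on `𝓜` (`𝓜.HolFun f`).  Chart quantities of `Boch.lean` with `H = h Φ`, `g = f ∘ Φ`.

* `hfN1 𝓜 h f = |∂f|²`, `hfN2 𝓜 h f = |∇∂f|²` (functions on `𝓜`), `hfY h f` (a `(1,0)`-vector field, `IsVField`).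

## Leaves (sections)
* `G14-BoG-1` (section `laws`): transformation laws under a holomorphic transition.
* `G14-BoG-2` (section `glob`): invariance, smoothness, `IsVField`, the three global differential (in)equalities.

## RECIPES (`τ = invFunOn Ψ W ∘ Φ`, `J = jac τ z`, `w = τ z`, `z ∈ U ∩ Φ⁻¹(Ψ '' W)`; `f ∘ Φ = (f ∘ Ψ) ∘ τ` near `z`: `CMfd.eventually_comp_eq`; `h Φ y = J(y)ᴴ h Ψ (τ y) J(y)` near `z`: `IsHForm.eventually_compat`)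
**BoG-1.**  `bcGr_trans`: chain rule `dz_comp_hol` (`CW`): `∂_k (G ∘ τ) = ∑_a J_{ak} (∂_a G)(τ z)`.  `bcSig_trans`: SHORT ROUTE: by `matGeo_hess_re/im`, `∑ σ_{jk} a_j b_k = hess (Re g)(a,b) + i hess (Im g)(a,b)`; the transition is a local isometry (`isIsom_trans`) so
`RGeo.IsIsom.hess` gives `hess^Φ (u∘τ) z a b = hess^Ψ u (τ z) (dτ a) (dτ b)`, `dτ a = J a` (`CMfd.trans_hasFDerivAt_real`, `jac_mulVec`); two bilinear forms which agree on all `a, b` have the same matrix (take `a = eb j`, `b = eb k`).  (Alternatively: `chris_trans` of `Tub/Spray.lean`.)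
`bcT_trans`: apply `dzbM m` to the identity `σ^Φ(y) = J(y)ᵀ σ^Ψ(τ y) J(y)` valid NEAR `z`; `J` holomorphic (`dzbM m J = 0`, `differentiableOn_jac`), `dzbM_comp_hol` (`CM/Curv.lean`).
`bcPair_trans`: pure algebra: `A = Jᴴ A' J`, `A⁻¹ = J⁻¹ A'⁻¹ J⁻ᴴ`: `bcPair A (Jᵀ B J) (Jᵀ C J) = bcPair A' B C` (cyclicity of the trace; `J` invertible: `CMfd.isUnit_jac_trans`).
**BoG-2.**  Invariance (`CMfd.invariant_iff`) from the laws: `n1`: `dualIP_congr_trans`-type algebra (`CW/LapC.lean`); `n2`: `bcPair_trans`.  `hfY`: `Y^Φ_p = ∑_m K^Φ_{pm} ⟨T^Φ_m, σ^Φ⟩`, `K^Φ = J⁻¹ K^Ψ J⁻ᴴ`, `T^Φ_m = ∑_q conj(J_{qm}) Jᵀ T^Ψ_q J` ⟹ `J Y^Φ = Y^Ψ`.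
Smoothness: `CMfd.smooth_scal` + `contDiffOn_bcN1/2`; `contDiffOn_bcY`.  `(hfN1 ..) ∘ Φ = bcN1 (h Φ) (f ∘ Φ)` on `U` (`CMfd.scal_eq`), so `lapP (h Φ z) (hfN1 ∘ Φ) z = lapP (h Φ z) (bcN1 ..) z` (`lapP_congr`), `lap_eq_lapP`; `bcRic (h Φ) z = ricF h Φ z` is `rfl`; `Ric ≥ 0` from `qf_ricF_nonneg` + `isHForm_ricF` (`posSemidef_iff_qf`).
-/

set_option autoImplicit false
set_option linter.unusedSectionVars false
set_option maxSynthPendingDepth 3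
open scoped ContDiff Topology ComplexOrder ComplexConjugate Matrix

namespace Claimed.Agent.R316

variable {V : Type} [NormedAddCommGroup V] [NormedSpace ℝ V]
variable {ι : Type} [Fintype ι] [DecidableEq ι]

/-- `|∂f|²_h`. -/
noncomputable def hfN1 (𝓜 : CMfd V ι) (h : HFam V ι) (f : V → ℂ) : V → ℝ :=
  𝓜.scal fun Φ z => bcN1 (h Φ) (f ∘ Φ) z

/-- `|∇∂f|²_h`. -/
noncomputable def hfN2 (𝓜 : CMfd V ι) (h : HFam V ι) (f : V → ℂ) : V → ℝ :=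
  𝓜.scal fun Φ z => bcN2 (h Φ) (f ∘ Φ) z

/-- the vector field `Y^p = h^{p \bar m} ⟨∂_{\bar m}∇∂f, ∇∂f⟩`. -/
noncomputable def hfY (h : HFam V ι) (f : V → ℂ) : (CE ι → V) → CE ι → ι → ℂ :=
  fun Φ z => bcY (h Φ) (f ∘ Φ) z

variable {𝓜 : CMfd V ι} {h : HFam V ι} {f : V → ℂ} {Φ Ψ : CE ι → V} {U W : Set (CE ι)} {z : CE ι}

section laws

theorem bcGr_trans (hf : 𝓜.HolFun f) (hΦ : 𝓜.IsHol Φ U) (hΨ : 𝓜.IsHol Ψ W)
    (hz : z ∈ U ∩ Φ ⁻¹' (Ψ '' W)) :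
    bcGr (f ∘ Φ) z = (jac (Function.invFunOn Ψ W ∘ Φ) z)ᵀ *ᵥ
      bcGr (f ∘ Ψ) ((Function.invFunOn Ψ W ∘ Φ) z) := by
  funext k
  have hw := CMfd.trans_mem hΦ hΨ hz
  have hG : DifferentiableAt ℝ (f ∘ Ψ) ((Function.invFunOn Ψ W ∘ Φ) z) :=
    (((hf Ψ W hΨ) _ hw).differentiableAt ((CMfd.isOpen_dom hΨ).mem_nhds hw)).restrictScalars ℝ
  show dz k (f ∘ Φ) z = _
  rw [dz_congr (CMfd.eventually_comp_eq f hΦ hΨ hz)]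
  refine (dz_comp_hol (j := k) (Function.invFunOn Ψ W ∘ Φ) (f ∘ Ψ)
    (CMfd.trans_differentiableAt hΦ hΨ hz) hG).trans ?_
  simp only [Matrix.mulVec, dotProduct, Matrix.transpose_apply, bcGr]
  exact Finset.sum_congr rfl fun a _ => mul_comm _ _

/-- the bilinear form of `σ` is natural. -/
theorem bcSig_bilin_trans (hk : IsKahler 𝓜 h) (hf : 𝓜.HolFun f) (hΦ : 𝓜.IsHol Φ U)
    (hΨ : 𝓜.IsHol Ψ W) (hz : z ∈ U ∩ Φ ⁻¹' (Ψ '' W)) (a b : CE ι) :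
    ∑ j, ∑ k, bcSig (h Φ) (f ∘ Φ) z j k * a j * b k =
      ∑ j, ∑ k, bcSig (h Ψ) (f ∘ Ψ) ((Function.invFunOn Ψ W ∘ Φ) z) j k *
        (jac (Function.invFunOn Ψ W ∘ Φ) z *ᵥ (a : ι → ℂ)) j *
        (jac (Function.invFunOn Ψ W ∘ Φ) z *ᵥ (b : ι → ℂ)) k := by
  have hD := CMfd.isOpen_overlap hΦ hΨ
  have hΦ' : 𝓜.IsHol Φ (U ∩ Φ ⁻¹' (Ψ '' W)) := 𝓜.isHol_mono hΦ hD Set.inter_subset_left
  have hw := CMfd.trans_mem hΦ hΨ hz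
  have hiso := isIsom_trans hk.toIsHForm hΦ hΨ
  have hR' := kgeo_isRiem hk hΦ'
  have hR := kgeo_isRiem hk hΨ
  have hτ := CMfd.trans_differentiableAt hΦ hΨ hz
  have hGs : ContDiffAt ℝ ∞ (f ∘ Ψ) ((Function.invFunOn Ψ W ∘ Φ) z) :=
    (hol_contDiffOn_real (CMfd.isOpen_dom hΨ) (hf Ψ W hΨ) _ hw).contDiffAt
      ((CMfd.isOpen_dom hΨ).mem_nhds hw)
  have hG2 : ContDiffAt ℝ 2 (f ∘ Ψ) ((Function.invFunOn Ψ W ∘ Φ) z) := hGs.of_le (by norm_cast)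
  have hev := CMfd.eventually_comp_eq f hΦ hΨ hz
  have hda := fderiv_real_hol_ofLp hτ a
  have hdb := fderiv_real_hol_ofLp hτ b
  apply Complex.ext
  · have h1 := hiso.hess hR' hR hz (u := fun y => ((f ∘ Ψ) y).re)
      (Complex.reCLM.contDiff.contDiffAt.comp _ hG2) a b
    have h2 : (kgeo h Φ (U ∩ Φ ⁻¹' (Ψ '' W))).hess (fun y => ((f ∘ Φ) y).re) z a b =
        (kgeo h Φ (U ∩ Φ ⁻¹' (Ψ '' W))).hess
          (fun y => ((f ∘ Ψ) ((Function.invFunOn Ψ W ∘ Φ) y)).re) z a b := by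
      refine RGeo.hess_congr _ ?_ a b
      filter_upwards [hev] with y hy
      rw [hy]
      rfl
    have h3 := matGeo_hess_re (hk.isKMat hΦ') (hf Φ _ hΦ') hz a b
    have h4 := matGeo_hess_re (hk.isKMat hΨ) (hf Ψ W hΨ) hw
      (fderiv ℝ (Function.invFunOn Ψ W ∘ Φ) z a) (fderiv ℝ (Function.invFunOn Ψ W ∘ Φ) z b)
    rw [hda, hdb] at h4
    rw [← h3, ← h4]
    exact h2.trans h1
  · have h1 := hiso.hess hR' hR hz (u := fun y => ((f ∘ Ψ) y).im)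
      (Complex.imCLM.contDiff.contDiffAt.comp _ hG2) a b
    have h2 : (kgeo h Φ (U ∩ Φ ⁻¹' (Ψ '' W))).hess (fun y => ((f ∘ Φ) y).im) z a b =
        (kgeo h Φ (U ∩ Φ ⁻¹' (Ψ '' W))).hess
          (fun y => ((f ∘ Ψ) ((Function.invFunOn Ψ W ∘ Φ) y)).im) z a b := by
      refine RGeo.hess_congr _ ?_ a b
      filter_upwards [hev] with y hy
      rw [hy]
      rfl
    have h3 := matGeo_hess_im (hk.isKMat hΦ') (hf Φ _ hΦ') hz a b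
    have h4 := matGeo_hess_im (hk.isKMat hΨ) (hf Ψ W hΨ) hw
      (fderiv ℝ (Function.invFunOn Ψ W ∘ Φ) z a) (fderiv ℝ (Function.invFunOn Ψ W ∘ Φ) z b)
    rw [hda, hdb] at h4
    rw [← h3, ← h4]
    exact h2.trans h1

theorem bcSig_trans (hk : IsKahler 𝓜 h) (hf : 𝓜.HolFun f) (hΦ : 𝓜.IsHol Φ U) (hΨ : 𝓜.IsHol Ψ W)
    (hz : z ∈ U ∩ Φ ⁻¹' (Ψ '' W)) :
    bcSig (h Φ) (f ∘ Φ) z = (jac (Function.invFunOn Ψ W ∘ Φ) z)ᵀ *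
      bcSig (h Ψ) (f ∘ Ψ) ((Function.invFunOn Ψ W ∘ Φ) z) * jac (Function.invFunOn Ψ W ∘ Φ) z := by
  ext p q
  have h1 := bcSig_bilin_trans hk hf hΦ hΨ hz (eb p) (eb q)
  have hl : ∑ j, ∑ k, bcSig (h Φ) (f ∘ Φ) z j k * (eb p : CE ι) j * (eb q : CE ι) k =
      bcSig (h Φ) (f ∘ Φ) z p q := by
    simp [eb_apply]
  have hv : ∀ (A : Matrix ι ι ℂ) (r j : ι), (A *ᵥ ((eb r : CE ι) : ι → ℂ)) j = A j r := by
    intro A r j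
    simp [Matrix.mulVec, dotProduct, eb_apply]
  rw [hl] at h1
  rw [h1]
  simp only [hv, Matrix.mul_apply, Matrix.transpose_apply, Finset.sum_mul]
  rw [Finset.sum_comm]
  refine Finset.sum_congr rfl fun k _ => Finset.sum_congr rfl fun j _ => ?_
  ring

theorem bcT_trans (hk : IsKahler 𝓜 h) (hf : 𝓜.HolFun f) (hΦ : 𝓜.IsHol Φ U) (hΨ : 𝓜.IsHol Ψ W)
    (hz : z ∈ U ∩ Φ ⁻¹' (Ψ '' W)) (m : ι) :
    bcT (h Φ) (f ∘ Φ) m z = ∑ q, conj (jac (Function.invFunOn Ψ W ∘ Φ) z q m) •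
      ((jac (Function.invFunOn Ψ W ∘ Φ) z)ᵀ *
        bcT (h Ψ) (f ∘ Ψ) q ((Function.invFunOn Ψ W ∘ Φ) z) * jac (Function.invFunOn Ψ W ∘ Φ) z) := by
  have hD := CMfd.isOpen_overlap hΦ hΨ
  have hw := CMfd.trans_mem hΦ hΨ hz
  have hτ := CMfd.trans_differentiableAt hΦ hΨ hz
  have hev : ∀ᶠ y in 𝓝 z, bcSig (h Φ) (f ∘ Φ) y = (jac (Function.invFunOn Ψ W ∘ Φ) y)ᵀ *
      bcSig (h Ψ) (f ∘ Ψ) ((Function.invFunOn Ψ W ∘ Φ) y) * jac (Function.invFunOn Ψ W ∘ Φ) y := by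
    filter_upwards [hD.mem_nhds hz] with y hy
    exact bcSig_trans hk hf hΦ hΨ hy
  have hJc : ∀ a b, DifferentiableAt ℂ (fun y => jac (Function.invFunOn Ψ W ∘ Φ) y a b) z :=
    fun a b => differentiableAt_jac (CMfd.trans_eventually_differentiableAt hΦ hΨ hz) a b
  have hJ : ∀ a b, DifferentiableAt ℝ (fun y => jac (Function.invFunOn Ψ W ∘ Φ) y a b) z :=
    fun a b => (hJc a b).restrictScalars ℝ
  have hJT : ∀ a b, DifferentiableAt ℝ (fun y => (jac (Function.invFunOn Ψ W ∘ Φ) y)ᵀ a b) z :=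
    fun a b => hJ b a
  have hS : ∀ a b, DifferentiableAt ℝ (fun y => bcSig (h Ψ) (f ∘ Ψ) y a b)
      ((Function.invFunOn Ψ W ∘ Φ) z) := fun a b =>
    ((contDiffOn_bcSig (hk.isKMat hΨ) (hf Ψ W hΨ) a b _ hw).contDiffAt
      ((CMfd.isOpen_dom hΨ).mem_nhds hw)).differentiableAt (by simp)
  have hSτ : ∀ a b, DifferentiableAt ℝ
      (fun y => bcSig (h Ψ) (f ∘ Ψ) ((Function.invFunOn Ψ W ∘ Φ) y) a b) z := fun a b =>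
    (hS a b).comp z (hτ.restrictScalars ℝ)
  have hJ0 : dzbM m (fun y => jac (Function.invFunOn Ψ W ∘ Φ) y) z = 0 := by
    ext a b
    exact dzb_of_differentiableAt (hJc a b)
  have hJT0 : dzbM m (fun y => (jac (Function.invFunOn Ψ W ∘ Φ) y)ᵀ) z = 0 := by
    rw [dzbM_transpose, hJ0, Matrix.transpose_zero]
  unfold bcT
  rw [dzbM_congr hev, dzbM_mul (fun i j => differentiableAt_matMul hJT hSτ i j) hJ,
    dzbM_mul hJT hSτ, hJ0, hJT0, Matrix.zero_mul, Matrix.mul_zero, zero_add, add_zero,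
    dzbM_comp_hol _ hτ hS, Matrix.mul_sum, Matrix.sum_mul]
  refine Finset.sum_congr rfl fun q _ => ?_
  rw [Matrix.mul_smul, Matrix.smul_mul]

theorem bcPair_trans_aux (P Q R S X Y Z T B C' : Matrix ι ι ℂ) (e1 : Q * R = 1) (e2 : S * X = 1)
    (e3 : Y * Z = 1) (e4 : T * P = 1) (K K' : Matrix ι ι ℂ) :
    (P * K' * Q * (R * B * S) * (X * (K * Y)) * (Z * (C' * T))).trace = (K' * B * K * C').trace := by
  have h : P * K' * Q * (R * B * S) * (X * (K * Y)) * (Z * (C' * T))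
      = P * (K' * (Q * R) * B * (S * X) * K * (Y * Z) * C' * T) := by
    simp only [Matrix.mul_assoc]
  rw [h, e1, e2, e3, Matrix.trace_mul_comm]
  simp only [Matrix.mul_one]
  rw [Matrix.mul_assoc _ T, e4, Matrix.mul_one]

theorem bcPair_trans {A J : Matrix ι ι ℂ} (hJ : IsUnit J) (_hA : IsUnit A) (B C : Matrix ι ι ℂ) :
    bcPair (Jᴴ * A * J) (Jᵀ * B * J) (Jᵀ * C * J) = bcPair A B C := by
  have hd : IsUnit J.det := (Matrix.isUnit_iff_isUnit_det J).1 hJ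
  have hdH : IsUnit (Jᴴ).det := by
    rw [Matrix.det_conjTranspose]
    exact hd.star
  have e1 : (J⁻¹)ᵀ * Jᵀ = 1 := by
    rw [← Matrix.transpose_mul, Matrix.mul_nonsing_inv _ hd, Matrix.transpose_one]
  have e2 : J * J⁻¹ = 1 := Matrix.mul_nonsing_inv _ hd
  have e3 : (Jᴴ)⁻¹ * Jᴴ = 1 := Matrix.nonsing_inv_mul _ hdH
  have e4 : Jᵀᴴ * ((Jᴴ)⁻¹)ᵀ = 1 := by
    rw [bc_conjTranspose_transpose, ← Matrix.transpose_mul, e3, Matrix.transpose_one]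
  unfold bcPair
  rw [Matrix.mul_inv_rev, Matrix.mul_inv_rev, Matrix.transpose_mul, Matrix.transpose_mul,
    Matrix.conjTranspose_mul, Matrix.conjTranspose_mul]
  exact bcPair_trans_aux _ _ _ _ _ _ _ _ _ _ e1 e2 e3 e4 _ _

end laws

section glob

theorem invariant_bcN1 (hk : IsKahler 𝓜 h) (hf : 𝓜.HolFun f) :
    𝓜.Invariant fun Φ z => bcN1 (h Φ) (f ∘ Φ) z := by
  rw [CMfd.invariant_iff]
  intro Φ Ψ U W hΦ hΨ z hz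
  show dualIP (h Φ z) (bcGr (f ∘ Φ) z) (bcGr (f ∘ Φ) z) = dualIP (h Ψ _) _ _
  rw [bcGr_trans hf hΦ hΨ hz, hk.toIsHForm.compat_trans hΦ hΨ hz]
  exact dualIP_congr_trans _ _ (CMfd.isUnit_jac_trans hΦ hΨ hz) _ _

theorem hf_isUnit (hk : IsKahler 𝓜 h) (hΦ : 𝓜.IsHol Φ U) (hz : z ∈ U) : IsUnit (h Φ z) :=
  (Matrix.isUnit_iff_isUnit_det _).2 (isUnit_iff_ne_zero.2 (hk.toIsMetric.det_ne_zero hΦ hz))

theorem invariant_bcN2 (hk : IsKahler 𝓜 h) (hf : 𝓜.HolFun f) :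
    𝓜.Invariant fun Φ z => bcN2 (h Φ) (f ∘ Φ) z := by
  rw [CMfd.invariant_iff]
  intro Φ Ψ U W hΦ hΨ z hz
  show (bcPair (h Φ z) (bcSig (h Φ) (f ∘ Φ) z) (bcSig (h Φ) (f ∘ Φ) z)).re = (bcPair _ _ _).re
  rw [bcSig_trans hk hf hΦ hΨ hz, hk.toIsHForm.compat_trans hΦ hΨ hz,
    bcPair_trans (CMfd.isUnit_jac_trans hΦ hΨ hz) (hf_isUnit hk hΨ (CMfd.trans_mem hΦ hΨ hz))]

theorem hfN1_param (hk : IsKahler 𝓜 h) (hf : 𝓜.HolFun f) (hΦ : 𝓜.IsHol Φ U) (hz : z ∈ U) :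
    hfN1 𝓜 h f (Φ z) = bcN1 (h Φ) (f ∘ Φ) z :=
  CMfd.scal_eq (invariant_bcN1 hk hf) hΦ hz

theorem hfN2_param (hk : IsKahler 𝓜 h) (hf : 𝓜.HolFun f) (hΦ : 𝓜.IsHol Φ U) (hz : z ∈ U) :
    hfN2 𝓜 h f (Φ z) = bcN2 (h Φ) (f ∘ Φ) z :=
  CMfd.scal_eq (invariant_bcN2 hk hf) hΦ hz

theorem smooth_hfN1 (hk : IsKahler 𝓜 h) (hf : 𝓜.HolFun f) : 𝓜.Smooth (hfN1 𝓜 h f) :=
  CMfd.smooth_scal (invariant_bcN1 hk hf) fun Φ U hΦ =>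
    contDiffOn_bcN1 (hk.isKMat hΦ) (hf Φ U hΦ)

theorem smooth_hfN2 (hk : IsKahler 𝓜 h) (hf : 𝓜.HolFun f) : 𝓜.Smooth (hfN2 𝓜 h f) :=
  CMfd.smooth_scal (invariant_bcN2 hk hf) fun Φ U hΦ =>
    contDiffOn_bcN2 (hk.isKMat hΦ) (hf Φ U hΦ)

theorem hfN1_nonneg (hk : IsKahler 𝓜 h) {x : V} (hx : x ∈ 𝓜.carrier) : 0 ≤ hfN1 𝓜 h f x := by
  have hP := hk.posDef (𝓜.isHol_pΦ hx) _ (𝓜.co_mem hx)
  exact qf_nonneg hP.inv.transpose.posSemidef _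

theorem hfN2_nonneg (hk : IsKahler 𝓜 h) {x : V} (hx : x ∈ 𝓜.carrier) : 0 ≤ hfN2 𝓜 h f x :=
  (bcPair_self (hk.posDef (𝓜.isHol_pΦ hx) _ (𝓜.co_mem hx)) _).2

theorem isVField_hfY (hk : IsKahler 𝓜 h) (hf : 𝓜.HolFun f) : IsVField 𝓜 (hfY h f) := by
  refine ⟨fun {Φ U} hΦ k => contDiffOn_bcY (hk.isKMat hΦ) (hf Φ U hΦ) k, ?_⟩
  intro Φ Ψ U W hΦ hΨ z hz1 hz2
  have hz : z ∈ U ∩ Φ ⁻¹' (Ψ '' W) := ⟨hz1, hz2⟩
  have hw := CMfd.trans_mem hΦ hΨ hz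
  have hJ := CMfd.isUnit_jac_trans hΦ hΨ hz
  have hH := hk.toIsHForm.compat_trans hΦ hΨ hz
  have hS := bcSig_trans hk hf hΦ hΨ hz
  have hT := bcT_trans hk hf hΦ hΨ hz
  show bcY (h Ψ) (f ∘ Ψ) ((Function.invFunOn Ψ W ∘ Φ) z) = _ *ᵥ bcY (h Φ) (f ∘ Φ) z
  generalize (Function.invFunOn Ψ W ∘ Φ) z = w at *
  generalize jac (Function.invFunOn Ψ W ∘ Φ) z = J at *
  have hd : IsUnit J.det := (Matrix.isUnit_iff_isUnit_det J).1 hJ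
  have hdH : IsUnit (Jᴴ).det := by
    rw [Matrix.det_conjTranspose]
    exact hd.star
  have hP : ∀ m, bcPair (h Φ z) (bcT (h Φ) (f ∘ Φ) m z) (bcSig (h Φ) (f ∘ Φ) z) =
      ∑ q, conj (J q m) * bcPair (h Ψ w) (bcT (h Ψ) (f ∘ Ψ) q w) (bcSig (h Ψ) (f ∘ Ψ) w) := by
    intro m
    rw [hT m, hS, hH, bcPair_sum_left]
    refine Finset.sum_congr rfl fun q _ => ?_
    rw [bcPair_smul_left, bcPair_trans hJ (hf_isUnit hk hΨ hw)]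
  have hK : J * (h Φ z)⁻¹ * Jᴴ = (h Ψ w)⁻¹ := by
    rw [hH, Matrix.mul_inv_rev, Matrix.mul_inv_rev]
    calc J * (J⁻¹ * ((h Ψ w)⁻¹ * (Jᴴ)⁻¹)) * Jᴴ = (J * J⁻¹) * (h Ψ w)⁻¹ * ((Jᴴ)⁻¹ * Jᴴ) := by
          simp only [Matrix.mul_assoc]
      _ = _ := by
          rw [Matrix.mul_nonsing_inv _ hd, Matrix.nonsing_inv_mul _ hdH, Matrix.one_mul,
            Matrix.mul_one]
  funext r
  simp only [bcY, Matrix.mulVec, dotProduct, hP, ← hK, Matrix.mul_apply,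
    Matrix.conjTranspose_apply, Finset.sum_mul, Finset.mul_sum, Complex.star_def]
  rw [Finset.sum_comm]
  conv_rhs => rw [Finset.sum_comm]
  refine Finset.sum_congr rfl fun m _ => ?_
  rw [Finset.sum_comm]
  refine Finset.sum_congr rfl fun p _ => Finset.sum_congr rfl fun q _ => ?_
  ring

/-- `Δ |f|² = |∂f|²`. -/
theorem lap_normSq_eq (hk : IsKahler 𝓜 h) (hf : 𝓜.HolFun f) {x : V} (hx : x ∈ 𝓜.carrier) :
    lap 𝓜 h (fun y => ‖f y‖ ^ 2) x = hfN1 𝓜 h f x :=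
  bc_lap_normSq (hk.isKMat (𝓜.isHol_pΦ hx)) (hf _ _ (𝓜.isHol_pΦ hx)) (𝓜.co_mem hx)

/-- `(hfN1 ..) ∘ Φ = bcN1 ..` near a point of the domain. -/
theorem hfN1_eventuallyEq (hk : IsKahler 𝓜 h) (hf : 𝓜.HolFun f) (hΦ : 𝓜.IsHol Φ U) (hz : z ∈ U) :
    hfN1 𝓜 h f ∘ Φ =ᶠ[𝓝 z] bcN1 (h Φ) (f ∘ Φ) := by
  filter_upwards [(CMfd.isOpen_dom hΦ).mem_nhds hz] with y hy
  exact hfN1_param hk hf hΦ hy

theorem hfN2_eventuallyEq (hk : IsKahler 𝓜 h) (hf : 𝓜.HolFun f) (hΦ : 𝓜.IsHol Φ U) (hz : z ∈ U) :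
    hfN2 𝓜 h f ∘ Φ =ᶠ[𝓝 z] bcN2 (h Φ) (f ∘ Φ) := by
  filter_upwards [(CMfd.isOpen_dom hΦ).mem_nhds hz] with y hy
  exact hfN2_param hk hf hΦ hy

/-- `Δ |∂f|² ≥ |∇∂f|²` if `BK ≥ 0`. -/
theorem hfN2_le_lap_hfN1 (hk : IsKahler 𝓜 h) (hb : BisecNonneg 𝓜 h) (hf : 𝓜.HolFun f) {x : V}
    (hx : x ∈ 𝓜.carrier) : hfN2 𝓜 h f x ≤ lap 𝓜 h (hfN1 𝓜 h f) x := by
  have hΦ := 𝓜.isHol_pΦ hx
  have hz := 𝓜.co_mem hx
  have h1 := bc_N2_le_lap_N1 (hk.isKMat hΦ) (hf _ _ hΦ) hz (kb_ricF_posSemidef hk hb hΦ hz)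
  rw [← lapP_congr _ (hfN1_eventuallyEq hk hf hΦ hz)] at h1
  exact h1

/-- `Δ |∇∂f|² ≥ 2 Re div Y - 4 n³ R² |∂f|²` if `BK ≥ 0`, chartwise. -/
theorem le_lapP_hfN2 (hk : IsKahler 𝓜 h) (hb : BisecNonneg 𝓜 h) (hf : 𝓜.HolFun f)
    (hΦ : 𝓜.IsHol Φ U) (hz : z ∈ U) :
    2 * (bcDiv (h Φ) (hfY h f Φ) z).re
        - 4 * (Fintype.card ι : ℝ) ^ 3 * scalCurv 𝓜 h (Φ z) ^ 2 * hfN1 𝓜 h f (Φ z) ≤
      lapP (h Φ z) (hfN2 𝓜 h f ∘ Φ) z := by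
  have h1 := bc_le_lap_N2 (hk.isKMat hΦ) (hf _ _ hΦ) hz (kb_ricF_posSemidef hk hb hΦ hz)
  have h2 := bcNT_le hk hb hΦ (hf _ _ hΦ) hz
  rw [lapP_congr _ (hfN2_eventuallyEq hk hf hΦ hz), hfN1_param hk hf hΦ hz,
    scalCurv_eq hk.toIsMetric hΦ hz]
  have h3 : bcDiv (h Φ) (hfY h f Φ) z = bcDiv (h Φ) (bcY (h Φ) (f ∘ Φ)) z := rfl
  rw [h3]
  have h4 : trF h (ricF h) Φ z = ((h Φ z)⁻¹ * ricF h Φ z).trace.re := rfl
  rw [h4] at h2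
  linarith

/-- `|Y|² ≤ 4 n³ R² |∂f|² |∇∂f|²`. -/
theorem qf_hfY_le (hk : IsKahler 𝓜 h) (hb : BisecNonneg 𝓜 h) (hf : 𝓜.HolFun f)
    (hΦ : 𝓜.IsHol Φ U) (hz : z ∈ U) :
    qf (h Φ z) (hfY h f Φ z) ≤
      4 * (Fintype.card ι : ℝ) ^ 3 * scalCurv 𝓜 h (Φ z) ^ 2 * hfN1 𝓜 h f (Φ z)
        * hfN2 𝓜 h f (Φ z) := by
  have h1 := bc_qf_bcY_le (g := f ∘ Φ) (hk.isKMat hΦ) hz
  have h2 := bcNT_le hk hb hΦ (hf _ _ hΦ) hz
  have h4 : trF h (ricF h) Φ z = ((h Φ z)⁻¹ * ricF h Φ z).trace.re := rfl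
  rw [h4] at h2
  have h5 : 0 ≤ bcN2 (h Φ) (f ∘ Φ) z := (bcPair_self (hk.posDef hΦ z hz) _).2
  rw [hfN1_param hk hf hΦ hz, hfN2_param hk hf hΦ hz, scalCurv_eq hk.toIsMetric hΦ hz]
  exact h1.trans (mul_le_mul_of_nonneg_right h2 h5)

end glob

end Claimed.Agent.R316
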