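import Claimed.Agent.R316.Base.Chart.Normal
import Claimed.Agent.R316.Pack022_2
import Claimed.Agent.R316.Pack011

/-!
# `BP-G14` part K: the complex structure of a `GoodBall` in the normal chart

Architect: helper195.  PAPER FREE.  Standing hypothesis `hB : GoodBall X k S K` (definition at the end of `Normal.lean`), `K ≤ 1`.
`x` denotes a point of the unit ball of `ℂ^ι` (= carrier of `X` = domain of the real chart `S`); `Ψ : U → ball` a holomorphic parametrisation of `X`; by `hB.isom` it is a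
local isometry `(U, kgeo k Ψ U) → S`, so ALL naturality statements of `Base/RGeo/Pull.lean` apply (`IsIsom.hess`, `IsIsom.isParallel_iff`, ...).
`J_x = ambJ X x` is the complex structure of `X` on real tangent vectors (`ambJ_param : ambJ X (Ψ z) (dΨ_z a) = dΨ_z (i a)`).

RESULTS: the standard coordinate functions `x ↦ x_a` are almost holomorphic: `|∂̄ x_a| ≤ K |x|²` (`dbar_coord_le`);  `dd |x|² = (1 + O(K |x|²)) k` (`qf_ddc_rho_sub_le`);  `|∂ |x|²|² = |x|²`.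

## Leaves (sections)
* `G14-K0` (section `basic`): dictionary.
* `G14-K1` (section `parallelJ`): `J` is parallel along rays; `|J_x b - i b| ≤ (4/7) K |x|² |b|`; `dbar_coord_le`.
* `G14-K2` (section `rho`): Levi form and gradient of `|x|²`.

## RECIPES
**K0.**  `qf_eq`: `hB.isom Ψ U hΨ |>.isom z hz v v` and `kgeo_G_self`.  `exists_chart`: `X.cover` + `carrier_eq`.  `surj`: `(hB.isom ..).inv z hz` (`IsInvertible` ⟹ surjective).  `smooth_iff`: `⇐`: `u ∘ Ψ`, `Ψ` smooth (`IsIsom.smooth`) with values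
in the ball (`IsIsom.mapsTo`, `U_eq`).  `⇒`: at `x` take a chart and `RGeo.IsIsom.exists_local_inverse`: `u = (u ∘ Ψ) ∘ ρ` near `x`.  Same for `smoothC_iff`.  `K_mul_le`: `‖x‖ < 1`, `0 ≤ K ≤ 1`.
**K1.**  `isPT_J`: let `Z, ε` be as in `IsPT x e e'`; shrink `ε` so that `t • x` is in the ball for `t ∈ I = Ioo (-ε) (1+ε)`.  `Z' t = ambJ X (t • x) (Z t)`.  CLAIM: `Z'` is smooth and `S`-parallel along the ray on `I`.  Local statement: fix `t₀ ∈ I`, a chart `Ψ, U`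
with `t₀ • x = Ψ z₀`, local inverse `ρ` of `Ψ` (`exists_local_inverse`), `c t = ρ (t • x)`, `Y t = fderiv ρ (t • x) (Z t)` for `t` near `t₀`: `Z t = fderiv Ψ (c t) (Y t)`; by `IsIsom.isParallel_iff` `Y` is `kgeo`-parallel along `c`, by
`matGeo_isParallel_I` so is `i Y`, and `Z' t = fderiv Ψ (c t) (i • Y t)` by `ambJ_param`; `isParallel_iff` again.  `Z' 0 = i e` by `hB.J_zero` + `ambJ_param` (write `e = dΨ_z a`), `Z' 1 = ambJ X x e'`.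
`norm_J_sub_le`: `b = e'` with `IsPT x e b` (`exists_isPT_inv`), `‖e‖ = nrm x b` (`IsPT.nrm_eq`); `J b - i b = -(i e - J b) + i (e - b)`, `IsPT.norm_sub_le` for `(i e, J b)` and for `(e, b)`; `‖i • y‖ = ‖y‖`.
`dbar_coord_le`: with `f y = Ψ y a`: `∑_j dzb j f z * conj (v j) = (1/2) (df(v) + i df(i v))` (expand `v = ∑ (Re v_j) e_j + (Im v_j) i e_j`, `dzb` is defined by `fderiv ℝ f z (eb j)`, `fderiv ℝ f z (I • eb j)`), `df(w) = (dΨ_z w)_a`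
(`fderiv` of the continuous linear coordinate projection), so the sum is `(i/2) (J b - i b)_a`, `b = dΨ_z v`; `|y_a| ≤ ‖y‖` (`PiLp.norm_apply_le`), `norm_J_sub_le`, `nrm x b ^2 = qf (k Ψ z) v`.
**K2.**  `kgeo_hess_levi` + `IsIsom.hess` (`u = ‖·‖²`, smooth) + `IsRadial.abs_hess_normSq_sub_le` for `b = dΨ v` and `b = dΨ (i v)`; `qf (k Ψ z) (i v) = qf (k Ψ z) v` (`reForm_I_I`).
`gradSq_rho`: `gradSq_eq` + `gradSqF_eq_of_riesz` with `T` = the preimage of `2 x` under `dΨ_z`; `IsRadial.fderiv_normSq`, `IsRadial.G_self`.  `norm_grad_rho_sq_le`: Cauchy-Schwarz: `|∑ ∂_kρ v_k|² = (dρ(b)² + dρ(Jb)²)/4` (`norm_sum_grad10_sq`),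
`dρ(b) = 2 G(x,b)`, `dρ(Jb) = 2 G(x,Jb)`, and `b/|b|, Jb/|b|` are orthonormal for `G x`: Bessel `G(x,b)² + G(x,Jb)² ≤ G(x,x) G(b,b)`.
-/

set_option autoImplicit false
set_option linter.unusedSectionVars false
set_option maxSynthPendingDepth 3
open scoped ContDiff Topology ComplexOrder ComplexConjugate

namespace Claimed.Agent.R316

variable {ι : Type} [Fintype ι] [DecidableEq ι]
variable {X : CMfd (CE ι) ι} {k : HFam (CE ι) ι} {S : RGeo (CE ι)} {K : ℝ}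
variable {Ψ : CE ι → CE ι} {U : Set (CE ι)} {x z : CE ι}

/-- `ρ(x) = |x|²`. -/
noncomputable def ucRho (x : CE ι) : ℝ := ‖x‖ ^ 2

section basic

theorem GoodBall.mem_carrier_iff (hB : GoodBall X k S K) : x ∈ X.carrier ↔ ‖x‖ < 1 := by
  rw [hB.carrier_eq, mem_ball_zero_iff]

theorem GoodBall.mem_U_iff (hB : GoodBall X k S K) : x ∈ S.U ↔ ‖x‖ < 1 := by
  rw [hB.U_eq, mem_ball_zero_iff]

theorem GoodBall.K_mul_le (hB : GoodBall X k S K) (hK : K ≤ 1) (hx : ‖x‖ < 1) :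
    K * ‖x‖ ^ 2 ≤ 1 := by
  have h0 := hB.radial.K_nonneg
  have h1 : ‖x‖ ^ 2 ≤ 1 := by nlinarith [norm_nonneg x]
  nlinarith [sq_nonneg ‖x‖]

theorem GoodBall.param_norm_lt (hB : GoodBall X k S K) (hΨ : X.IsHol Ψ U) (hz : z ∈ U) :
    ‖Ψ z‖ < 1 := hB.mem_carrier_iff.1 (CMfd.mem_carrier hΨ hz)

theorem GoodBall.exists_chart (hB : GoodBall X k S K) (hx : ‖x‖ < 1) :
    ∃ (Ψ : CE ι → CE ι) (U : Set (CE ι)) (z : CE ι), X.IsHol Ψ U ∧ z ∈ U ∧ Ψ z = x := by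
  obtain ⟨Ψ, U, hΨ, z, hz, rfl⟩ := X.cover x (hB.mem_carrier_iff.2 hx)
  exact ⟨Ψ, U, z, hΨ, hz, rfl⟩

theorem GoodBall.qf_eq (hB : GoodBall X k S K) (hΨ : X.IsHol Ψ U) (hz : z ∈ U) (v : CE ι) :
    qf (k Ψ z) v = S.G (Ψ z) (fderiv ℝ Ψ z v) (fderiv ℝ Ψ z v) :=
  (hB.isom Ψ U hΨ).isom z hz v v

theorem GoodBall.surj (hB : GoodBall X k S K) (hΨ : X.IsHol Ψ U) (hz : z ∈ U) (b : CE ι) :
    ∃ v : CE ι, fderiv ℝ Ψ z v = b :=
  ((hB.isom Ψ U hΨ).inv z hz).surjective b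

/-- local inverses of the holomorphic parametrisations, in convenient form. -/
theorem GoodBall.exists_local_inverse (hB : GoodBall X k S K) (hΨ : X.IsHol Ψ U) (hz : z ∈ U) :
    ∃ (ρ : CE ι → CE ι) (U₁ : Set (CE ι)), IsOpen U₁ ∧ Ψ z ∈ U₁ ∧ U₁ ⊆ Metric.ball 0 1 ∧
      ContDiffOn ℝ ∞ ρ U₁ ∧ (∀ y ∈ U₁, ρ y ∈ U) ∧ (∀ y ∈ U₁, Ψ (ρ y) = y) ∧ ρ (Ψ z) = z ∧
      ∀ y ∈ U₁, ∀ b, fderiv ℝ Ψ (ρ y) (fderiv ℝ ρ y b) = b := by
  have hU : IsOpen U := (X.isParam hΨ).isOpen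
  obtain ⟨ρ, U₁, U₂, hU₁, hm₁, hs₁, hU₂, hm₂, hs₂, hiso, hr, hl⟩ :=
    (hB.isom Ψ U hΨ).exists_local_inverse hU hB.radial.riem.isOpen hz
  have hρ : ContDiffOn ℝ ∞ ρ U₁ := hiso.smooth
  have hmaps : ∀ y ∈ U₁, ρ y ∈ U := fun y hy => hs₂ (hiso.mapsTo y hy)
  refine ⟨ρ, U₁, hU₁, hm₁, fun y hy => hB.U_eq ▸ hs₁ hy, hρ, hmaps, hr, (hl z hm₂).2, ?_⟩
  intro y hy b
  have h1 : fderiv ℝ (fun y => Ψ (ρ y)) y = (fderiv ℝ Ψ (ρ y)).comp (fderiv ℝ ρ y) :=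
    fderiv_comp y
      (((X.isParam hΨ).smooth.contDiffAt (hU.mem_nhds (hmaps y hy))).differentiableAt (by simp))
      ((hρ.contDiffAt (hU₁.mem_nhds hy)).differentiableAt (by simp))
  have h2 : (fun y => Ψ (ρ y)) =ᶠ[𝓝 y] fun y => y := by
    filter_upwards [hU₁.mem_nhds hy] with w hw using hr w hw
  have h3 : (fderiv ℝ Ψ (ρ y)).comp (fderiv ℝ ρ y) = ContinuousLinearMap.id ℝ (CE ι) := by
    rw [← h1, h2.fderiv_eq]
    exact fderiv_fun_id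
  exact congrArg (fun L : CE ι →L[ℝ] CE ι => L b) h3

/-- a map which is smooth in all holomorphic parametrisations is smooth on the ball. -/
theorem GoodBall.contDiffOn_of_charts (hB : GoodBall X k S K) {F : Type} [NormedAddCommGroup F]
    [NormedSpace ℝ F] {u : CE ι → F}
    (hu : ∀ (Ψ : CE ι → CE ι) (U : Set (CE ι)), X.IsHol Ψ U → ContDiffOn ℝ ∞ (u ∘ Ψ) U) :
    ContDiffOn ℝ ∞ u (Metric.ball 0 1) := by
  intro x hx
  obtain ⟨Ψ, U, z, hΨ, hz, rfl⟩ := hB.exists_chart (mem_ball_zero_iff.1 hx)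
  obtain ⟨ρ, U₁, hU₁, hm₁, -, hρ, hmaps, hr, -, -⟩ := hB.exists_local_inverse hΨ hz
  have h1 : ContDiffOn ℝ ∞ ((u ∘ Ψ) ∘ ρ) U₁ := (hu Ψ U hΨ).comp hρ hmaps
  have h2 : ContDiffAt ℝ ∞ ((u ∘ Ψ) ∘ ρ) (Ψ z) := h1.contDiffAt (hU₁.mem_nhds hm₁)
  have h3 : u =ᶠ[𝓝 (Ψ z)] (u ∘ Ψ) ∘ ρ := by
    filter_upwards [hU₁.mem_nhds hm₁] with w hw
    simp only [Function.comp_apply, hr w hw]
  exact (h2.congr_of_eventuallyEq h3).contDiffWithinAt

theorem GoodBall.param_contDiffOn (_hB : GoodBall X k S K) (hΨ : X.IsHol Ψ U) :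
    ContDiffOn ℝ ∞ Ψ U := (X.isParam hΨ).smooth

theorem GoodBall.param_mapsTo (hB : GoodBall X k S K) (hΨ : X.IsHol Ψ U) :
    Set.MapsTo Ψ U (Metric.ball 0 1) := fun _ hz => mem_ball_zero_iff.2 (hB.param_norm_lt hΨ hz)

/-- smooth functions on `X` = smooth functions on the ball. -/
theorem GoodBall.smooth_iff (hB : GoodBall X k S K) {u : CE ι → ℝ} :
    X.Smooth u ↔ ContDiffOn ℝ ∞ u (Metric.ball 0 1) :=
  ⟨fun h => hB.contDiffOn_of_charts h,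
    fun h _ _ hΨ => h.comp (hB.param_contDiffOn hΨ) (hB.param_mapsTo hΨ)⟩

theorem GoodBall.contDiffOn_of_holFun (hB : GoodBall X k S K) {f : CE ι → ℂ} (hf : X.HolFun f) :
    ContDiffOn ℝ ∞ f (Metric.ball 0 1) :=
  hB.contDiffOn_of_charts fun Ψ U hΨ => hol_contDiffOn_real (X.isParam hΨ).isOpen (hf Ψ U hΨ)

theorem contDiff_ucRho : ContDiff ℝ ∞ (ucRho : CE ι → ℝ) := contDiff_norm_sq ℝ

theorem GoodBall.smooth_rho (hB : GoodBall X k S K) : X.Smooth (ucRho : CE ι → ℝ) :=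
  hB.smooth_iff.2 contDiff_ucRho.contDiffOn

/-- `(1/2) |b|² ≤ G x b b ≤ 2 |b|²`. -/
theorem GoodBall.G_le (hB : GoodBall X k S K) (hK : K ≤ 1) (hx : ‖x‖ < 1) (b : CE ι) :
    S.G x b b ≤ 2 * ‖b‖ ^ 2 :=
  hB.radial.G_le (hB.mem_U_iff.2 hx) (hB.K_mul_le hK hx) b

theorem GoodBall.le_G (hB : GoodBall X k S K) (hK : K ≤ 1) (hx : ‖x‖ < 1) (b : CE ι) :
    1 / 2 * ‖b‖ ^ 2 ≤ S.G x b b :=
  hB.radial.le_G (hB.mem_U_iff.2 hx) (hB.K_mul_le hK hx) b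

end basic

section parallelJ

theorem GoodBall.isRiem_kgeo (hB : GoodBall X k S K) (hΨ : X.IsHol Ψ U) : (kgeo k Ψ U).IsRiem :=
  kgeo_isRiem hB.kahler hΨ

theorem GoodBall.ambJ_zero_vec (hB : GoodBall X k S K) (hx : ‖x‖ < 1) : ambJ X x 0 = 0 := by
  obtain ⟨Ψ, U, z, hΨ, hz, rfl⟩ := hB.exists_chart hx
  have h := ambJ_param hΨ hz (0 : CE ι)
  rwa [smul_zero, map_zero] at h

/-- at the centre the complex structure is the standard one. -/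
theorem GoodBall.ambJ_center (hB : GoodBall X k S K) (e : CE ι) :
    ambJ X 0 e = Complex.I • e := by
  obtain ⟨Ψ, U, z, hΨ, hz, h0⟩ := hB.exists_chart (x := (0 : CE ι)) (by simp)
  obtain ⟨a, rfl⟩ := hB.surj hΨ hz e
  rw [← hB.J_zero Ψ U hΨ z hz h0 a, ← ambJ_param hΨ hz a, h0]

/-- **`∇ J = 0`** along curves, in the real chart. -/
theorem GoodBall.covD_J (hB : GoodBall X k S K) {c₀ Z : ℝ → CE ι} {t₀ : ℝ}
    (hc₀ : ContDiffAt ℝ ∞ c₀ t₀) (hmem : ‖c₀ t₀‖ < 1) (hZ : ContDiffAt ℝ ∞ Z t₀) :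
    ContDiffAt ℝ ∞ (fun t => ambJ X (c₀ t) (Z t)) t₀ ∧
      S.covD c₀ (fun t => ambJ X (c₀ t) (Z t)) t₀ = ambJ X (c₀ t₀) (S.covD c₀ Z t₀) := by
  obtain ⟨Ψ, U, z, hΨ, hz, hzc⟩ := hB.exists_chart hmem
  obtain ⟨ρ, U₁, hU₁, hm₁, -, hρ, hmaps, hr, hρz, hder⟩ := hB.exists_local_inverse hΨ hz
  have hU : IsOpen U := (X.isParam hΨ).isOpen
  have hiso := hB.isom Ψ U hΨ
  have hS' := hB.isRiem_kgeo hΨ
  have hS := hB.radial.riem
  rw [hzc] at hm₁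
  have hev : ∀ᶠ t in 𝓝 t₀, c₀ t ∈ U₁ := hc₀.continuousAt.eventually (hU₁.mem_nhds hm₁)
  set c : ℝ → CE ι := fun t => ρ (c₀ t) with hc
  set Y : ℝ → CE ι := fun t => fderiv ℝ ρ (c₀ t) (Z t) with hY
  have hρa : ContDiffAt ℝ ∞ ρ (c₀ t₀) := hρ.contDiffAt (hU₁.mem_nhds hm₁)
  have hca : ContDiffAt ℝ ∞ c t₀ := hρa.comp t₀ hc₀
  have hdρ : ContDiffAt ℝ ∞ (fderiv ℝ ρ) (c₀ t₀) :=
    (hρ.fderiv_of_isOpen hU₁ (by simp)).contDiffAt (hU₁.mem_nhds hm₁)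
  have hYa : ContDiffAt ℝ ∞ Y t₀ := (hdρ.comp t₀ hc₀).clm_apply hZ
  have hct₀ : c t₀ ∈ U := hmaps _ hm₁
  have hdΨ : ContDiffAt ℝ ∞ (fderiv ℝ Ψ) (c t₀) :=
    ((X.isParam hΨ).smooth.fderiv_of_isOpen hU (by simp)).contDiffAt (hU.mem_nhds hct₀)
  have e1 : (fun t => Ψ (c t)) =ᶠ[𝓝 t₀] c₀ := by
    filter_upwards [hev] with t ht using hr _ ht
  have e2 : (fun t => fderiv ℝ Ψ (c t) (Y t)) =ᶠ[𝓝 t₀] Z := by
    filter_upwards [hev] with t ht using hder _ ht _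
  have e3 : (fun t => ambJ X (c₀ t) (Z t)) =ᶠ[𝓝 t₀] fun t => fderiv ℝ Ψ (c t) (Complex.I • Y t) := by
    filter_upwards [hev] with t ht
    rw [← ambJ_param hΨ (hmaps _ ht), hder _ ht, hr _ ht]
  have hIY : ContDiffAt ℝ ∞ (fun t => Complex.I • Y t) t₀ := hYa.const_smul Complex.I
  refine ⟨((hdΨ.comp t₀ hca).clm_apply hIY).congr_of_eventuallyEq e3, ?_⟩
  have hcd : DifferentiableAt ℝ c t₀ := hca.differentiableAt (by simp)
  rw [S.covD_congr e1.symm e3,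
    hiso.covD hS' hS hct₀ hcd (hIY.differentiableAt (by simp))]
  have e4 : (kgeo k Ψ U).covD c (fun t => Complex.I • Y t) t₀
      = Complex.I • (kgeo k Ψ U).covD c Y t₀ := matGeo_covD_I _ _ _ _ _
  rw [e4, ← ambJ_param hΨ hct₀, ← hiso.covD hS' hS hct₀ hcd (hYa.differentiableAt (by simp)),
    S.covD_congr e1 e2, hr _ hm₁]

/-- a slightly longer ray stays in the unit ball. -/
theorem exists_ray_norm_lt (hx : ‖x‖ < 1) :
    ∃ ε : ℝ, 0 < ε ∧ ∀ t ∈ Set.Ioo (-ε) (1 + ε), ‖t • x‖ < 1 := by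
  refine ⟨(1 - ‖x‖) / 2, by linarith, fun t ht => ?_⟩
  have h0 := norm_nonneg x
  have ht' : |t| ≤ 1 + (1 - ‖x‖) / 2 := abs_le.2 ⟨by linarith [ht.1], ht.2.le⟩
  rw [norm_smul, Real.norm_eq_abs]
  calc |t| * ‖x‖ ≤ (1 + (1 - ‖x‖) / 2) * ‖x‖ := mul_le_mul_of_nonneg_right ht' h0
    _ < 1 := by nlinarith

/-- **the complex structure is parallel along the rays.** -/
theorem GoodBall.isPT_J (hB : GoodBall X k S K) (hx : ‖x‖ < 1) {e e' : CE ι}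
    (h1 : S.IsPT x e e') : S.IsPT x (Complex.I • e) (ambJ X x e') := by
  obtain ⟨Z, ε, hε, hZs, hZp, hZ0, hZ1⟩ := h1
  obtain ⟨ε₁, hε₁, hray⟩ := exists_ray_norm_lt hx
  set ε' : ℝ := min ε ε₁ with hε'
  have hε'0 : 0 < ε' := lt_min hε hε₁
  have hsub : Set.Ioo (-ε') (1 + ε') ⊆ Set.Ioo (-ε) (1 + ε) := by
    have : ε' ≤ ε := min_le_left _ _
    exact Set.Ioo_subset_Ioo (by linarith) (by linarith)
  have hsub₁ : Set.Ioo (-ε') (1 + ε') ⊆ Set.Ioo (-ε₁) (1 + ε₁) := by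
    have : ε' ≤ ε₁ := min_le_right _ _
    exact Set.Ioo_subset_Ioo (by linarith) (by linarith)
  have hc₀ : ∀ t : ℝ, ContDiffAt ℝ ∞ (fun t : ℝ => t • x) t := fun t =>
    (contDiff_id.smul contDiff_const).contDiffAt
  have key : ∀ t ∈ Set.Ioo (-ε') (1 + ε'),
      ContDiffAt ℝ ∞ (fun t : ℝ => ambJ X (t • x) (Z t)) t ∧
      S.covD (fun t : ℝ => t • x) (fun t : ℝ => ambJ X (t • x) (Z t)) t = 0 := by
    intro t ht
    have hmem : ‖t • x‖ < 1 := hray t (hsub₁ ht)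
    have hZa : ContDiffAt ℝ ∞ Z t := hZs.contDiffAt (Ioo_mem_nhds (hsub ht).1 (hsub ht).2)
    obtain ⟨a1, a2⟩ := hB.covD_J (c₀ := fun t : ℝ => t • x) (hc₀ t) hmem hZa
    refine ⟨a1, ?_⟩
    rw [a2, hZp t (hsub ht)]
    exact hB.ambJ_zero_vec hmem
  refine ⟨fun t : ℝ => ambJ X (t • x) (Z t), ε', hε'0, fun t ht => (key t ht).1.contDiffWithinAt,
    fun t ht => (key t ht).2, ?_, ?_⟩
  · simp only [zero_smul, hZ0]
    exact hB.ambJ_center e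
  · simp only [one_smul, hZ1]

/-- the complex structure of `X` differs from the standard one by `O(K |x|²)`. -/
theorem GoodBall.norm_J_sub_le (hB : GoodBall X k S K) (hK : K ≤ 1) (hx : ‖x‖ < 1) (b : CE ι) :
    ‖ambJ X x b - Complex.I • b‖ ≤ 4 / 7 * (K * ‖x‖ ^ 2) * S.nrm x b := by
  have hxU := hB.mem_U_iff.2 hx
  have hKx := hB.K_mul_le hK hx
  obtain ⟨e, he⟩ := hB.radial.exists_isPT_inv hxU b
  have hn : S.nrm x b = ‖e‖ := he.nrm_eq hB.radial hxU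
  have h1 := (hB.isPT_J hx he).norm_sub_le hB.radial hxU hKx
  have h2 := he.norm_sub_le hB.radial hxU hKx
  have hI : ∀ y : CE ι, ‖Complex.I • y‖ = ‖y‖ := fun y => by
    rw [norm_smul, Complex.norm_I, one_mul]
  rw [hI] at h1
  have e1 : ambJ X x b - Complex.I • b
      = -(Complex.I • e - ambJ X x b) + Complex.I • (e - b) := by
    rw [smul_sub]; abel
  rw [e1, hn]
  refine (norm_add_le _ _).trans ?_
  rw [norm_neg, hI]
  linarith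

/-- `∑ ∂̄_j f \bar v_j = (df(v) + i df(iv))/2`. -/
theorem sum_dzb_mul_conj (f : CE ι → ℂ) (z v : CE ι) :
    ∑ j, dzb j f z * conj (v j)
      = (1 / 2 : ℂ) * (fderiv ℝ f z v + Complex.I * fderiv ℝ f z (Complex.I • v)) := by
  rw [fderiv_eq_sum v, fderiv_eq_sum (Complex.I • v)]
  have h1 : ∀ j, (dz j f z * (Complex.I • v) j + dzb j f z * conj ((Complex.I • v) j))
      = Complex.I * (dz j f z * v j) - Complex.I * (dzb j f z * conj (v j)) := by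
    intro j
    have : (Complex.I • v) j = Complex.I * v j := rfl
    rw [this, map_mul, Complex.conj_I]
    ring
  simp only [h1, Finset.sum_add_distrib, Finset.sum_sub_distrib, ← Finset.mul_sum]
  have hI := Complex.I_mul_I
  linear_combination (-(1 / 2 : ℂ) * (∑ j, dz j f z * v j) + (1 / 2 : ℂ) * ∑ j, dzb j f z * conj (v j)) * hI

/-- **the standard coordinates are almost holomorphic.** -/
theorem GoodBall.dbar_coord_le (hB : GoodBall X k S K) (hK : K ≤ 1) (hΨ : X.IsHol Ψ U)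
    (hz : z ∈ U) (a : ι) (v : ι → ℂ) :
    ‖∑ j, dzb j (fun y => Ψ y a) z * conj (v j)‖ ^ 2 ≤ (K * ‖Ψ z‖ ^ 2) ^ 2 * qf (k Ψ z) v := by
  set w : CE ι := WithLp.toLp 2 v with hw
  have hwv : ∀ j, w j = v j := fun j => rfl
  have hx := hB.param_norm_lt hΨ hz
  have hxU := hB.mem_U_iff.2 hx
  have hΨd : DifferentiableAt ℝ Ψ z :=
    ((X.isParam hΨ).smooth.contDiffAt ((X.isParam hΨ).isOpen.mem_nhds hz)).differentiableAt (by simp)
  set b : CE ι := fderiv ℝ Ψ z w with hb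
  have h1 : ∑ j, dzb j (fun y => Ψ y a) z * conj (v j)
      = (Complex.I / 2) * (ambJ X (Ψ z) b - Complex.I • b) a := by
    have := sum_dzb_mul_conj (fun y => Ψ y a) z w
    simp only [hwv] at this
    rw [this, ← fderiv_CE_apply hΨd, ← fderiv_CE_apply hΨd, ← ambJ_param hΨ hz]
    have e : (ambJ X (Ψ z) b - Complex.I • b) a = ambJ X (Ψ z) b a - Complex.I * b a := rfl
    rw [e]
    have hI := Complex.I_mul_I
    linear_combination ((1 / 2 : ℂ) * b a) * hI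
  have h2 : ‖(ambJ X (Ψ z) b - Complex.I • b) a‖ ≤ 4 / 7 * (K * ‖Ψ z‖ ^ 2) * S.nrm (Ψ z) b :=
    (PiLp.norm_apply_le _ a).trans (hB.norm_J_sub_le hK hx b)
  have h3 : S.nrm (Ψ z) b ^ 2 = qf (k Ψ z) v := by
    rw [hB.radial.riem.nrm_sq hxU, hb, ← hB.qf_eq hΨ hz w]
  have hq0 : 0 ≤ qf (k Ψ z) v := h3 ▸ sq_nonneg _
  have hKx0 : 0 ≤ K * ‖Ψ z‖ ^ 2 := mul_nonneg hB.radial.K_nonneg (sq_nonneg _)
  rw [h1, norm_mul, mul_pow]
  have h4 : ‖Complex.I / 2‖ = 1 / 2 := by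
    rw [norm_div, Complex.norm_I]; norm_num
  rw [h4]
  have h5 := pow_le_pow_left₀ (norm_nonneg _) h2 2
  rw [mul_pow, mul_pow, h3] at h5
  have h6 : 0 ≤ (K * ‖Ψ z‖ ^ 2) ^ 2 * qf (k Ψ z) v := by positivity
  nlinarith

end parallelJ

section rho

theorem GoodBall.param_differentiableAt (_hB : GoodBall X k S K) (hΨ : X.IsHol Ψ U) (hz : z ∈ U) :
    DifferentiableAt ℝ Ψ z :=
  ((X.isParam hΨ).smooth.contDiffAt ((X.isParam hΨ).isOpen.mem_nhds hz)).differentiableAt (by simp)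

/-- `qf (k Ψ z) (i v) = qf (k Ψ z) v`. -/
theorem qf_I_smul (A : Matrix ι ι ℂ) (v : CE ι) : qf A (Complex.I • v : CE ι) = qf A v :=
  reForm_I_I A v v

/-- **`dd |x|² = (1 + O(K |x|²)) k`.** -/
theorem GoodBall.qf_ddc_rho_sub_le (hB : GoodBall X k S K) (hK : K ≤ 1) (hΨ : X.IsHol Ψ U)
    (hz : z ∈ U) (v : ι → ℂ) :
    |qf (ddc ucRho Ψ z) v - qf (k Ψ z) v| ≤ 3 / 2 * (K * ‖Ψ z‖ ^ 2) * qf (k Ψ z) v := by
  set w : CE ι := WithLp.toLp 2 v with hw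
  have hx := hB.param_norm_lt hΨ hz
  have hxU := hB.mem_U_iff.2 hx
  have hKx := hB.K_mul_le hK hx
  have hiso := hB.isom Ψ U hΨ
  have hS' := hB.isRiem_kgeo hΨ
  have hS := hB.radial.riem
  have hρ2 : ContDiffAt ℝ 2 (fun y : CE ι => ‖y‖ ^ 2) (Ψ z) :=
    ((contDiff_norm_sq ℝ).of_le (by norm_cast)).contDiffAt
  have hΨ2 : ContDiffAt ℝ 2 Ψ z :=
    ((X.isParam hΨ).smooth.contDiffAt ((X.isParam hΨ).isOpen.mem_nhds hz)).of_le (by norm_cast)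
  have hu2 : ContDiffAt ℝ 2 (fun y => ‖Ψ y‖ ^ 2) z := hρ2.comp z hΨ2
  have h1 : qf (ddc ucRho Ψ z) v
      = ((kgeo k Ψ U).hess (fun y => ‖Ψ y‖ ^ 2) z w w
        + (kgeo k Ψ U).hess (fun y => ‖Ψ y‖ ^ 2) z (Complex.I • w) (Complex.I • w)) / 4 :=
    kgeo_hess_levi k Ψ U hu2 w
  rw [h1, hiso.hess hS' hS hz hρ2, hiso.hess hS' hS hz hρ2]
  have a1 := hB.radial.abs_hess_normSq_sub_le hxU hKx (fderiv ℝ Ψ z w)
  have a2 := hB.radial.abs_hess_normSq_sub_le hxU hKx (fderiv ℝ Ψ z (Complex.I • w))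
  rw [← hB.qf_eq hΨ hz] at a1 a2
  rw [qf_I_smul] at a2
  have e : qf (k Ψ z) v = qf (k Ψ z) w := rfl
  rw [e]
  rw [abs_le] at a1 a2 ⊢
  constructor <;> linarith [a1.1, a1.2, a2.1, a2.2]

/-- the differential of `|x|²` in a holomorphic parametrisation. -/
theorem GoodBall.fderiv_rho_param (hB : GoodBall X k S K) (hΨ : X.IsHol Ψ U) (hz : z ∈ U)
    {T : CE ι} (hT : fderiv ℝ Ψ z T = Ψ z) (b : CE ι) :
    fderiv ℝ (ucRho ∘ Ψ) z b = 2 * reForm (k Ψ z) T b := by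
  have hx := hB.param_norm_lt hΨ hz
  have hxU := hB.mem_U_iff.2 hx
  have hd : DifferentiableAt ℝ (ucRho : CE ι → ℝ) (Ψ z) :=
    contDiff_ucRho.contDiffAt.differentiableAt (by simp)
  rw [fderiv_comp z hd (hB.param_differentiableAt hΨ hz)]
  have h1 : fderiv ℝ (ucRho : CE ι → ℝ) (Ψ z) (fderiv ℝ Ψ z b)
      = S.G (Ψ z) ((2 : ℝ) • Ψ z) (fderiv ℝ Ψ z b) := hB.radial.fderiv_normSq hxU _
  rw [ContinuousLinearMap.comp_apply, h1, map_smul, smul_apply, smul_eq_mul]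
  congr 1
  have h2 := (hB.isom Ψ U hΨ).isom z hz T b
  rw [hT] at h2
  exact h2.symm

/-- `|∂ |x|²|²_k = |x|²`. -/
theorem GoodBall.gradSq_rho (hB : GoodBall X k S K) (hx : ‖x‖ < 1) :
    gradSq X k ucRho x = ‖x‖ ^ 2 := by
  obtain ⟨Ψ, U, z, hΨ, hz, rfl⟩ := hB.exists_chart hx
  have hxU := hB.mem_U_iff.2 hx
  obtain ⟨T, hT⟩ := hB.surj hΨ hz (Ψ z)
  have hm : IsMetric X k := hB.kahler.toIsMetric
  have hd : DifferentiableAt ℝ (ucRho ∘ Ψ) z :=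
    (contDiff_ucRho.contDiffAt.differentiableAt (by simp)).comp z (hB.param_differentiableAt hΨ hz)
  have h1 : gradSq X k ucRho (Ψ z) = gradSqF k ucRho Ψ z := gradSq_eq hm ucRho hΨ hz
  rw [h1, gradSqF_eq_of_riesz hm hΨ hz hd (T := (2 : ℝ) • T) (fun b => by
    rw [hB.fderiv_rho_param hΨ hz hT, map_smul, smul_apply, smul_eq_mul]; rfl)]
  simp only [map_smul, smul_apply, smul_eq_mul]
  rw [(hB.isom Ψ U hΨ).isom z hz T T, hT, hB.radial.G_self hxU]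
  ring

/-- `∂ρ ⊗ \bar∂ρ ≤ ρ k`. -/
theorem GoodBall.norm_grad_rho_sq_le (hB : GoodBall X k S K) (hΨ : X.IsHol Ψ U) (hz : z ∈ U)
    (v : ι → ℂ) :
    ‖∑ j, grad10 (ucRho ∘ Ψ) z j * v j‖ ^ 2 ≤ ‖Ψ z‖ ^ 2 * qf (k Ψ z) v := by
  set w : CE ι := WithLp.toLp 2 v with hw
  have hx := hB.param_norm_lt hΨ hz
  have hxU := hB.mem_U_iff.2 hx
  obtain ⟨T, hT⟩ := hB.surj hΨ hz (Ψ z)
  have hd : DifferentiableAt ℝ (ucRho ∘ Ψ) z :=
    (contDiff_ucRho.contDiffAt.differentiableAt (by simp)).comp z (hB.param_differentiableAt hΨ hz)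
  have h1 : ‖∑ j, grad10 (ucRho ∘ Ψ) z j * v j‖ ^ 2
      = (fderiv ℝ (ucRho ∘ Ψ) z w ^ 2 + fderiv ℝ (ucRho ∘ Ψ) z (Complex.I • w) ^ 2) / 4 :=
    norm_sum_grad10_sq hd w
  rw [h1, hB.fderiv_rho_param hΨ hz hT, hB.fderiv_rho_param hΨ hz hT]
  have hpd : (k Ψ z).PosDef := hB.kahler.posDef hΨ z hz
  have h2 := qf_cauchy_schwarz hpd.posSemidef (T : ι → ℂ) (w : ι → ℂ)
  have h3 : star (T : ι → ℂ) ⬝ᵥ (k Ψ z).mulVec (w : ι → ℂ)
      = (reForm (k Ψ z) T w : ℂ) + Complex.I * (reForm (k Ψ z) (Complex.I • T) w : ℂ) :=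
    herm_eq_reForm _ _ _
  have h4 : ‖star (T : ι → ℂ) ⬝ᵥ (k Ψ z).mulVec (w : ι → ℂ)‖ ^ 2
      = reForm (k Ψ z) T w ^ 2 + reForm (k Ψ z) T (Complex.I • w) ^ 2 := by
    rw [h3, reForm_I_left, ← Complex.normSq_eq_norm_sq, Complex.normSq_apply]
    simp
    ring
  have h5 : qf (k Ψ z) (T : ι → ℂ) = ‖Ψ z‖ ^ 2 := by
    rw [hB.qf_eq hΨ hz T, hT, hB.radial.G_self hxU]
  rw [h4, h5] at h2
  have e : qf (k Ψ z) v = qf (k Ψ z) w := rfl
  rw [e]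
  linarith

/-- `Δ_k |x|² ≤ (5/2) n`, `≥ 0` (trace of `qf_ddc_rho_sub_le`). -/
theorem GoodBall.lap_rho_le (hB : GoodBall X k S K) (hK : K ≤ 1) (hx : ‖x‖ < 1) :
    0 ≤ lap X k ucRho x + (1 / 2) * Fintype.card ι ∧ lap X k ucRho x ≤ 5 / 2 * Fintype.card ι := by
  obtain ⟨Ψ, U, z, hΨ, hz, rfl⟩ := hB.exists_chart hx
  have hm : IsMetric X k := hB.kahler.toIsMetric
  have hKx := hB.K_mul_le hK hx
  have hpd : (k Ψ z).PosDef := hm.posDef hΨ z hz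
  have hherm : (levi (ucRho ∘ Ψ) z).IsHermitian := (isHForm_ddc hB.smooth_rho).herm hΨ z hz
  rw [lap_eq hm hB.smooth_rho hΨ hz]
  have hq : ∀ v, |qf (levi (ucRho ∘ Ψ) z) v - qf (k Ψ z) v| ≤ 3 / 2 * qf (k Ψ z) v := by
    intro v
    have h0 : 0 ≤ qf (k Ψ z) v := qf_nonneg hpd.posSemidef v
    refine (hB.qf_ddc_rho_sub_le hK hΨ hz v).trans ?_
    have : 3 / 2 * (K * ‖Ψ z‖ ^ 2) ≤ 3 / 2 * 1 := by linarith
    calc 3 / 2 * (K * ‖Ψ z‖ ^ 2) * qf (k Ψ z) v ≤ 3 / 2 * 1 * qf (k Ψ z) v :=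
          mul_le_mul_of_nonneg_right this h0
      _ = 3 / 2 * qf (k Ψ z) v := by ring
  constructor
  · have h1 : ((((1 / 2 : ℝ) : ℝ) : ℂ) • k Ψ z - (-levi (ucRho ∘ Ψ) z)).PosSemidef := by
      rw [posSemidef_sub_iff_qf hherm.neg (isHermitian_smul_real _ hpd.isHermitian)]
      intro v
      rw [qf_smul, qf_neg]
      have := (abs_le.1 (hq v)).1
      linarith
    have h2 := trace_inv_mul_le_of_le hpd h1
    rw [Matrix.mul_neg, Matrix.trace_neg, Complex.neg_re] at h2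
    linarith
  · have h1 : ((((5 / 2 : ℝ) : ℝ) : ℂ) • k Ψ z - levi (ucRho ∘ Ψ) z).PosSemidef := by
      rw [posSemidef_sub_iff_qf hherm (isHermitian_smul_real _ hpd.isHermitian)]
      intro v
      rw [qf_smul]
      have := (abs_le.1 (hq v)).2
      linarith
    have h2 := trace_inv_mul_le_of_le hpd h1
    linarith

end rho

end Claimed.Agent.R316
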