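import Claimed.Agent.R316.Base.Chart.Real
import Claimed.Agent.R316.Base.L2M.Main

/-!
# `BP-G14` part C: holomorphic functions `L²`-close to the normal coordinates (Hoermander on the unwrapped ball)

Architect: helper195.  PAPER FREE.  Standing hypothesis `hB : GoodBall X k S K`, `K ≤ 1/3`.  Black box: `l2_dbar_fun` (`Base/L2M/Main.lean`, package G11).

`ρ = ucRho = |x|²`, `ψ = ucPsi = - log (1 - ρ)` (exhaustion of the ball), `ĝ = ucHat k = k + dd ψ` (auxiliary complete-like Kaehler metric, it does NOT enter the estimate), weight `φ = 2 ρ`.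
RESULT `uc_exists_hol_coords`: holomorphic functions `f_a` on `X` with `∫_{ball} |x_a - f_a|² dx ≤ C₀ K²`, `C₀ = C₀(n)`.

## Leaves (sections)
* `G14-C1` (section `hat`): `ĝ` is Kaehler, `ψ` is a `GoodExh`.
* `G14-C2` (section `setting`): `L2Setting X ĝ k (2ρ) 0`, `Θ = Ric k + 2 dd ρ ≥ k`.
* `G14-C3` (section `solve`): application of `l2_dbar_fun`, conversion to Lebesgue integrals.

## RECIPES
**C1.**  `χ s = - log (1 - s)`, `χ' = 1/(1-s)`, `χ'' = 1/(1-s)²` on `s < 1`.  `smooth_psi`: `GoodBall.smooth_iff`, `ContDiffOn.log`.  `ddc_comp_real` (`CM/Forms.lean`): `dd ψ = χ'(ρ) dd ρ + χ''(ρ) \bar∂ρ ⊗ ∂ρ`, hence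
`qf (dd ψ) v = χ' qf (dd ρ) v + χ'' |∑ ∂_jρ v_j|²` (`qf_ddc_psi`).  By `qf_ddc_rho_sub_le`: `qf (dd ρ) v ≥ (1 - 3K/2) qf k v ≥ 0`.  So `ĝ ≥ k` is positive definite: `IsKahler.add_ddc`.
`gradSq_hat_psi_le`: `grad10 (ψ∘Ψ) = χ'(ρ) grad10 (ρ∘Ψ)` (`lc_grad10_comp_real`), so `|∑ ∂_jψ v_j|² = χ'' |∑ ∂_jρ v_j|² ≤ qf (ĝ Ψ z) v`; `dualIP_self_le_of_forall` (`CW/LapC.lean`) with `L = 1`; `gradSq_eq_dualIP`.
`compact`: `{x | ‖x‖ < 1 ∧ ψ x ≤ c} = {x | ‖x‖² ≤ 1 - exp (-c)} ∩ ball` is `closedBall 0 √(1 - exp(-c))` (empty if `c < 0`), compact in finite dimension.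
**C2.**  `curvF k φ 0 = ((0:ℝ)+1) • ricF k + ddc φ`; `qf (ricF k) v ≥ 0` (`qf_ricF_nonneg`, `hB.bisec`); `ddc (2ρ) = 2 ddc ρ` (`ddc_const_mul`); `2 (1 - 3K/2) ≥ 1`.  Hermitian: `isHForm_ricF`, `isHForm_ddc`; `PosDef` from `qf ≥ qf k > 0` (`Matrix.PosDef` from Hermitian + positivity of `qf`; see `CW/MatAlg`).
**C3.**  `F x = x a` (`SmoothC`: `Ψ` smooth, coordinate projection linear), `N x = (K ‖x‖²)²`.  `hdom`: `dbar_coord_le` and `qf_curv_ge` (`F ∘ Ψ = fun y => Ψ y a` by `rfl`).  `hNint`: bounded continuous on the ball (`integrable_hvol_iff`, finite volume).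
`u` from `l2_dbar_fun`, `f a = F - u`.  `∫_{ball} ‖u‖² dx ≤ 2^n ∫ ‖u‖² dV ≤ 2^n e² ∫ ‖u‖² e^{-2ρ} dV ≤ 2^n e² ∫ N e^{-2ρ} dV ≤ 2^n e² K² · 2^n vol(ball 0 1)` (`setIntegral_le_integral_hvol`, `integral_hvol_le_setIntegral`, `ρ < 1`).
`C₀ = 4^n e² vol(ball 0 1).toReal`.
-/

set_option autoImplicit false
set_option linter.unusedSectionVars false
set_option maxSynthPendingDepth 3
open scoped ContDiff Topology ComplexOrder ComplexConjugate
open MeasureTheory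

namespace Claimed.Agent.R316

variable {ι : Type} [Fintype ι] [DecidableEq ι]
variable {X : CMfd (CE ι) ι} {k : HFam (CE ι) ι} {S : RGeo (CE ι)} {K : ℝ}
variable {Ψ : CE ι → CE ι} {U : Set (CE ι)} {x z : CE ι}

/-- the exhaustion `ψ = - log (1 - |x|²)` of the unit ball. -/
noncomputable def ucPsi (x : CE ι) : ℝ := - Real.log (1 - ‖x‖ ^ 2)

/-- the auxiliary metric `ĝ = k + dd ψ`. -/
noncomputable def ucHat (k : HFam (CE ι) ι) : HFam (CE ι) ι := fun Φ z => k Φ z + ddc ucPsi Φ z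

section hat

/-! #### the profile `χ s = - log (1 - s)` -/

theorem uc_chi_hasDerivAt {s : ℝ} (hs : s < 1) :
    HasDerivAt (fun t : ℝ => - Real.log (1 - t)) ((1 - s)⁻¹) s := by
  have h1 : HasDerivAt (fun t : ℝ => 1 - t) (-1) s := by simpa using (hasDerivAt_id s).const_sub 1
  have h2 : HasDerivAt (fun t : ℝ => - Real.log (1 - t)) (-(-1 / (1 - s))) s :=
    (h1.log (by linarith : (1 - s) ≠ 0)).neg
  rwa [neg_div, neg_neg, one_div] at h2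

theorem uc_chi_deriv {s : ℝ} (hs : s < 1) : deriv (fun t : ℝ => - Real.log (1 - t)) s = (1 - s)⁻¹ :=
  (uc_chi_hasDerivAt hs).deriv

theorem uc_chi_deriv2 {s : ℝ} (hs : s < 1) :
    deriv (deriv (fun t : ℝ => - Real.log (1 - t))) s = ((1 - s)⁻¹) ^ 2 := by
  have h1 : deriv (fun t : ℝ => - Real.log (1 - t)) =ᶠ[𝓝 s] fun t => (1 - t)⁻¹ := by
    filter_upwards [Iio_mem_nhds hs] with t ht
    exact uc_chi_deriv ht
  rw [h1.deriv_eq]
  have h2 : HasDerivAt (fun t : ℝ => 1 - t) (-1) s := by simpa using (hasDerivAt_id s).const_sub 1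
  have h0 : (1 - s) ≠ 0 := by linarith
  have h3 := h2.inv h0
  have h4 : deriv (fun t : ℝ => (1 - t)⁻¹) s = - -1 / (1 - s) ^ 2 := h3.deriv
  rw [h4]
  field_simp

theorem uc_chi_contDiffAt {s : ℝ} (hs : s < 1) : ContDiffAt ℝ 2 (fun t : ℝ => - Real.log (1 - t)) s :=
  ((contDiffAt_const.sub contDiffAt_id).log (by simp only [id]; linarith)).neg

theorem GoodBall.rho_lt (hB : GoodBall X k S K) (hΨ : X.IsHol Ψ U) (hz : z ∈ U) : ‖Ψ z‖ ^ 2 < 1 := by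
  have := hB.param_norm_lt hΨ hz
  nlinarith [norm_nonneg (Ψ z)]

theorem GoodBall.smooth_rho' (hB : GoodBall X k S K) : X.Smooth (ucRho : CE ι → ℝ) :=
  CMfd.smooth_of_contDiff contDiff_normSq_CE

theorem GoodBall.smooth_psi (hB : GoodBall X k S K) : X.Smooth (ucPsi : CE ι → ℝ) := by
  refine CMfd.smooth_of_contDiffOn Metric.isOpen_ball hB.carrier_eq.le ?_
  unfold ucPsi
  refine ContDiffOn.neg (ContDiffOn.log (contDiff_const.sub contDiff_normSq_CE).contDiffOn ?_)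
  intro x hx
  rw [mem_ball_zero_iff] at hx
  have : ‖x‖ ^ 2 < 1 := by nlinarith [norm_nonneg x]
  linarith

theorem GoodBall.qf_ddc_psi (hB : GoodBall X k S K) (hΨ : X.IsHol Ψ U) (hz : z ∈ U) (v : ι → ℂ) :
    qf (ddc ucPsi Ψ z) v = (1 - ‖Ψ z‖ ^ 2)⁻¹ * qf (ddc ucRho Ψ z) v +
      ((1 - ‖Ψ z‖ ^ 2)⁻¹) ^ 2 * ‖∑ j, grad10 (ucRho ∘ Ψ) z j * v j‖ ^ 2 := by
  have hs : ucRho (Ψ z) < 1 := hB.rho_lt hΨ hz
  have e : ddc ucPsi Ψ z = (((1 - ‖Ψ z‖ ^ 2)⁻¹ : ℝ) : ℂ) • ddc ucRho Ψ z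
      + ((((1 - ‖Ψ z‖ ^ 2)⁻¹) ^ 2 : ℝ) : ℂ) •
        (Matrix.of fun j k => conj (grad10 (ucRho ∘ Ψ) z j) * grad10 (ucRho ∘ Ψ) z k) := by
    ext j k
    have h1 : ddc ucPsi Ψ z j k = _ :=
      ddc_comp_real (fun t : ℝ => - Real.log (1 - t)) hB.smooth_rho' hΨ hz (uc_chi_contDiffAt hs) j k
    rw [uc_chi_deriv hs, uc_chi_deriv2 hs] at h1
    rw [h1]
    simp only [Matrix.add_apply, Matrix.smul_apply, Matrix.of_apply, smul_eq_mul]
    rfl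
  rw [e, lv_qf_add, lv_qf_smul, lv_qf_smul, qf_grad10_outer]

theorem GoodBall.qf_k_nonneg (hB : GoodBall X k S K) (hΨ : X.IsHol Ψ U) (hz : z ∈ U) (v : ι → ℂ) :
    0 ≤ qf (k Ψ z) v := qf_nonneg (hB.kahler.posDef hΨ z hz).posSemidef v

/-- `dd ρ ≥ k / 2`. -/
theorem GoodBall.qf_ddc_rho_ge (hB : GoodBall X k S K) (hK : K ≤ 1 / 3) (hΨ : X.IsHol Ψ U) (hz : z ∈ U)
    (v : ι → ℂ) : 1 / 2 * qf (k Ψ z) v ≤ qf (ddc ucRho Ψ z) v := by
  have h1 := (abs_le.1 (hB.qf_ddc_rho_sub_le (by linarith) hΨ hz v)).1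
  have h2 := hB.qf_k_nonneg hΨ hz v
  have h3 := hB.rho_lt hΨ hz
  have h4 := hB.radial.K_nonneg
  have h5 : K * ‖Ψ z‖ ^ 2 ≤ 1 / 3 := by nlinarith [sq_nonneg ‖Ψ z‖]
  nlinarith [mul_le_mul_of_nonneg_right h5 h2]

theorem GoodBall.one_sub_pos (hB : GoodBall X k S K) (hΨ : X.IsHol Ψ U) (hz : z ∈ U) :
    0 < (1 - ‖Ψ z‖ ^ 2)⁻¹ := inv_pos.2 (by linarith [hB.rho_lt hΨ hz])

theorem GoodBall.qf_ddc_psi_ge (hB : GoodBall X k S K) (hK : K ≤ 1 / 3) (hΨ : X.IsHol Ψ U) (hz : z ∈ U)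
    (v : ι → ℂ) :
    ((1 - ‖Ψ z‖ ^ 2)⁻¹) ^ 2 * ‖∑ j, grad10 (ucRho ∘ Ψ) z j * v j‖ ^ 2 ≤ qf (ddc ucPsi Ψ z) v := by
  rw [hB.qf_ddc_psi hΨ hz v]
  have h1 := hB.qf_ddc_rho_ge hK hΨ hz v
  have h2 := hB.qf_k_nonneg hΨ hz v
  have h3 := mul_nonneg (hB.one_sub_pos hΨ hz).le (by linarith : 0 ≤ qf (ddc ucRho Ψ z) v)
  linarith

theorem GoodBall.ddc_psi_posSemidef (hB : GoodBall X k S K) (hK : K ≤ 1 / 3) (hΨ : X.IsHol Ψ U)
    (hz : z ∈ U) : (ddc ucPsi Ψ z).PosSemidef := by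
  rw [lv_posSemidef_iff_qf ((isHForm_ddc hB.smooth_psi).herm hΨ z hz)]
  intro v
  exact le_trans (by positivity) (hB.qf_ddc_psi_ge hK hΨ hz v)

theorem GoodBall.isKahler_hat (hB : GoodBall X k S K) (hK : K ≤ 1 / 3) : IsKahler X (ucHat k) :=
  IsKahler.add_ddc hB.kahler hB.smooth_psi fun _ _ hΨ z hz =>
    (hB.kahler.posDef hΨ z hz).add_posSemidef (hB.ddc_psi_posSemidef hK hΨ hz)

theorem GoodBall.gradSq_hat_psi_le (hB : GoodBall X k S K) (hK : K ≤ 1 / 3) (hx : ‖x‖ < 1) :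
    gradSq X (ucHat k) ucPsi x ≤ 1 := by
  obtain ⟨Ψ, U, z, hΨ, hz, rfl⟩ := hB.exists_chart hx
  have hkh := hB.isKahler_hat hK
  rw [gradSq_eq_dualIP hkh.toIsMetric ucPsi hΨ hz]
  refine (dualIP_self_le_of_forall (hkh.posDef hΨ z hz) (L := 2) (by norm_num) fun v => ?_).trans
    (by norm_num)
  have hs : ucRho (Ψ z) < 1 := hB.rho_lt hΨ hz
  have hg : grad10 (ucPsi ∘ Ψ) z = (((1 - ‖Ψ z‖ ^ 2)⁻¹ : ℝ) : ℂ) • grad10 (ucRho ∘ Ψ) z := by
    have h1 : grad10 (ucPsi ∘ Ψ) z = _ :=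
      lc_grad10_comp_real (u := ucRho ∘ Ψ) (fun t : ℝ => - Real.log (1 - t))
        ((uc_chi_contDiffAt hs).differentiableAt (by norm_num)) (hB.smooth_rho'.differentiableAt_comp hΨ hz)
    rw [h1]
    have h2 : deriv (fun t : ℝ => - Real.log (1 - t)) ((ucRho ∘ Ψ) z) = (1 - ‖Ψ z‖ ^ 2)⁻¹ := uc_chi_deriv hs
    rw [h2]
  have h3 : ‖∑ j, grad10 (ucPsi ∘ Ψ) z j * v j‖ ^ 2
      = ((1 - ‖Ψ z‖ ^ 2)⁻¹) ^ 2 * ‖∑ j, grad10 (ucRho ∘ Ψ) z j * v j‖ ^ 2 := by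
    have : ∑ j, grad10 (ucPsi ∘ Ψ) z j * v j
        = (((1 - ‖Ψ z‖ ^ 2)⁻¹ : ℝ) : ℂ) * ∑ j, grad10 (ucRho ∘ Ψ) z j * v j := by
      rw [hg, Finset.mul_sum]
      exact Finset.sum_congr rfl fun j _ => by simp only [Pi.smul_apply, smul_eq_mul]; ring
    rw [this, norm_mul, mul_pow, Complex.norm_real, Real.norm_eq_abs, sq_abs]
  have h4 : ‖∑ j, grad10 (ucPsi ∘ Ψ) z j * v j‖ ^ 2 ≤ qf (ucHat k Ψ z) v := by
    rw [h3, ucHat, lv_qf_add]
    have := hB.qf_ddc_psi_ge hK hΨ hz v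
    have := hB.qf_k_nonneg hΨ hz v
    linarith
  have h5 : (∑ j, grad10 (ucPsi ∘ Ψ) z j * v j).re ≤ Real.sqrt (qf (ucHat k Ψ z) v) :=
    (Complex.re_le_norm _).trans (Real.le_sqrt_of_sq_le h4)
  linarith

theorem GoodBall.goodExh (hB : GoodBall X k S K) (hK : K ≤ 1 / 3) :
    GoodExh X (ucHat k) (ucPsi : CE ι → ℝ) := by
  refine ⟨hB.smooth_psi, fun c => ?_, 1, fun x hx => hB.gradSq_hat_psi_le hK (hB.mem_carrier_iff.1 hx)⟩
  have e : {x : CE ι | x ∈ X.carrier ∧ ucPsi x ≤ c} = {x : CE ι | ‖x‖ ^ 2 ≤ 1 - Real.exp (-c)} := by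
    ext x
    simp only [Set.mem_ofPred_eq, hB.mem_carrier_iff, ucPsi]
    constructor
    · rintro ⟨h1, h2⟩
      have h3 : 0 < 1 - ‖x‖ ^ 2 := by nlinarith [norm_nonneg x]
      have h4 : -c ≤ Real.log (1 - ‖x‖ ^ 2) := by linarith
      rw [Real.le_log_iff_exp_le h3] at h4
      linarith
    · intro h
      have h0 := Real.exp_pos (-c)
      have h3 : 0 < 1 - ‖x‖ ^ 2 := by linarith
      refine ⟨?_, ?_⟩
      · by_contra hcon
        rw [not_lt] at hcon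
        nlinarith
      · have h4 : -c ≤ Real.log (1 - ‖x‖ ^ 2) := by
          rw [Real.le_log_iff_exp_le h3]; linarith
        linarith
  rw [e]
  refine (isCompact_closedBall (0 : CE ι) 1).of_isClosed_subset
    (isClosed_le (continuous_norm.pow 2) continuous_const) fun x hx => ?_
  rw [mem_closedBall_zero_iff]
  have h0 := Real.exp_pos (-c)
  have hx' : ‖x‖ ^ 2 ≤ 1 - Real.exp (-c) := hx
  by_contra hcon
  rw [not_le] at hcon
  nlinarith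

end hat

section setting

/-- `Θ = Ric k + 2 dd ρ ≥ k`. -/
theorem GoodBall.qf_curv_ge (hB : GoodBall X k S K) (hK : K ≤ 1 / 3) (hΨ : X.IsHol Ψ U)
    (hz : z ∈ U) (v : ι → ℂ) :
    qf (k Ψ z) v ≤ qf (curvF k (fun x => 2 * ucRho x) 0 Ψ z) v := by
  rw [curvF, lv_qf_add, lv_qf_smul, ddc_const_mul 2 hB.smooth_rho' hΨ hz, lv_qf_smul]
  have h1 := qf_ricF_nonneg hB.kahler hB.bisec hΨ hz v
  have h2 := hB.qf_ddc_rho_ge hK hΨ hz v
  simp only [Int.cast_zero, zero_add, one_mul]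
  linarith

theorem GoodBall.l2Setting (hB : GoodBall X k S K) (hK : K ≤ 1 / 3) :
    L2Setting X (ucHat k) k (fun x => 2 * ucRho x) 0 := by
  have hsm : X.Smooth (fun x : CE ι => 2 * ucRho x) :=
    CMfd.smooth_of_contDiff (contDiff_const.mul contDiff_normSq_CE)
  refine ⟨hB.isKahler_hat hK, hB.kahler.toIsMetric, hsm, fun Ψ U hΨ z hz => ?_⟩
  have hherm : (curvF k (fun x => 2 * ucRho x) 0 Ψ z).IsHermitian := by
    rw [curvF]
    refine Matrix.IsHermitian.add ?_ ((isHForm_ddc hsm).herm hΨ z hz)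
    have h1 := (isHForm_ricF hB.kahler.toIsMetric).herm hΨ z hz
    rw [Matrix.IsHermitian, Matrix.conjTranspose_smul, h1.eq]
    simp
  rw [posDef_iff_qf hherm]
  intro v hv
  exact lt_of_lt_of_le (qf_pos (hB.kahler.posDef hΨ z hz) hv) (hB.qf_curv_ge hK hΨ hz v)

end setting

section solve

theorem GoodBall.exists_hol_coord (hB : GoodBall X k S K) (hK : K ≤ 1 / 3) (a : ι) :
    ∃ f : CE ι → ℂ, X.HolFun f ∧
      IntegrableOn (fun x : CE ι => ‖x a - f x‖ ^ 2) (Metric.ball 0 1) ∧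
      ∫ x in Metric.ball (0 : CE ι) 1, ‖x a - f x‖ ^ 2 ≤
        (4 ^ Fintype.card ι * Real.exp 2 * (volume (Metric.ball (0 : CE ι) 1)).toReal) * K ^ 2 := by
  have hK1 : K ≤ 1 := by linarith
  have hK0 : 0 ≤ K := hB.radial.K_nonneg
  have hfin : volume (Metric.ball (0 : CE ι) 1) ≠ ⊤ := measure_ball_lt_top.ne
  -- the data
  have hF : X.SmoothC (fun x : CE ι => x a) := by
    intro Ψ U hΨ
    have h1 : ContDiff ℝ ∞ (fun x : CE ι => x a) :=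
      ((EuclideanSpace.proj a : CE ι →L[ℂ] ℂ).restrictScalars ℝ).contDiff
    exact h1.comp_contDiffOn (X.isParam hΨ).smooth
  have hNc : Continuous fun x : CE ι => (K * ‖x‖ ^ 2) ^ 2 * Real.exp (-(2 * ucRho x)) := by
    unfold ucRho
    fun_prop
  have hNi : IntegrableOn (fun x : CE ι => (K * ‖x‖ ^ 2) ^ 2 * Real.exp (-(2 * ucRho x)))
      (Metric.ball 0 1) :=
    (hNc.continuousOn.integrableOn_compact (isCompact_closedBall (0 : CE ι) 1)).mono_set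
      Metric.ball_subset_closedBall
  have hNint : Integrable (fun x : CE ι => (K * ‖x‖ ^ 2) ^ 2 * Real.exp (-(2 * ucRho x)))
      (hvol X k) := (hB.integrable_hvol_iff hK1 _).2 hNi
  obtain ⟨u, -, hhol, hui, hule⟩ := l2_dbar_fun (hB.l2Setting hK) (hB.goodExh hK) hF
    (N := fun x => (K * ‖x‖ ^ 2) ^ 2) (fun x _ => sq_nonneg _) hNint (by
      intro Ψ U hΨ z hz v
      refine (hB.dbar_coord_le hK1 hΨ hz a v).trans ?_
      exact mul_le_mul_of_nonneg_left (hB.qf_curv_ge hK hΨ hz v) (sq_nonneg _))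
  refine ⟨fun x => x a - u x, hhol, ?_⟩
  have e0 : ∀ x : CE ι, ‖x a - (x a - u x)‖ ^ 2 = ‖u x‖ ^ 2 := fun x => by
    rw [sub_sub_cancel]
  simp only [e0]
  have hui' : IntegrableOn (fun x : CE ι => ‖u x‖ ^ 2 * Real.exp (-(2 * ucRho x)))
      (Metric.ball 0 1) := (hB.integrable_hvol_iff hK1 _).1 hui
  -- remove the weight
  have hbd : Integrable (fun x : CE ι => Real.exp (2 * min (‖x‖ ^ 2) 1) *
      (‖u x‖ ^ 2 * Real.exp (-(2 * ucRho x)))) (volume.restrict (Metric.ball 0 1)) := by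
    refine hui'.bdd_mul (c := Real.exp 2) ?_ ?_
    · exact (by fun_prop : Continuous fun x : CE ι =>
        Real.exp (2 * min (‖x‖ ^ 2) 1)).aestronglyMeasurable
    · refine Filter.Eventually.of_forall fun x => ?_
      rw [Real.norm_eq_abs, abs_of_pos (Real.exp_pos _)]
      exact Real.exp_le_exp.2 (by have := min_le_right (‖x‖ ^ 2) 1; linarith)
  have heq : ∀ x ∈ Metric.ball (0 : CE ι) 1, Real.exp (2 * min (‖x‖ ^ 2) 1) *
      (‖u x‖ ^ 2 * Real.exp (-(2 * ucRho x))) = ‖u x‖ ^ 2 := by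
    intro x hx
    have hx1 : ‖x‖ < 1 := by simpa using hx
    have h1 : ‖x‖ ^ 2 ≤ 1 := by nlinarith [norm_nonneg x]
    rw [min_eq_left h1]
    unfold ucRho
    rw [mul_comm (‖u x‖ ^ 2), ← mul_assoc, ← Real.exp_add]
    simp
  have hint : IntegrableOn (fun x : CE ι => ‖u x‖ ^ 2) (Metric.ball 0 1) :=
    IntegrableOn.congr_fun hbd heq measurableSet_ball
  refine ⟨hint, ?_⟩
  have s1 : ∫ x in Metric.ball (0 : CE ι) 1, ‖u x‖ ^ 2 ≤
      Real.exp 2 * ∫ x in Metric.ball (0 : CE ι) 1, ‖u x‖ ^ 2 * Real.exp (-(2 * ucRho x)) := by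
    rw [← integral_const_mul]
    refine setIntegral_mono_on hint (hui'.const_mul _) measurableSet_ball fun x hx => ?_
    have hpos : 0 ≤ ‖u x‖ ^ 2 * Real.exp (-(2 * ucRho x)) := by positivity
    calc ‖u x‖ ^ 2 = Real.exp (2 * min (‖x‖ ^ 2) 1) *
          (‖u x‖ ^ 2 * Real.exp (-(2 * ucRho x))) := (heq x hx).symm
      _ ≤ Real.exp 2 * (‖u x‖ ^ 2 * Real.exp (-(2 * ucRho x))) :=
          mul_le_mul_of_nonneg_right
            (Real.exp_le_exp.2 (by have := min_le_right (‖x‖ ^ 2) 1; linarith)) hpos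
  have s2 := hB.setIntegral_le_integral_hvol hK1 hui (fun x _ => by positivity)
  have s3 := hB.integral_hvol_le_setIntegral hK1 hNint (fun x _ => by positivity)
  have s4 : ∫ x in Metric.ball (0 : CE ι) 1, (K * ‖x‖ ^ 2) ^ 2 * Real.exp (-(2 * ucRho x)) ≤
      K ^ 2 * (volume (Metric.ball (0 : CE ι) 1)).toReal := by
    have h1 : ∫ _x in Metric.ball (0 : CE ι) 1, K ^ 2
        = K ^ 2 * (volume (Metric.ball (0 : CE ι) 1)).toReal := by
      simp [Measure.real, mul_comm]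
    rw [← h1]
    refine setIntegral_mono_on hNi (integrableOn_const hfin) measurableSet_ball fun x hx => ?_
    have hx1 : ‖x‖ < 1 := by simpa using hx
    have h2 : ‖x‖ ^ 2 ≤ 1 := by nlinarith [norm_nonneg x]
    have h3 : Real.exp (-(2 * ucRho x)) ≤ 1 := by
      refine Real.exp_le_one_iff.2 ?_
      unfold ucRho
      nlinarith [sq_nonneg ‖x‖]
    have h4 : (K * ‖x‖ ^ 2) ^ 2 ≤ K ^ 2 := by
      refine pow_le_pow_left₀ (by positivity) ?_ 2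
      nlinarith [sq_nonneg ‖x‖]
    calc (K * ‖x‖ ^ 2) ^ 2 * Real.exp (-(2 * ucRho x)) ≤ K ^ 2 * 1 :=
          mul_le_mul h4 h3 (Real.exp_pos _).le (sq_nonneg _)
      _ = K ^ 2 := mul_one _
  have p2 : (0 : ℝ) < 2 ^ Fintype.card ι := by positivity
  have pe : (0 : ℝ) < Real.exp 2 := Real.exp_pos _
  have e4 : (4 : ℝ) ^ Fintype.card ι = 2 ^ Fintype.card ι * 2 ^ Fintype.card ι := by
    rw [← mul_pow]; norm_num
  calc ∫ x in Metric.ball (0 : CE ι) 1, ‖u x‖ ^ 2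
      ≤ Real.exp 2 * ∫ x in Metric.ball (0 : CE ι) 1, ‖u x‖ ^ 2 * Real.exp (-(2 * ucRho x)) := s1
    _ ≤ Real.exp 2 * (2 ^ Fintype.card ι *
          ∫ x, ‖u x‖ ^ 2 * Real.exp (-(2 * ucRho x)) ∂(hvol X k)) :=
        mul_le_mul_of_nonneg_left s2 pe.le
    _ ≤ Real.exp 2 * (2 ^ Fintype.card ι *
          ∫ x, (K * ‖x‖ ^ 2) ^ 2 * Real.exp (-(2 * ucRho x)) ∂(hvol X k)) := by
        gcongr
    _ ≤ Real.exp 2 * (2 ^ Fintype.card ι * (2 ^ Fintype.card ι *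
          ∫ x in Metric.ball (0 : CE ι) 1, (K * ‖x‖ ^ 2) ^ 2 * Real.exp (-(2 * ucRho x)))) := by
        gcongr
    _ ≤ Real.exp 2 * (2 ^ Fintype.card ι * (2 ^ Fintype.card ι *
          (K ^ 2 * (volume (Metric.ball (0 : CE ι) 1)).toReal))) := by
        gcongr
    _ = _ := by rw [e4]; ring

/-- **holomorphic functions `L²`-close to the normal coordinates.** -/
theorem uc_exists_hol_coords (ι : Type) [Fintype ι] [DecidableEq ι] :
    ∃ C₀ : ℝ, 0 < C₀ ∧ ∀ (X : CMfd (CE ι) ι) (k : HFam (CE ι) ι) (S : RGeo (CE ι)) (K : ℝ),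
      GoodBall X k S K → K ≤ 1 / 3 →
      ∃ f : ι → CE ι → ℂ, (∀ a, X.HolFun (f a)) ∧
        ∀ a, IntegrableOn (fun x : CE ι => ‖x a - f a x‖ ^ 2) (Metric.ball 0 1) ∧
          ∫ x in Metric.ball (0 : CE ι) 1, ‖x a - f a x‖ ^ 2 ≤ C₀ * K ^ 2 := by
  have hv : 0 < (volume (Metric.ball (0 : CE ι) 1)).toReal :=
    ENNReal.toReal_pos (Metric.measure_ball_pos volume _ one_pos).ne' measure_ball_lt_top.ne
  refine ⟨4 ^ Fintype.card ι * Real.exp 2 * (volume (Metric.ball (0 : CE ι) 1)).toReal,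
    by positivity, fun X k S K hB hK => ?_⟩
  choose f hf using fun a => hB.exists_hol_coord hK a
  exact ⟨f, fun a => (hf a).1, fun a => (hf a).2⟩

end solve

end Claimed.Agent.R316
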