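import Claimed.Agent.R316.Base.Chart.Pull
import Claimed.Agent.R316.Base.Tub.Spray
import Claimed.Agent.R316.Pack022_2

/-!
# `BP-G14` part B: the exponential map unwraps the unit ball (NO injectivity radius)

Architect: helper195.  PAPER FREE.

`UcSetup 𝓜 h Φ₀ U₀ ε`: `(𝓜,h)` complete Kaehler, `BK ≥ 0`, `Φ₀` a holomorphic parametrisation with `h Φ₀ 0 = 1` (unitary at the centre `p = Φ₀ 0`), scalar curvature `≤ ε` on the
`h`-ball of radius `1` about `p`.  `ucExp 𝓜 h Φ₀ x = exp_p (dΦ₀(0) x)`, `x ∈ ℂ^ι ≅ T_p M`.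
RESULT (`UcSetup.exists_goodBall`, proved below from the leaves): if `3 ε ≤ 1` then `ucExp` is an immersion on the unit ball and the unwrapped ball is a `GoodBall` with `K = 3 ε`.

## Leaves (sections)
* `G14-B1` (section `expmap`): basic properties of `ucExp`.
* `G14-B2` (section `radial`): on a star shaped domain where `ucExp` is an immersion the pulled back structure is `IsRadial (3 ε)`;  `J_zero`.
* `G14-B3` (section `immersion`): `ucExp` is an immersion on the whole unit ball (continuity method along rays).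

## RECIPES (`p = Φ₀ 0`, `A = fderiv ℝ Φ₀ 0`, `E = ucExp 𝓜 h Φ₀`)
**B1.**  `(p, A x) ∈ 𝓜.TM` (`CMfd.tparam_mem_TM`).  `mem_gdom`: `exists_geodesic_univ` gives `γ` on `univ`; `IsGeodesic.eq_geo` (`I = univ`, `t₀ = 0`).  `ucMap`: `contDiffOn_geo_comp` with `σ x = (p, A x)`, `S = univ`,
composed with `x ↦ (1, x)`; `geo_mem`.  `ucExp_smul`: `hexp_smul`, `map_smul`.  `isGeodesic_ray`: `isGeodesic_geo` + `ucExp_smul` (`IsGeodesic.congr`), `{t | ..} = univ`.  `deriv_ray_zero`: `deriv_geo`, `geoV_zero`.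
`fderiv_ucExp_zero`: `fderiv E 0 x = deriv (fun t => E (t • x)) 0` (chain rule, `E` differentiable at `0`).  `ucExp_mem_hball`: `IsGeodesic.hdist_le` on `Ioo (-1) 2`, `s = 0`, `t = 1`;
`ambQ 𝓜 h p (A x) = qf (h Φ₀ 0) x = ‖x‖²` (`ambQ_param`, `unit`; `qf 1 x = ‖x‖²` : `EuclideanSpace.norm_eq`/`inner_self`).
**B2.**  `riem`: `ucGeo_isRiem`.  `G_zero`: `ucG_param` with `Φ = Φ₀`; `invFunOn Φ₀ U₀ ∘ E` has derivative `id` at `0` (`IsParam.hasFDerivAt_invFunOn_comp`, `fderiv_ucExp_zero`, injectivity of `A`); `reForm 1 a b = inner ℝ a b`.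
`radial`: fix `x ∈ B`, choose a parametrisation `Φ` at `E x`, `B' ⊆ B` a small ball about `x` with `E B' ⊆ Φ '' U`, `I'` a small interval about `1` with `t • x ∈ B'`.  `θ = invFunOn Φ U ∘ E`: `t ↦ θ (t • x)` is a `kgeo`-geodesic on `I'`
(`IsGeodesic.coord` for `isGeodesic_ray` restricted to `I'`), so by `RGeo.IsIsom.isGeod_iff` (`isIsom_ucGeo_to`) `t ↦ t • x` is a geodesic of `ucGeo .. B'`; its equation at `t = 1` is `Γ x x x = 0` (`ucGeo_restr`: same `Γ`).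
`sec`: `RGeo.IsIsom.secNum` + `kgeo_abs_secNum_le` + `scalCurv_eq` + `scal_le` at `E x ∈ hball` + `IsIsom.isom`.
`J_zero`: `τ = invFunOn Φ₀ U₀ ∘ (E ∘ Ψ)` is holomorphic near `z` (`𝓜.compat`), `d(E ∘ Ψ)_z = A ∘ dτ_z` (`CMfd.fderiv_eq_comp_trans`) and `= dE_0 ∘ dΨ_z = A ∘ dΨ_z`; `A` injective ⟹ `dΨ_z = dτ_z`, which is `ℂ`-linear
(`fderiv ℝ τ z = (fderiv ℂ τ z).restrictScalars ℝ`).
**B3.**  `O = {y | Injective (fderiv ℝ E y)}` is o-p-e-n (`ContinuousLinearMap.isOpen_injective`, `E` is `C¹`).  `B⋆ = {x ∈ ball 0 1 | ∀ t ∈ Icc 0 1, t • x ∈ O}` is o-p-e-n (tube lemma for the compact `Icc 0 1`), star shaped, contains `0`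
(`fderiv_ucExp_zero`, `A` injective).  By B2 `ucGeo .. B⋆` is `IsRadial (3ε)`, so by `RGeo.IsRadial.le_G`: `(1/2) ‖a‖² ≤ ucG 𝓜 h E y a a` for `y ∈ B⋆` (⋆).  Fix `x` in the ball, `T = {t ∈ Icc 0 1 | t • x ∈ B⋆}`: contains `0`, is relatively o-p-e-n, is an initial
segment; closed: if `t_j → t`, `t_j ∈ T`, then (⋆) passes to the limit by `contDiffOn_ucG` (NO immersion needed: `UcMap` on `univ`), so `ucG (s • x) a a > 0` for all `s ≤ t`, `a ≠ 0`, i.e. `s • x ∈ O` (`ucG_pos_iff`), i.e. `t ∈ T`.  `Icc 0 1` is connected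
(`IsPreconnected`/`IsClosed.Icc_subset_of_forall_mem_nhdsWithin`) ⟹ `1 ∈ T`.
-/

set_option autoImplicit false
set_option linter.unusedSectionVars false
set_option maxSynthPendingDepth 3
open scoped ContDiff Topology ComplexOrder

namespace Claimed.Agent.R316

variable {V : Type} [NormedAddCommGroup V] [NormedSpace ℝ V] [FiniteDimensional ℝ V]
variable {ι : Type} [Fintype ι] [DecidableEq ι]

/-- the normalised situation. -/
structure UcSetup (𝓜 : CMfd V ι) (h : HFam V ι) (Φ₀ : CE ι → V) (U₀ : Set (CE ι)) (ε : ℝ) :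
    Prop where
  closed : IsClosed 𝓜.carrier
  conn : IsConnected 𝓜.carrier
  kahler : IsKahler 𝓜 h
  proper : IsProperMetric 𝓜 h
  bisec : BisecNonneg 𝓜 h
  hol : 𝓜.IsHol Φ₀ U₀
  zero_mem : (0 : CE ι) ∈ U₀
  unit : h Φ₀ 0 = 1
  eps_nonneg : 0 ≤ ε
  scal_le : ∀ x ∈ hball 𝓜 h (Φ₀ 0) 1, scalCurv 𝓜 h x ≤ ε

/-- the exponential map at `p = Φ₀ 0`, on `ℂ^ι ≅ T_p M`. -/
noncomputable def ucExp (𝓜 : CMfd V ι) (h : HFam V ι) (Φ₀ : CE ι → V) (x : CE ι) : V :=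
  hexp 𝓜 h (Φ₀ 0) (fderiv ℝ Φ₀ 0 x)

variable {𝓜 : CMfd V ι} {h : HFam V ι} {Φ₀ : CE ι → V} {U₀ : Set (CE ι)} {ε : ℝ}

section expmap

theorem UcSetup.mem_gdom (hS : UcSetup 𝓜 h Φ₀ U₀ ε) (t : ℝ) (x : CE ι) :
    (t, (Φ₀ 0, fderiv ℝ Φ₀ 0 x)) ∈ gdom 𝓜 h := by
  have hT := CMfd.tparam_mem_TM hS.hol hS.zero_mem x
  obtain ⟨γ, hγ, h0, h1⟩ := exists_geodesic_univ hS.kahler hS.conn hS.proper hT.1 hT.2
  have h2 := (hγ.eq_geo hS.closed hS.kahler.toIsMetric isOpen_univ Set.ordConnected_univ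
    (t₀ := 0) (t := t) (Set.mem_univ _) (Set.mem_univ _)).1
  rw [h0, h1, sub_zero] at h2
  exact h2

theorem UcSetup.ucMap (hS : UcSetup 𝓜 h Φ₀ U₀ ε) : UcMap 𝓜 (ucExp 𝓜 h Φ₀) Set.univ := by
  refine ⟨isOpen_univ, ?_, fun x _ => geo_mem (hS.mem_gdom 1 x)⟩
  have hσ : ContDiffOn ℝ ∞ (fun x : CE ι => (Φ₀ 0, fderiv ℝ Φ₀ 0 x)) Set.univ :=
    (contDiff_const.prodMk (fderiv ℝ Φ₀ 0).contDiff).contDiffOn
  have h1 := contDiffOn_geo_comp hS.closed hS.kahler.toIsMetric hσ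
    (fun x _ => CMfd.tparam_mem_TM hS.hol hS.zero_mem x)
  have h2 : ContDiffOn ℝ ∞ (fun x : CE ι => ((1 : ℝ), x)) Set.univ :=
    (contDiff_const.prodMk contDiff_id).contDiffOn
  exact h1.comp h2 fun x _ => ⟨Set.mem_univ _, hS.mem_gdom 1 x⟩

theorem UcSetup.ucMap_of_isOpen (hS : UcSetup 𝓜 h Φ₀ U₀ ε) {B : Set (CE ι)} (hB : IsOpen B) :
    UcMap 𝓜 (ucExp 𝓜 h Φ₀) B :=
  ⟨hB, hS.ucMap.smooth.mono (Set.subset_univ _), fun x _ => hS.ucMap.mem x (Set.mem_univ _)⟩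

theorem UcSetup.ucExp_zero (hS : UcSetup 𝓜 h Φ₀ U₀ ε) : ucExp 𝓜 h Φ₀ 0 = Φ₀ 0 := by
  unfold ucExp hexp
  rw [map_zero]
  exact (geo_zero_vec hS.closed hS.kahler.toIsMetric
    (CMfd.mem_carrier hS.hol hS.zero_mem) 1).2.1

theorem UcSetup.ucExp_smul (hS : UcSetup 𝓜 h Φ₀ U₀ ε) (t : ℝ) (x : CE ι) :
    ucExp 𝓜 h Φ₀ (t • x) = geo 𝓜 h (Φ₀ 0) (fderiv ℝ Φ₀ 0 x) t := by
  unfold ucExp
  rw [map_smul]
  exact hexp_smul hS.closed hS.kahler.toIsMetric (CMfd.tparam_mem_TM hS.hol hS.zero_mem x)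
    (hS.mem_gdom t x)

/-- the images of the rays are geodesics. -/
theorem UcSetup.isGeodesic_ray (hS : UcSetup 𝓜 h Φ₀ U₀ ε) (x : CE ι) :
    IsGeodesic 𝓜 h (fun t : ℝ => ucExp 𝓜 h Φ₀ (t • x)) Set.univ := by
  have h1 := isGeodesic_geo hS.closed hS.kahler.toIsMetric (Φ₀ 0) (fderiv ℝ Φ₀ 0 x)
  have h2 : {t | (t, (Φ₀ 0, fderiv ℝ Φ₀ 0 x)) ∈ gdom 𝓜 h} = Set.univ :=
    Set.eq_univ_of_forall fun t => hS.mem_gdom t x
  rw [h2] at h1
  exact h1.congr fun t _ => hS.ucExp_smul t x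

theorem UcSetup.deriv_ray_zero (hS : UcSetup 𝓜 h Φ₀ U₀ ε) (x : CE ι) :
    deriv (fun t : ℝ => ucExp 𝓜 h Φ₀ (t • x)) 0 = fderiv ℝ Φ₀ 0 x := by
  have h1 : (fun t : ℝ => ucExp 𝓜 h Φ₀ (t • x)) = geo 𝓜 h (Φ₀ 0) (fderiv ℝ Φ₀ 0 x) :=
    funext fun t => hS.ucExp_smul t x
  rw [h1, deriv_geo hS.closed hS.kahler.toIsMetric (hS.mem_gdom 0 x), geoV_zero]

theorem UcSetup.fderiv_ucExp_zero (hS : UcSetup 𝓜 h Φ₀ U₀ ε) :
    fderiv ℝ (ucExp 𝓜 h Φ₀) 0 = fderiv ℝ Φ₀ 0 := by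
  ext x
  have hd : DifferentiableAt ℝ (ucExp 𝓜 h Φ₀) ((0 : ℝ) • x) := by
    rw [zero_smul]
    exact ((hS.ucMap.smooth 0 (Set.mem_univ _)).contDiffAt Filter.univ_mem).differentiableAt
      (by simp)
  have h1 : HasDerivAt (fun t : ℝ => t • x) x 0 := by
    simpa using (hasDerivAt_id (0 : ℝ)).smul_const x
  have h2 := (hd.hasFDerivAt.comp_hasDerivAt (0 : ℝ) h1).deriv
  rw [zero_smul] at h2
  rw [← h2]
  exact hS.deriv_ray_zero x

theorem UcSetup.ucExp_mem_hball (hS : UcSetup 𝓜 h Φ₀ U₀ ε) {x : CE ι}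
    (hx : x ∈ Metric.ball (0 : CE ι) 1) : ucExp 𝓜 h Φ₀ x ∈ hball 𝓜 h (Φ₀ 0) 1 := by
  refine ⟨hS.ucMap.mem x (Set.mem_univ _), ?_⟩
  have h1 := ((hS.isGeodesic_ray x).mono (Set.subset_univ (Set.Ioo (-1 : ℝ) 2))).hdist_le
    hS.kahler (s := 0) (t := 1) ⟨by norm_num, by norm_num⟩ ⟨by norm_num, by norm_num⟩
  simp only [zero_smul, one_smul] at h1
  rw [hS.deriv_ray_zero x, hS.ucExp_zero,
    ambQ_param hS.kahler.toIsHForm hS.hol hS.zero_mem x, hS.unit] at h1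
  have h2 : qf (1 : Matrix ι ι ℂ) x = ‖x‖ ^ 2 := by
    unfold qf
    rw [Matrix.one_mulVec, EuclideanSpace.norm_sq_eq]
    simp only [dotProduct, Pi.star_apply, Complex.re_sum]
    refine Finset.sum_congr rfl fun i _ => ?_
    rw [RCLike.star_def, mul_comm, Complex.mul_conj, Complex.normSq_eq_norm_sq]
    exact Complex.ofReal_re _
  rw [h2, Real.sqrt_sq (norm_nonneg _)] at h1
  have h3 : ‖x‖ < 1 := by simpa using hx
  calc hdist 𝓜 h (Φ₀ 0) (ucExp 𝓜 h Φ₀ x) ≤ ‖x‖ * |(0 : ℝ) - 1| := h1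
    _ = ‖x‖ := by norm_num
    _ < 1 := h3

end expmap

section radial

/-- `Re (aᴴ b)` is the real inner product of `ℂ^ι`. -/
theorem reForm_one_eq_inner (a b : CE ι) : reForm (1 : Matrix ι ι ℂ) a b = inner ℝ a b := by
  rw [PiLp.inner_apply]
  unfold reForm
  rw [Matrix.one_mulVec]
  simp only [dotProduct, Pi.star_apply, Complex.inner, RCLike.star_def, Complex.re_sum]
  exact Finset.sum_congr rfl fun i _ => by rw [mul_comm]

/-- near every point an immersion `E` read in a parametrisation of `𝓜` is a local isometry. -/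
theorem UcImm.exists_local_isom {E : CE ι → V} {B : Set (CE ι)} (hE : UcImm 𝓜 E B)
    (hm : IsMetric 𝓜 h) {x : CE ι} (hx : x ∈ B) :
    ∃ (Φ : CE ι → V) (U B' : Set (CE ι)), 𝓜.IsHol Φ U ∧ IsOpen B' ∧ B' ⊆ B ∧ x ∈ B' ∧
      (∀ y ∈ B', E y ∈ Φ '' U) ∧ (ucGeo 𝓜 h E B').IsRiem ∧
      RGeo.IsIsom (ucGeo 𝓜 h E B') (kgeo h Φ U) (Function.invFunOn Φ U ∘ E) := by
  obtain ⟨Φ, U, hΦ, hxU⟩ := 𝓜.cover _ (hE.mem x hx)
  obtain ⟨O, hO, hOeq⟩ := (𝓜.isParam hΦ).image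
  have hB'o : IsOpen (B ∩ E ⁻¹' O) := hE.smooth.continuousOn.isOpen_inter_preimage hE.isOpen hO
  have hmem : ∀ y ∈ B ∩ E ⁻¹' O, E y ∈ Φ '' U := fun y hy => by
    rw [hOeq]
    exact ⟨hE.mem y hy.1, hy.2⟩
  have hxB' : x ∈ B ∩ E ⁻¹' O := ⟨hx, by
    have := hxU
    rw [hOeq] at this
    exact this.2⟩
  have hE' : UcImm 𝓜 E (B ∩ E ⁻¹' O) :=
    ⟨⟨hB'o, hE.smooth.mono Set.inter_subset_left, fun y hy => hE.mem y hy.1⟩,
      fun y hy => hE.inj y hy.1⟩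
  exact ⟨Φ, U, B ∩ E ⁻¹' O, hΦ, hB'o, Set.inter_subset_left, hxB', hmem, ucGeo_isRiem hE' hm,
    isIsom_ucGeo_to hE hm hΦ hB'o Set.inter_subset_left hmem⟩

/-- on a star shaped domain of immersion the unwrapped structure is in geodesic normal coordinates. -/
theorem UcSetup.isRadial (hS : UcSetup 𝓜 h Φ₀ U₀ ε) {B : Set (CE ι)}
    (hE : UcImm 𝓜 (ucExp 𝓜 h Φ₀) B) (hB : B ⊆ Metric.ball 0 1) (h0 : (0 : CE ι) ∈ B)
    (hstar : ∀ x ∈ B, ∀ t ∈ Set.Icc (0 : ℝ) 1, t • x ∈ B) :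
    (ucGeo 𝓜 h (ucExp 𝓜 h Φ₀) B).IsRadial (3 * ε) := by
  have hm := hS.kahler.toIsMetric
  have hp₀ := 𝓜.isParam hS.hol
  refine ⟨ucGeo_isRiem hE hm, by linarith [hS.eps_nonneg], h0, hstar, ?_, ?_, ?_⟩
  · -- the metric at the centre
    intro a b
    have hE0 : ucExp 𝓜 h Φ₀ 0 ∈ Φ₀ '' U₀ := ⟨0, hS.zero_mem, hS.ucExp_zero.symm⟩
    have hd : DifferentiableAt ℝ (ucExp 𝓜 h Φ₀) 0 :=
      ((hS.ucMap.smooth 0 (Set.mem_univ _)).contDiffAt Filter.univ_mem).differentiableAt (by simp)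
    have h1 := (hp₀.hasFDerivAt_invFunOn_comp hd
      (Filter.Eventually.of_forall fun y => hS.ucMap.mem y (Set.mem_univ _)) hE0).2
    have hinv0 : Function.invFunOn Φ₀ U₀ (ucExp 𝓜 h Φ₀ 0) = 0 := by
      rw [hS.ucExp_zero]
      exact hp₀.leftInv hS.zero_mem
    have h2 : ∀ v, fderiv ℝ (Function.invFunOn Φ₀ U₀ ∘ ucExp 𝓜 h Φ₀) 0 v = v := fun v => by
      have h3 := h1 v
      rw [hS.fderiv_ucExp_zero, hinv0] at h3
      exact (hp₀.immersion 0 hS.zero_mem h3).symm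
    show ucG 𝓜 h (ucExp 𝓜 h Φ₀) 0 a b = _
    rw [ucG_param hE.toUcMap hm.toIsHForm hS.hol h0 hE0, hinv0, hS.unit, h2, h2,
      reForm_one_eq_inner]
  · -- the rays are geodesics
    intro x hx
    obtain ⟨Φ, U, B', hΦ, hB'o, hB'B, hxB', hmem, hR', hiso⟩ := hE.exists_local_isom hm hx
    have hcont : Continuous fun t : ℝ => t • x := continuous_id.smul continuous_const
    have hI'o : IsOpen ((fun t : ℝ => t • x) ⁻¹' B') := hB'o.preimage hcont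
    have h1I' : (1 : ℝ) ∈ (fun t : ℝ => t • x) ⁻¹' B' := by
      show (1 : ℝ) • x ∈ B'
      rwa [one_smul]
    have hray := (hS.isGeodesic_ray x).mono (Set.subset_univ ((fun t : ℝ => t • x) ⁻¹' B'))
    have hcoord := (hray.coord hI'o hΦ (fun t ht => hmem _ ht)).1
    have hsm : ContDiffOn ℝ ∞ (fun t : ℝ => t • x) ((fun t : ℝ => t • x) ⁻¹' B') :=
      (contDiff_id.smul contDiff_const).contDiffOn
    have hgeod := (hiso.isGeod_iff hR' (kgeo_isRiem hS.kahler hΦ) hI'o hsm (fun t ht => ht)).1 hcoord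
    have h2 := hgeod.2.2 1 h1I'
    have hder : deriv (fun t : ℝ => t • x) = fun _ => x := by
      funext t
      simpa using ((hasDerivAt_id t).smul_const x).deriv
    unfold RGeo.covD at h2
    rw [hder, deriv_const, zero_add] at h2
    simp only [one_smul] at h2
    exact h2
  · -- the curvature bound
    intro x hx a b
    obtain ⟨Φ, U, B', hΦ, hB'o, hB'B, hxB', hmem, hR', hiso⟩ := hE.exists_local_isom hm hx
    have hp := 𝓜.isParam hΦ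
    have hzU : (Function.invFunOn Φ U ∘ ucExp 𝓜 h Φ₀) x ∈ U := hp.invFunOn_mem (hmem x hxB')
    have hΦz : Φ ((Function.invFunOn Φ U ∘ ucExp 𝓜 h Φ₀) x) = ucExp 𝓜 h Φ₀ x :=
      hp.rightInv (hmem x hxB')
    have h1 := hiso.secNum hR' (kgeo_isRiem hS.kahler hΦ) hxB' a b
    have h2 := kgeo_abs_secNum_le hS.kahler hS.bisec hΦ hzU
      (fderiv ℝ (Function.invFunOn Φ U ∘ ucExp 𝓜 h Φ₀) x a)
      (fderiv ℝ (Function.invFunOn Φ U ∘ ucExp 𝓜 h Φ₀) x b)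
    rw [h1, ← hiso.isom x hxB', ← hiso.isom x hxB'] at h2
    have h3 : trF h (ricF h) Φ ((Function.invFunOn Φ U ∘ ucExp 𝓜 h Φ₀) x) ≤ ε := by
      have h4 := scalCurv_eq hm hΦ hzU
      rw [hΦz] at h4
      have h5 := hS.scal_le _ (hS.ucExp_mem_hball (hB hx))
      rw [h4] at h5
      exact h5
    have h6 : 0 ≤ ucG 𝓜 h (ucExp 𝓜 h Φ₀) x a a * ucG 𝓜 h (ucExp 𝓜 h Φ₀) x b b :=
      mul_nonneg (ucG_nonneg hE.toUcMap hm hx a) (ucG_nonneg hE.toUcMap hm hx b)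
    refine le_trans h2 ?_
    exact mul_le_mul_of_nonneg_right (by linarith) h6

/-- at the centre the pulled back complex structure is the standard one. -/
theorem UcSetup.J_zero (hS : UcSetup 𝓜 h Φ₀ U₀ ε) {B : Set (CE ι)}
    (hE : UcImm 𝓜 (ucExp 𝓜 h Φ₀) B) {Ψ : CE ι → CE ι} {U : Set (CE ι)}
    (hΨ : (pullMfd 𝓜 (ucExp 𝓜 h Φ₀) B hE).IsHol Ψ U) {z : CE ι} (hz : z ∈ U) (hz0 : Ψ z = 0)
    (a : CE ι) : fderiv ℝ Ψ z (Complex.I • a) = Complex.I • fderiv ℝ Ψ z a := by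
  have hp₀ := 𝓜.isParam hS.hol
  have hΨ1 : IsParam B Ψ U := hΨ.1
  have hΨ2 : 𝓜.IsHol (ucExp 𝓜 h Φ₀ ∘ Ψ) U := hΨ.2
  have hEz : (ucExp 𝓜 h Φ₀ ∘ Ψ) z = Φ₀ 0 := by
    show ucExp 𝓜 h Φ₀ (Ψ z) = _
    rw [hz0, hS.ucExp_zero]
  have hz' : z ∈ U ∩ (ucExp 𝓜 h Φ₀ ∘ Ψ) ⁻¹' (Φ₀ '' U₀) := ⟨hz, ⟨0, hS.zero_mem, hEz.symm⟩⟩
  have hτz := CMfd.trans_eq hΨ2 hS.hol hS.zero_mem hEz
  have hch := CMfd.fderiv_eq_comp_trans hΨ2 hS.hol hz'
  have hd : DifferentiableAt ℝ (ucExp 𝓜 h Φ₀) (Ψ z) :=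
    ((hS.ucMap.smooth _ (Set.mem_univ _)).contDiffAt Filter.univ_mem).differentiableAt (by simp)
  have hcomp := fderiv_comp z hd (hΨ1.differentiableAt hz)
  have key : ∀ v, fderiv ℝ Ψ z v
      = fderiv ℂ (Function.invFunOn Φ₀ U₀ ∘ (ucExp 𝓜 h Φ₀ ∘ Ψ)) z v := fun v => by
    have h1 := hch v
    rw [hcomp, hτz, hz0, hS.fderiv_ucExp_zero] at h1
    exact hp₀.immersion 0 hS.zero_mem h1
  rw [key, key, map_smul]

end radial

section immersion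

/-- **the exponential map is an immersion on the unit ball.** -/
theorem UcSetup.ucImm (hS : UcSetup 𝓜 h Φ₀ U₀ ε) (hε : 3 * ε ≤ 1) :
    UcImm 𝓜 (ucExp 𝓜 h Φ₀) (Metric.ball 0 1) := by
  have hm := hS.kahler.toIsMetric
  have hsm : ContDiff ℝ ∞ (ucExp 𝓜 h Φ₀) := contDiffOn_univ.1 hS.ucMap.smooth
  -- the set of immersion points
  have hOo : IsOpen {y : CE ι | Function.Injective (fderiv ℝ (ucExp 𝓜 h Φ₀) y)} :=
    ContinuousLinearMap.isOpen_injective.preimage (hsm.continuous_fderiv (by simp))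
  set O : Set (CE ι) := {y : CE ι | Function.Injective (fderiv ℝ (ucExp 𝓜 h Φ₀) y)} with hO
  set Bs : Set (CE ι) := {x | x ∈ Metric.ball (0 : CE ι) 1 ∧ ∀ t ∈ Set.Icc (0 : ℝ) 1, t • x ∈ O}
    with hBs
  have hBso : IsOpen Bs := by
    rw [isOpen_iff_eventually]
    intro x hx
    have h1 : ∀ᶠ y in 𝓝 x, ∀ t ∈ Set.Icc (0 : ℝ) 1, t • y ∈ O := by
      refine isCompact_Icc.eventually_forall_of_forall_eventually fun t ht => ?_
      have hc : ContinuousAt (fun z : CE ι × ℝ => z.2 • z.1) (x, t) :=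
        (continuous_snd.smul continuous_fst).continuousAt
      exact hc.eventually (hOo.mem_nhds (hx.2 t ht))
    filter_upwards [Metric.isOpen_ball.mem_nhds hx.1, h1] with y hy1 hy2
    exact ⟨hy1, hy2⟩
  have hBsub : Bs ⊆ Metric.ball 0 1 := fun x hx => hx.1
  have hball : ∀ x ∈ Metric.ball (0 : CE ι) 1, ∀ t ∈ Set.Icc (0 : ℝ) 1,
      t • x ∈ Metric.ball (0 : CE ι) 1 := by
    intro x hx t ht
    rw [mem_ball_zero_iff] at hx ⊢
    rw [norm_smul, Real.norm_eq_abs, abs_of_nonneg ht.1]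
    calc t * ‖x‖ ≤ 1 * ‖x‖ := mul_le_mul_of_nonneg_right ht.2 (norm_nonneg _)
      _ < 1 := by linarith
  have hstar : ∀ x ∈ Bs, ∀ t ∈ Set.Icc (0 : ℝ) 1, t • x ∈ Bs := by
    intro x hx t ht
    refine ⟨hball x hx.1 t ht, fun r hr => ?_⟩
    rw [smul_smul]
    exact hx.2 _ ⟨mul_nonneg hr.1 ht.1, mul_le_one₀ hr.2 ht.1 ht.2⟩
  have h0O : (0 : CE ι) ∈ O := by
    show Function.Injective (fderiv ℝ (ucExp 𝓜 h Φ₀) 0)
    rw [hS.fderiv_ucExp_zero]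
    exact (𝓜.isParam hS.hol).immersion 0 hS.zero_mem
  have h0 : (0 : CE ι) ∈ Bs := ⟨Metric.mem_ball_self one_pos, fun t _ => by rwa [smul_zero]⟩
  have hEs : UcImm 𝓜 (ucExp 𝓜 h Φ₀) Bs :=
    ⟨hS.ucMap_of_isOpen hBso, fun x hx => by
      have := hx.2 1 ⟨zero_le_one, le_rfl⟩
      rwa [one_smul] at this⟩
  have hrad := hS.isRadial hEs hBsub h0 hstar
  -- the lower bound
  have hlow : ∀ y ∈ Bs, ∀ a : CE ι, 1 / 2 * ‖a‖ ^ 2 ≤ ucG 𝓜 h (ucExp 𝓜 h Φ₀) y a a := by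
    intro y hy a
    refine hrad.le_G hy ?_ a
    have hy1 : ‖y‖ < 1 := by simpa using hy.1
    have h1 : ‖y‖ ^ 2 ≤ 1 := by nlinarith [norm_nonneg y]
    have h2 : 0 ≤ 3 * ε := by linarith [hS.eps_nonneg]
    calc 3 * ε * ‖y‖ ^ 2 ≤ 3 * ε * 1 := mul_le_mul_of_nonneg_left h1 h2
      _ ≤ 1 := by linarith
  have hGc : Continuous (ucG 𝓜 h (ucExp 𝓜 h Φ₀)) :=
    continuousOn_univ.1 (contDiffOn_ucG hS.ucMap hm.toIsHForm).continuousOn
  have hCcl : IsClosed {y : CE ι | ∀ a : CE ι, 1 / 2 * ‖a‖ ^ 2 ≤ ucG 𝓜 h (ucExp 𝓜 h Φ₀) y a a} := by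
    have : {y : CE ι | ∀ a : CE ι, 1 / 2 * ‖a‖ ^ 2 ≤ ucG 𝓜 h (ucExp 𝓜 h Φ₀) y a a}
        = ⋂ a : CE ι, {y | 1 / 2 * ‖a‖ ^ 2 ≤ ucG 𝓜 h (ucExp 𝓜 h Φ₀) y a a} := by
      ext y
      simp
    rw [this]
    refine isClosed_iInter fun a => isClosed_le continuous_const ?_
    exact (hGc.clm_apply continuous_const).clm_apply continuous_const
  have hCO : ∀ y : CE ι, (∀ a : CE ι, 1 / 2 * ‖a‖ ^ 2 ≤ ucG 𝓜 h (ucExp 𝓜 h Φ₀) y a a) → y ∈ O := by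
    intro y hy
    show Function.Injective (fderiv ℝ (ucExp 𝓜 h Φ₀) y)
    rw [injective_iff_map_eq_zero]
    intro a ha
    by_contra hne
    have h1 : 0 < ucG 𝓜 h (ucExp 𝓜 h Φ₀) y a a :=
      lt_of_lt_of_le (by have := norm_pos_iff.2 hne; positivity) (hy a)
    exact (ucG_pos_iff hS.ucMap hm (Set.mem_univ y) a).1 h1 ha
  refine ⟨hS.ucMap_of_isOpen Metric.isOpen_ball, fun x hx => ?_⟩
  -- continuity method along the ray
  have hiff : ∀ t ∈ Set.Icc (0 : ℝ) 1, (t • x ∈ Bs ↔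
      ∀ r ∈ Set.Icc (0 : ℝ) 1, ∀ a : CE ι,
        1 / 2 * ‖a‖ ^ 2 ≤ ucG 𝓜 h (ucExp 𝓜 h Φ₀) ((r * t) • x) a a) := by
    intro t ht
    constructor
    · intro h1 r hr a
      rw [← smul_smul]
      exact hlow _ (hstar _ h1 r hr) a
    · intro h1
      refine ⟨hball x hx t ht, fun r hr => ?_⟩
      rw [smul_smul]
      exact hCO _ (h1 r hr)
  have hcl : IsClosed ({t : ℝ | t • x ∈ Bs} ∩ Set.Icc 0 1) := by
    have h1 : {t : ℝ | t • x ∈ Bs} ∩ Set.Icc 0 1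
        = (⋂ r ∈ Set.Icc (0 : ℝ) 1, (fun t : ℝ => (r * t) • x) ⁻¹'
            {y : CE ι | ∀ a : CE ι, 1 / 2 * ‖a‖ ^ 2 ≤ ucG 𝓜 h (ucExp 𝓜 h Φ₀) y a a})
          ∩ Set.Icc 0 1 := by
      ext t
      constructor
      · rintro ⟨h2, ht⟩
        refine ⟨?_, ht⟩
        simp only [Set.mem_iInter]
        exact fun r hr => (hiff t ht).1 h2 r hr
      · rintro ⟨h2, ht⟩
        simp only [Set.mem_iInter] at h2
        exact ⟨(hiff t ht).2 fun r hr => h2 r hr, ht⟩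
    rw [h1]
    refine IsClosed.inter (isClosed_biInter fun r _ => hCcl.preimage ?_) isClosed_Icc
    exact (continuous_const.mul continuous_id).smul continuous_const
  have hsub : Set.Icc (0 : ℝ) 1 ⊆ {t : ℝ | t • x ∈ Bs} := by
    refine hcl.Icc_subset_of_forall_mem_nhdsWithin ?_ ?_
    · show (0 : ℝ) • x ∈ Bs
      rwa [zero_smul]
    · rintro t ⟨ht, -⟩
      have hc : Continuous fun t : ℝ => t • x := continuous_id.smul continuous_const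
      exact mem_nhdsWithin_of_mem_nhds ((hBso.preimage hc).mem_nhds ht)
  have h1 : (1 : ℝ) • x ∈ Bs := hsub ⟨zero_le_one, le_rfl⟩
  rw [one_smul] at h1
  exact hEs.inj x h1

end immersion

/-- **output of the geometric block.** -/
theorem UcSetup.goodBall (hS : UcSetup 𝓜 h Φ₀ U₀ ε) (hε : 3 * ε ≤ 1) :
    GoodBall (pullMfd 𝓜 (ucExp 𝓜 h Φ₀) (Metric.ball 0 1) (hS.ucImm hε)) (pullF (ucExp 𝓜 h Φ₀) h)
      (ucGeo 𝓜 h (ucExp 𝓜 h Φ₀) (Metric.ball 0 1)) (3 * ε) where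
  carrier_eq := rfl
  U_eq := rfl
  kahler := isKahler_pullMfd _ hS.kahler
  bisec := bisecNonneg_pullMfd _ hS.bisec
  scal_le := fun x hx => by
    rw [scalCurv_pullMfd (hS.ucImm hε) hS.kahler.toIsMetric hx]
    have := hS.scal_le _ (hS.ucExp_mem_hball hx)
    linarith
  radial := hS.isRadial (hS.ucImm hε) subset_rfl (Metric.mem_ball_self one_pos) (by
    intro x hx t ht
    rw [mem_ball_zero_iff] at hx ⊢
    rw [norm_smul, Real.norm_eq_abs, abs_of_nonneg ht.1]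
    calc t * ‖x‖ ≤ 1 * ‖x‖ := mul_le_mul_of_nonneg_right ht.2 (norm_nonneg _)
      _ < 1 := by linarith)
  isom := fun _ _ hΨ => isIsom_ucGeo (hS.ucImm hε) hS.kahler.toIsMetric hΨ
  J_zero := fun _ _ hΨ _ hz hz0 a => hS.J_zero (hS.ucImm hε) hΨ hz hz0 a

end Claimed.Agent.R316
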