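import Claimed.Agent.R316.Base.Chart.Real
import Claimed.Agent.R316.Base.Chart.BochG

/-!
# `BP-G14` part P: interior estimates for holomorphic functions on a `GoodBall`

Architect: helper195.  PAPER FREE.  `hB : GoodBall X k S K`, `K ≤ 1`, `f` holomorphic on `X`.  All integrals are LEBESGUE integrals on balls of the real chart.
RESULT `uc_interior`: `|∂f|² + |∇∂f|² ≤ C₁ ∫_{|x| ≤ 1/2} |f|²` on `|x| ≤ 1/64`, `C₁ = C₁(n)`.  No derivative of the curvature and no injectivity radius is used.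

## Leaves (sections)
* `G14-P1` (section `energy`): cutoff functions `χ(|x|²/r²)` and the energy inequality `∫_{B_{r/2}} v ≤ C r⁻² ∫_{B_r} u` if `0 ≤ v ≤ Δu`.
* `G14-P2` (section `chain`): the chain `|f|² → |∂f|² → |∇∂f|²`.

## RECIPES
**P1.**  Fix `χ : ℝ → ℝ` smooth, `0 ≤ χ ≤ 1`, `χ = 1` on `(-∞,1/4]`, `χ = 0` on `[1/2,∞)` (`Real.smoothTransition`: `χ s = smoothTransition (2 - 4 s)`), `|χ'|, |χ''| ≤ Cχ` (continuous, vanish outside `[1/4,1/2]`).  `φ x = χ (‖x‖²/r²)`: smooth on the ball (`GoodBall.smooth_iff`), `= 1` on `closedBall 0 (r/2)`,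
`= 0` outside `closedBall 0 (r/√2) ⊆ ball 0 r`: `X.CSupp φ`.  `lap_comp`-rule of `Vol/Calc.lean` (`lap (χ∘u) = χ'(u) lap u + χ''(u) gradSq u`) with `u = ucRho / r²`: `|lap φ| ≤ Cχ (5n/2)/r² + Cχ ρ/r⁴ ≤ Cχ (5n/2 + 1)/r²` (`lap_rho_le`, `gradSq_rho`, `ρ ≤ r²` on the support), and `lap φ = 0` outside `closedBall 0 r`.
Green II (`integral_mul_lap_comm`): `∫ φ Δu dV = ∫ u Δφ dV`.  `∫_{cB(r/2)} v dx ≤ 2^n ∫ φ v dV ≤ 2^n ∫ φ Δu dV = 2^n ∫ u Δφ dV ≤ 2^n C r⁻² ∫ 1_{cB(r)} u dV ≤ 4^n C r⁻² ∫_{cB(r)} u dx` (`integral_hvol_eq`, `ucDens_bounds`).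
**P2.**  `u0 = ‖f‖²`, `u1 = hfN1 X k f`, `u2 = hfN2 X k f`, all smooth and `≥ 0`; `Δu0 = u1` (`lap_normSq_eq`), `Δu1 ≥ u2` (`hfN2_le_lap_hfN1`).  `0 ≤ R := scalCurv ≤ 1/3` on the ball (`hB.scal_le`; `≥ 0`: `tr_nonneg`/`qf_ricF_nonneg`), so `4 n³ R² ≤ n³ =: c`.
(1) `uc_moser_sub` (`c2 = 0`, `R' = 1`, `x0 = 0`, `r = 1/2`): `u0 ≤ A0 := C 2^{2n} I₀` on `cB(1/4)`.  (2) `uc_energy` (`r = 1/4`, `u = u0`, `v = u1`): `∫_{cB(1/8)} u1 ≤ C ∫_{cB(1/4)} u0 ≤ C I₀`.  (3) `uc_moser_sub` (`r = 1/8`): `u1 ≤ A1` on `cB(1/16)`.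
(4) `uc_energy` (`r = 1/16`, `u = u1`, `v = u2`): `∫_{cB(1/32)} u2 ≤ C ∫_{cB(1/16)} u1`.  (5) `uc_moser` with `R' = 1/16`, `w = u2 + A1 + η` (`η > 0`), `Y = hfY k f`, `c1 = √c`, `c2 = c`: `qf k Y ≤ c u1 u2 ≤ c A1 u2 ≤ c w²` (`qf_hfY_le`);
`lapP (w∘Ψ) = lapP (u2∘Ψ) ≥ 2 Re div Y - c u1 ≥ 2 Re div Y - c w` (`le_lapP_hfN2`; `divF k (hfY k f) Ψ z = bcDiv (k Ψ) (hfY k f Ψ) z` by `rfl`; `lapP_add_const`); `x0 = 0`, `r = 1/32`: `u2 ≤ w ≤ C 32^{2n} (∫_{cB(1/32)} u2 + (A1 + η) vol)` on `cB(1/64)`; `η → 0`.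
-/

set_option autoImplicit false
set_option linter.unusedSectionVars false
set_option maxSynthPendingDepth 3
open scoped ContDiff Topology ComplexOrder
open MeasureTheory

namespace Claimed.Agent.R316

section energy

/-- the fixed cutoff profile. -/
theorem uce_cutoff : ∃ (χ : ℝ → ℝ) (C : ℝ), 0 < C ∧ ContDiff ℝ ∞ χ ∧ (∀ s, 0 ≤ χ s) ∧
    (∀ s, χ s ≤ 1) ∧ (∀ s, s ≤ 1 / 4 → χ s = 1) ∧ (∀ s, 1 / 2 ≤ s → χ s = 0) ∧
    (∀ s, 0 ≤ s → |deriv χ s| ≤ C ∧ |deriv (deriv χ) s| ≤ C) ∧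
    (∀ s, 1 / 2 < s → deriv χ s = 0 ∧ deriv (deriv χ) s = 0) := by
  set χ : ℝ → ℝ := fun s => Real.smoothTransition (2 - 4 * s) with hχ
  have hs : ContDiff ℝ ∞ χ :=
    Real.smoothTransition.contDiff.comp (contDiff_const.sub (contDiff_const.mul contDiff_id))
  have hzero : ∀ s, 1 / 2 ≤ s → χ s = 0 := fun s h =>
    Real.smoothTransition.zero_of_nonpos (by linarith)
  have hd0 : ∀ s, 1 / 2 < s → deriv χ s = 0 ∧ deriv (deriv χ) s = 0 := by
    intro s h
    have e : χ =ᶠ[𝓝 s] fun _ => 0 := by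
      filter_upwards [Ioi_mem_nhds h] with t ht
      exact hzero t (le_of_lt ht)
    have e' : deriv χ =ᶠ[𝓝 s] deriv fun _ => (0 : ℝ) := e.deriv
    refine ⟨by rw [e.deriv_eq]; simp, ?_⟩
    rw [e'.deriv_eq]
    simp
  have hc1 : Continuous (deriv χ) := hs.continuous_deriv (by simp)
  have hs1 : ContDiff ℝ ∞ (deriv χ) := by
    have := (contDiff_infty_iff_deriv.1 hs).2
    exact this
  have hc2 : Continuous (deriv (deriv χ)) := hs1.continuous_deriv (by simp)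
  obtain ⟨C1, hC1⟩ := (isCompact_Icc (a := (0 : ℝ)) (b := 1)).exists_bound_of_continuousOn
    hc1.continuousOn
  obtain ⟨C2, hC2⟩ := (isCompact_Icc (a := (0 : ℝ)) (b := 1)).exists_bound_of_continuousOn
    hc2.continuousOn
  refine ⟨χ, max (max C1 C2) 0 + 1, by positivity, hs,
    fun s => Real.smoothTransition.nonneg _, fun s => Real.smoothTransition.le_one _,
    fun s h => Real.smoothTransition.one_of_one_le (by linarith), hzero, ?_, hd0⟩
  intro s h0
  by_cases h1 : s ≤ 1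
  · have a1 := hC1 s ⟨h0, h1⟩
    have a2 := hC2 s ⟨h0, h1⟩
    rw [Real.norm_eq_abs] at a1 a2
    have b1 : C1 ≤ max (max C1 C2) 0 := (le_max_left _ _).trans (le_max_left _ _)
    have b2 : C2 ≤ max (max C1 C2) 0 := (le_max_right _ _).trans (le_max_left _ _)
    exact ⟨by linarith, by linarith⟩
  · obtain ⟨a1, a2⟩ := hd0 s (by linarith)
    rw [a1, a2, abs_zero]
    have : (0 : ℝ) ≤ max (max C1 C2) 0 := le_max_right _ _
    exact ⟨by linarith, by linarith⟩

/-- **energy inequality.** -/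
theorem uc_energy (ι : Type) [Fintype ι] [DecidableEq ι] :
    ∃ C : ℝ, 0 < C ∧ ∀ (X : CMfd (CE ι) ι) (k : HFam (CE ι) ι) (S : RGeo (CE ι)) (K : ℝ),
      GoodBall X k S K → K ≤ 1 →
      ∀ (u v : CE ι → ℝ) (r : ℝ), 0 < r → r < 1 → X.Smooth u → X.Smooth v →
        (∀ x ∈ Metric.ball (0 : CE ι) r, 0 ≤ u x ∧ 0 ≤ v x ∧ v x ≤ lap X k u x) →
        ∫ x in Metric.closedBall (0 : CE ι) (r / 2), v x ≤
          C * r⁻¹ ^ 2 * ∫ x in Metric.closedBall (0 : CE ι) r, u x := by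
  obtain ⟨χ, Cχ, hCχ, hχs, hχ0, hχ1, hχone, hχzero, hχb, hχd0⟩ := uce_cutoff
  set n : ℕ := Fintype.card ι with hn
  refine ⟨2 ^ n * (2 ^ n * (Cχ * (5 / 2 * n + 1))), by positivity, ?_⟩
  intro X k S K hB hK u v r hr hr1 hu hv hyp
  have hh : IsMetric X k := hB.kahler.toIsMetric
  set c : ℝ := r⁻¹ ^ 2 with hc
  have hc0 : 0 < c := by positivity
  have hcr : c * r ^ 2 = 1 := by rw [hc]; field_simp
  set φ : CE ι → ℝ := fun x => χ (c * ucRho x) with hφ
  have hρs : X.Smooth (ucRho : CE ι → ℝ) := hB.smooth_rho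
  have hφs : X.Smooth φ := by
    rw [hB.smooth_iff]
    exact hχs.comp_contDiffOn (contDiffOn_const.mul (hB.smooth_iff.1 hρs))
  have hφ_zero : ∀ x : CE ι, r ^ 2 / 2 ≤ ‖x‖ ^ 2 → φ x = 0 := by
    intro x hx
    apply hχzero
    show 1 / 2 ≤ c * ‖x‖ ^ 2
    calc (1 : ℝ) / 2 = c * (r ^ 2 / 2) := by rw [← mul_div_assoc, hcr]
      _ ≤ _ := mul_le_mul_of_nonneg_left hx hc0.le
  have hφ_one : ∀ x : CE ι, ‖x‖ ≤ r / 2 → φ x = 1 := by
    intro x hx
    apply hχone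
    show c * ‖x‖ ^ 2 ≤ 1 / 4
    have : ‖x‖ ^ 2 ≤ (r / 2) ^ 2 := pow_le_pow_left₀ (norm_nonneg _) hx 2
    calc c * ‖x‖ ^ 2 ≤ c * (r / 2) ^ 2 := mul_le_mul_of_nonneg_left this hc0.le
      _ = (c * r ^ 2) / 4 := by ring
      _ = 1 / 4 := by rw [hcr]
  have hsub1 : Metric.closedBall (0 : CE ι) r ⊆ Metric.ball 0 1 :=
    Metric.closedBall_subset_ball hr1
  have hcs : X.CSupp φ := by
    refine ⟨Metric.closedBall 0 r, isCompact_closedBall 0 r, ?_, ?_⟩
    · rw [hB.carrier_eq]; exact hsub1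
    · intro x _ hx
      apply hφ_zero
      rw [mem_closedBall_zero_iff, not_le] at hx
      nlinarith
  set M : ℝ := c * (Cχ * (5 / 2 * n + 1)) with hM
  have hM0 : 0 ≤ M := by positivity
  have hlap : ∀ x : CE ι, ‖x‖ < 1 → |lap X k φ x| ≤ M ∧ (r ^ 2 / 2 < ‖x‖ ^ 2 → lap X k φ x = 0) := by
    intro x hx
    have hxc : x ∈ X.carrier := hB.mem_carrier_iff.2 hx
    have hcρ : X.C2At (fun y => c * ucRho y) x := by
      have : X.Smooth (fun y : CE ι => c * ucRho y) := by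
        rw [hB.smooth_iff]
        exact contDiffOn_const.mul (hB.smooth_iff.1 hρs)
      exact this.c2At hxc
    have e := lap_comp (𝓜 := X) (u := fun y => c * ucRho y) k hxc (χ := χ)
      (hχs.contDiffAt.of_le (WithTop.coe_le_coe.2 le_top)) hcρ
    rw [lap_const_mul k c (hρs.c2At hxc), gradSq_const_mul k c (hρs.diffAt hxc),
      hB.gradSq_rho hx] at e
    have e' : lap X k φ x = deriv χ (c * ucRho x) * (c * lap X k ucRho x)
        + deriv (deriv χ) (c * ucRho x) * (c ^ 2 * ‖x‖ ^ 2) := e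
    have hs0 : 0 ≤ c * ucRho x := mul_nonneg hc0.le (sq_nonneg _)
    have hz : r ^ 2 / 2 < ‖x‖ ^ 2 → lap X k φ x = 0 := by
      intro h
      have : 1 / 2 < c * ucRho x := by
        calc (1 : ℝ) / 2 = c * (r ^ 2 / 2) := by rw [← mul_div_assoc, hcr]
          _ < _ := mul_lt_mul_of_pos_left h hc0
      obtain ⟨a1, a2⟩ := hχd0 _ this
      rw [e', a1, a2, zero_mul, zero_mul, add_zero]
    refine ⟨?_, hz⟩
    by_cases h : r ^ 2 / 2 < ‖x‖ ^ 2
    · rw [hz h, abs_zero]; exact hM0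
    · rw [not_lt] at h
      obtain ⟨b1, b2⟩ := hχb _ hs0
      obtain ⟨l1, l2⟩ := hB.lap_rho_le hK hx
      have hn0 : (0 : ℝ) ≤ n := Nat.cast_nonneg _
      have l3 : |lap X k ucRho x| ≤ 5 / 2 * n := by
        rw [abs_le]
        constructor <;> linarith
      have l4 : c ^ 2 * ‖x‖ ^ 2 ≤ c := by
        calc c ^ 2 * ‖x‖ ^ 2 ≤ c ^ 2 * (r ^ 2 / 2) := mul_le_mul_of_nonneg_left h (by positivity)
          _ = c * (c * r ^ 2) / 2 := by ring
          _ = c / 2 := by rw [hcr, mul_one]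
          _ ≤ c := by linarith
      have l5 : 0 ≤ c ^ 2 * ‖x‖ ^ 2 := by positivity
      rw [e']
      calc |deriv χ (c * ucRho x) * (c * lap X k ucRho x)
            + deriv (deriv χ) (c * ucRho x) * (c ^ 2 * ‖x‖ ^ 2)|
          ≤ |deriv χ (c * ucRho x)| * (c * |lap X k ucRho x|)
            + |deriv (deriv χ) (c * ucRho x)| * (c ^ 2 * ‖x‖ ^ 2) := by
            refine (abs_add_le _ _).trans ?_
            rw [abs_mul, abs_mul, abs_mul, abs_of_pos hc0, abs_of_nonneg l5]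
        _ ≤ Cχ * (c * (5 / 2 * n)) + Cχ * c := by
            gcongr
        _ = M := by rw [hM]; ring
  -- `u ≥ 0` on the closed ball
  have huc : ContinuousOn u (Metric.closedBall 0 r) :=
    ((hB.smooth_iff.1 hu).continuousOn).mono hsub1
  have hu0 : ∀ x ∈ Metric.closedBall (0 : CE ι) r, 0 ≤ u x := by
    have hcl : IsClosed (Metric.closedBall (0 : CE ι) r ∩ u ⁻¹' Set.Ici 0) :=
      huc.preimage_isClosed_of_isClosed Metric.isClosed_closedBall isClosed_Ici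
    have : closure (Metric.ball (0 : CE ι) r) ⊆ Metric.closedBall (0 : CE ι) r ∩ u ⁻¹' Set.Ici 0 :=
      closure_minimal (fun x hx => ⟨Metric.ball_subset_closedBall hx, (hyp x hx).1⟩) hcl
    rw [closure_ball _ hr.ne'] at this
    exact fun x hx => (this hx).2
  set g1 : CE ι → ℝ := fun x => φ x * v x with hg1
  have ig1 : Integrable g1 (hvol X k) :=
    integrable_hvol_of_csupp hh (hφs.continuousOn.mul hv.continuousOn) (hcs.mul_right v)
  have g1nn : ∀ x : CE ι, ‖x‖ < 1 → 0 ≤ g1 x := by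
    intro x _
    by_cases hx : ‖x‖ < r
    · exact mul_nonneg (hχ0 _) (hyp x (by simpa using hx)).2.1
    · rw [not_lt] at hx
      have : φ x = 0 := hφ_zero x (by nlinarith)
      simp only [hg1, this, zero_mul, le_refl]
  have s1 : ∫ x in Metric.closedBall (0 : CE ι) (r / 2), v x
      ≤ ∫ x in Metric.ball (0 : CE ι) 1, g1 x := by
    have e : ∫ x in Metric.closedBall (0 : CE ι) (r / 2), v x
        = ∫ x in Metric.closedBall (0 : CE ι) (r / 2), g1 x :=
      setIntegral_congr_fun measurableSet_closedBall fun x hx => by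
        simp only [hg1, hφ_one x (by simpa using hx), one_mul]
    rw [e]
    refine setIntegral_mono_set ((hB.integrable_hvol_iff hK g1).1 ig1) ?_ ?_
    · filter_upwards [ae_restrict_mem measurableSet_ball] with x hx
      exact g1nn x (by simpa using hx)
    · exact Filter.Eventually.of_forall fun x hx =>
        Metric.closedBall_subset_ball (by linarith) hx
  have s2 := hB.setIntegral_le_integral_hvol hK ig1 g1nn
  have s3 : ∫ x, g1 x ∂(hvol X k) ≤ ∫ x, φ x * lap X k u x ∂(hvol X k) := by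
    refine integral_hvol_mono ig1 (integrable_mul_lap_of_csupp hh hφs.continuousOn hcs hu) ?_
    intro x _
    by_cases hx : ‖x‖ < r
    · exact mul_le_mul_of_nonneg_left (hyp x (by simpa using hx)).2.2 (hχ0 _)
    · rw [not_lt] at hx
      have : φ x = 0 := hφ_zero x (by nlinarith)
      simp only [hg1, this, zero_mul, le_refl]
  have s4 := integral_mul_lap_comm hB.kahler hφs hcs hu
  set g2 : CE ι → ℝ := (Metric.closedBall (0 : CE ι) r).indicator (fun x => M * u x) with hg2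
  have ig2' : IntegrableOn (fun x => M * u x) (Metric.closedBall (0 : CE ι) r) :=
    (continuousOn_const.mul huc).integrableOn_compact (isCompact_closedBall 0 r)
  have ig2 : Integrable g2 (hvol X k) :=
    (hB.integrable_hvol_iff hK g2).2
      ((ig2'.integrable_indicator measurableSet_closedBall).integrableOn)
  have g2nn : ∀ x : CE ι, 0 ≤ g2 x := fun x =>
    Set.indicator_nonneg (fun y hy => mul_nonneg hM0 (hu0 y hy)) x
  have s5 : ∫ x, u x * lap X k φ x ∂(hvol X k) ≤ ∫ x, g2 x ∂(hvol X k) := by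
    refine integral_hvol_mono (integrable_mul_lap_of_csupp' hh hu.continuousOn hφs hcs) ig2 ?_
    intro x hxc
    have hx1 : ‖x‖ < 1 := hB.mem_carrier_iff.1 hxc
    obtain ⟨a1, a2⟩ := hlap x hx1
    by_cases h : r ^ 2 / 2 < ‖x‖ ^ 2
    · rw [a2 h, mul_zero]; exact g2nn x
    · rw [not_lt] at h
      have hxr : x ∈ Metric.closedBall (0 : CE ι) r := by
        rw [mem_closedBall_zero_iff]
        nlinarith [norm_nonneg x]
      rw [hg2, Set.indicator_of_mem hxr, mul_comm M]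
      exact mul_le_mul_of_nonneg_left ((le_abs_self _).trans a1) (hu0 x hxr)
  have s6 := hB.integral_hvol_le_setIntegral hK ig2 (fun x _ => g2nn x)
  have s7 : ∫ x in Metric.ball (0 : CE ι) 1, g2 x
      = M * ∫ x in Metric.closedBall (0 : CE ι) r, u x := by
    rw [hg2, setIntegral_indicator measurableSet_closedBall, Set.inter_eq_right.2 hsub1,
      integral_const_mul]
  have hp : (0 : ℝ) ≤ 2 ^ n := by positivity
  calc ∫ x in Metric.closedBall (0 : CE ι) (r / 2), v x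
      ≤ 2 ^ n * ∫ x, g1 x ∂(hvol X k) := s1.trans s2
    _ ≤ 2 ^ n * ∫ x, g2 x ∂(hvol X k) :=
        mul_le_mul_of_nonneg_left (s3.trans (s4.le.trans s5)) hp
    _ ≤ 2 ^ n * (2 ^ n * (M * ∫ x in Metric.closedBall (0 : CE ι) r, u x)) := by
        rw [← s7]
        exact mul_le_mul_of_nonneg_left s6 hp
    _ = _ := by rw [hM]; ring

end energy

section chain

theorem uci_limit {a B D : ℝ} (hD : 0 ≤ D) (h : ∀ η : ℝ, 0 < η → a ≤ B + D * η) : a ≤ B := by
  refine le_of_forall_pos_le_add fun ε hε => ?_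
  have h1 := h (ε / (D + 1)) (by positivity)
  have h2 : D * (ε / (D + 1)) ≤ ε := by
    rw [mul_div_assoc', div_le_iff₀ (by positivity)]
    nlinarith
  linarith

theorem uci_scal {ι : Type} [Fintype ι] [DecidableEq ι] {X : CMfd (CE ι) ι} {k : HFam (CE ι) ι}
    {S : RGeo (CE ι)} {K : ℝ} (hB : GoodBall X k S K) (hK : K ≤ 1) {x : CE ι} (hx : ‖x‖ < 1) :
    4 * (Fintype.card ι : ℝ) ^ 3 * scalCurv X k x ^ 2 ≤ (Fintype.card ι : ℝ) ^ 3 := by
  have hxc : x ∈ X.carrier := hB.mem_carrier_iff.2 hx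
  have h0 : 0 ≤ scalCurv X k x :=
    tr_nonneg hB.kahler.toIsMetric (fun Φ U hΦ z hz => by
      rw [sub_zero]
      exact kb_ricF_posSemidef hB.kahler hB.bisec hΦ hz) hxc
  have h1 : 3 * scalCurv X k x ≤ K := hB.scal_le x (by simpa using hx)
  have h2 : scalCurv X k x ^ 2 ≤ 1 / 9 := by nlinarith
  have h3 : (0 : ℝ) ≤ (Fintype.card ι : ℝ) ^ 3 := by positivity
  nlinarith

/-- **interior estimates for holomorphic functions.** -/
theorem uc_interior (ι : Type) [Fintype ι] [DecidableEq ι] [Nonempty ι] :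
    ∃ C₁ : ℝ, 0 < C₁ ∧ ∀ (X : CMfd (CE ι) ι) (k : HFam (CE ι) ι) (S : RGeo (CE ι)) (K : ℝ),
      GoodBall X k S K → K ≤ 1 → ∀ f : CE ι → ℂ, X.HolFun f →
        ∀ x ∈ Metric.closedBall (0 : CE ι) (1 / 64),
          hfN1 X k f x ≤ C₁ * ∫ y in Metric.closedBall (0 : CE ι) (1 / 2), ‖f y‖ ^ 2 ∧
          hfN2 X k f x ≤ C₁ * ∫ y in Metric.closedBall (0 : CE ι) (1 / 2), ‖f y‖ ^ 2 := by
  set cc : ℝ := (Fintype.card ι : ℝ) ^ 3 with hcc
  have hcc0 : 0 ≤ cc := by positivity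
  obtain ⟨CEn, hCE, HE⟩ := uc_energy ι
  obtain ⟨C0, hC0, H0⟩ := uc_moser_sub ι 0 le_rfl
  obtain ⟨CM, hCM, HM⟩ := uc_moser ι (Real.sqrt cc) cc (Real.sqrt_nonneg _) hcc0
  set a4 : ℝ := (1 / 4 : ℝ) ^ (-(2 * Fintype.card ι : ℝ)) with ha4
  set a16 : ℝ := (1 / 16 : ℝ) ^ (-(2 * Fintype.card ι : ℝ)) with ha16
  have ha4p : 0 < a4 := Real.rpow_pos_of_pos (by norm_num) _
  have ha16p : 0 < a16 := Real.rpow_pos_of_pos (by norm_num) _
  set V0 : ℝ := (volume (Metric.closedBall (0 : CE ι) (1 / 16))).toReal with hV0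
  have hV0n : 0 ≤ V0 := ENNReal.toReal_nonneg
  set e2 : ℝ := CEn * (1 / 2 : ℝ)⁻¹ ^ 2 with he2
  set e8 : ℝ := CEn * (1 / 8 : ℝ)⁻¹ ^ 2 with he8
  have he2p : 0 < e2 := by positivity
  have he8p : 0 < e8 := by positivity
  set D1 : ℝ := C0 * (a4 * e2) with hD1
  set D2 : ℝ := CM * (a16 * (e8 * e2 + D1 * V0)) with hD2
  have hD1p : 0 < D1 := by positivity
  have hD2p : 0 < D2 := by positivity
  refine ⟨D1 + D2, by positivity, ?_⟩
  intro X k S K hB hK f hf
  have hk := hB.kahler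
  have hb := hB.bisec
  set u0 : CE ι → ℝ := fun y => ‖f y‖ ^ 2 with hu0
  set u1 : CE ι → ℝ := hfN1 X k f with hu1
  set u2 : CE ι → ℝ := hfN2 X k f with hu2
  set I0 : ℝ := ∫ y in Metric.closedBall (0 : CE ι) (1 / 2), u0 y with hI0
  have hs0 : X.Smooth u0 := hf.smooth_normSq
  have hs1 : X.Smooth u1 := smooth_hfN1 hk hf
  have hs2 : X.Smooth u2 := smooth_hfN2 hk hf
  have hmem : ∀ {ρ : ℝ}, ρ ≤ 1 → ∀ x ∈ Metric.ball (0 : CE ι) ρ, x ∈ X.carrier := by
    intro ρ hρ x hx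
    rw [hB.carrier_eq]
    exact Metric.ball_subset_ball hρ hx
  have hn1 : ∀ x ∈ X.carrier, 0 ≤ u1 x := fun x hx => hfN1_nonneg hk hx
  have hn2 : ∀ x ∈ X.carrier, 0 ≤ u2 x := fun x hx => hfN2_nonneg hk hx
  have hI0n : 0 ≤ I0 := setIntegral_nonneg measurableSet_closedBall fun y _ => sq_nonneg _
  have hint : ∀ {g : CE ι → ℝ}, X.Smooth g → ∀ ρ : ℝ, ρ < 1 →
      IntegrableOn g (Metric.closedBall (0 : CE ι) ρ) := by
    intro g hg ρ hρ
    exact (((hB.smooth_iff.1 hg).continuousOn).mono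
      (Metric.closedBall_subset_ball hρ)).integrableOn_compact (isCompact_closedBall 0 ρ)
  have hcb : ∀ {ρ : ℝ}, ρ < 1 → ∀ x ∈ Metric.closedBall (0 : CE ι) ρ, x ∈ X.carrier := by
    intro ρ hρ x hx
    rw [hB.carrier_eq]
    exact Metric.closedBall_subset_ball hρ hx
  -- energy 1
  have E1 := HE X k S K hB hK u0 u1 (1 / 2) (by norm_num) (by norm_num) hs0 hs1
    (fun x hx => ⟨sq_nonneg _, hn1 x (hmem (by norm_num) x hx),
      (lap_normSq_eq hk hf (hmem (by norm_num) x hx)).ge⟩)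
  rw [show (1 / 2 : ℝ) / 2 = 1 / 4 by norm_num] at E1
  set J1 : ℝ := ∫ y in Metric.closedBall (0 : CE ι) (1 / 4), u1 y with hJ1
  have hJ1n : 0 ≤ J1 :=
    setIntegral_nonneg measurableSet_closedBall fun y hy => hn1 y (hcb (by norm_num) y hy)
  have E1' : J1 ≤ e2 * I0 := E1
  -- Moser 1
  have M1 := H0 X k S K hB hK u1 1 le_rfl hs1 (fun x hx => hn1 x (hmem le_rfl x hx))
    (fun x hx => by
      have := hfN2_le_lap_hfN1 hk hb hf (hmem le_rfl x hx)
      have h2 := hn2 x (hmem le_rfl x hx)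
      simp only [neg_zero, zero_mul]
      exact h2.trans this)
    0 (1 / 4) (by norm_num) (by norm_num) (Metric.closedBall_subset_ball (by norm_num))
  rw [show (1 / 4 : ℝ) / 2 = 1 / 8 by norm_num] at M1
  set A1 : ℝ := C0 * (a4 * J1) with hA1
  have hA1n : 0 ≤ A1 := by positivity
  have hA1le : A1 ≤ D1 * I0 := by
    calc A1 = C0 * (a4 * J1) := rfl
      _ ≤ C0 * (a4 * (e2 * I0)) := by gcongr
      _ = D1 * I0 := by rw [hD1]; ring
  -- energy 2
  have E2 := HE X k S K hB hK u1 u2 (1 / 8) (by norm_num) (by norm_num) hs1 hs2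
    (fun x hx => ⟨hn1 x (hmem (by norm_num) x hx), hn2 x (hmem (by norm_num) x hx),
      hfN2_le_lap_hfN1 hk hb hf (hmem (by norm_num) x hx)⟩)
  rw [show (1 / 8 : ℝ) / 2 = 1 / 16 by norm_num] at E2
  set J2 : ℝ := ∫ y in Metric.closedBall (0 : CE ι) (1 / 16), u2 y with hJ2
  have hJ18 : ∫ y in Metric.closedBall (0 : CE ι) (1 / 8), u1 y ≤ J1 := by
    refine setIntegral_mono_set (hint hs1 _ (by norm_num)) ?_ ?_
    · filter_upwards [ae_restrict_mem measurableSet_closedBall] with y hy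
      exact hn1 y (hcb (by norm_num) y hy)
    · exact Filter.Eventually.of_forall fun y hy =>
        Metric.closedBall_subset_closedBall (by norm_num) hy
  have E2' : J2 ≤ e8 * e2 * I0 := by
    calc J2 ≤ e8 * ∫ y in Metric.closedBall (0 : CE ι) (1 / 8), u1 y := E2
      _ ≤ e8 * (e2 * I0) := by gcongr; exact hJ18.trans E1'
      _ = _ := by ring
  -- Moser 2
  have M2 : ∀ η : ℝ, 0 < η → ∀ x ∈ Metric.closedBall (0 : CE ι) (1 / 32),
      u2 x ≤ CM * (a16 * (J2 + A1 * V0)) + CM * a16 * V0 * η := by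
    intro η hη x hx
    set w : CE ι → ℝ := fun y => u2 y + (A1 + η) with hw
    have hws : X.Smooth w := hB.smooth_iff.2 ((hB.smooth_iff.1 hs2).add contDiffOn_const)
    have h18 : ∀ y ∈ Metric.ball (0 : CE ι) (1 / 8), u1 y ≤ A1 := fun y hy =>
      M1 y (Metric.ball_subset_closedBall hy)
    have hm := HM X k S K hB hK w (hfY k f) (1 / 8) (by norm_num) hws (isVField_hfY hk hf)
      (fun y hy => by
        have := hn2 y (hmem (by norm_num) y hy)
        simp only [hw]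
        linarith)
      (fun Ψ U hΨ z hz hzb => by
        have hzc := hmem (by norm_num) _ hzb
        have q := qf_hfY_le hk hb hf hΨ hz
        have sc := uci_scal hB hK (hB.mem_carrier_iff.1 hzc)
        have a1 := hn1 _ hzc
        have a2 := hn2 _ hzc
        have a3 := h18 _ hzb
        rw [Real.sq_sqrt hcc0]
        have b1 : 4 * (Fintype.card ι : ℝ) ^ 3 * scalCurv X k (Ψ z) ^ 2 * u1 (Ψ z) * u2 (Ψ z)
            ≤ cc * A1 * u2 (Ψ z) := by
          gcongr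
        have b2 : A1 * u2 (Ψ z) ≤ w (Ψ z) ^ 2 := by
          simp only [hw]
          nlinarith
        calc qf (k Ψ z) (hfY k f Ψ z) ≤ cc * A1 * u2 (Ψ z) := q.trans b1
          _ = cc * (A1 * u2 (Ψ z)) := by ring
          _ ≤ cc * w (Ψ z) ^ 2 := by gcongr)
      (fun Ψ U hΨ z hz hzb => by
        have hzc := hmem (by norm_num) _ hzb
        have q := le_lapP_hfN2 hk hb hf hΨ hz
        have sc := uci_scal hB hK (hB.mem_carrier_iff.1 hzc)
        have a1 := hn1 _ hzc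
        have a2 := hn2 _ hzc
        have a3 := h18 _ hzb
        have e1 : lapP (k Ψ z) (w ∘ Ψ) z = lapP (k Ψ z) (u2 ∘ Ψ) z :=
          lapP_add_const (f := u2 ∘ Ψ) (k Ψ z) (A1 + η)
        have e2 : divF k (hfY k f) Ψ z = bcDiv (k Ψ) (hfY k f Ψ) z := rfl
        rw [e1, e2]
        have b1 : 4 * (Fintype.card ι : ℝ) ^ 3 * scalCurv X k (Ψ z) ^ 2 * u1 (Ψ z)
            ≤ cc * w (Ψ z) := by
          have : u1 (Ψ z) ≤ w (Ψ z) := by simp only [hw]; linarith
          gcongr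
        linarith)
      0 (1 / 16) (by norm_num) (by norm_num) (Metric.closedBall_subset_ball (by norm_num)) x
      (by rw [show (1 / 16 : ℝ) / 2 = 1 / 32 by norm_num]; exact hx)
    have e3 : ∫ y in Metric.closedBall (0 : CE ι) (1 / 16), w y = J2 + (A1 + η) * V0 := by
      rw [integral_add (hint hs2 _ (by norm_num)) (integrableOn_const (by
        exact (isCompact_closedBall (0 : CE ι) (1 / 16)).measure_lt_top.ne)),
        setIntegral_const, smul_eq_mul, mul_comm (volume.real _)]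
      rfl
    rw [e3] at hm
    have : u2 x ≤ w x := by simp only [hw]; linarith
    calc u2 x ≤ CM * (a16 * (J2 + (A1 + η) * V0)) := this.trans hm
      _ = _ := by ring
  intro x hx
  have hx8 : x ∈ Metric.closedBall (0 : CE ι) (1 / 8) :=
    Metric.closedBall_subset_closedBall (by norm_num) hx
  have hx32 : x ∈ Metric.closedBall (0 : CE ι) (1 / 32) :=
    Metric.closedBall_subset_closedBall (by norm_num) hx
  constructor
  · calc u1 x ≤ A1 := M1 x hx8
      _ ≤ D1 * I0 := hA1le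
      _ ≤ (D1 + D2) * I0 := by gcongr; linarith
  · have h1 : u2 x ≤ CM * (a16 * (J2 + A1 * V0)) :=
      uci_limit (by positivity) fun η hη => M2 η hη x hx32
    calc u2 x ≤ CM * (a16 * (J2 + A1 * V0)) := h1
      _ ≤ CM * (a16 * (e8 * e2 * I0 + D1 * I0 * V0)) := by gcongr
      _ = D2 * I0 := by rw [hD2]; ring
      _ ≤ (D1 + D2) * I0 := by gcongr; linarith

end chain

end Claimed.Agent.R316
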