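import Claimed.Agent.R316.Base.Chart.Dbar
import Claimed.Agent.R316.Base.Chart.Interior
import Claimed.Agent.R316.CM.Std

/-!
# `BP-G14` part E: from `L²`-closeness to a holomorphic chart of definite size on a `GoodBall`

Architect: helper195.  PAPER FREE.  `hB : GoodBall X k S K`; `f a` (`a : ι`) holomorphic on `X`, `F = ucVec f : x ↦ (f_a(x))_a`.
RESULT `uc_chart_of_goodBall` (PROVED below from the leaves): there are `ε₀, r₂ > 0` depending only on `ι` such that every `GoodBall` with `K ≤ ε₀` carries an immersed holomorphic chart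
`G : ball 0 r₂ → X`, `G 0 = 0`, with `(8/25) ≤ k G w ≤ (32/9)`.

## Leaves (sections)
* `G14-E1` (section `realch`): the invariants `hfN1`, `hfN2` control the REAL differential and the REAL Hessian of `f` in the real chart of the ball.
* `G14-E2` (section `supl2`): Lipschitz + small `L²` norm ⟹ small sup norm.  MATHLIB ONLY.
* `G14-E3` (section `close`): `dF` is close to the identity near `0`.
* `G14-E4` (section `assemble`): choice of the constants (`uc_fderiv_close`).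
* `G14-E5` (section `invreal`): quantitative inverse function theorem for `‖dF - id‖ ≤ 1/4` on a ball.  MATHLIB ONLY.
* `G14-E6` (section `invhol`): the inverse of `F` is an immersed holomorphic chart of `X`; metric bounds.

## RECIPES
**E1.**  Fix `x`, `‖x‖ < 1`; `hB.exists_chart`: `Ψ, U, z`, `Ψ z = x`; `b = dΨ_z v`, `a = dΨ_z u` (`hB.surj`).  `f` is real differentiable at `x` (`hB.contDiffOn_of_holFun`, the ball is o-p-e-n), so `fderiv ℝ (f ∘ Ψ) z v = fderiv ℝ f x b` (`fderiv_comp`).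
`norm_fderiv_sq_le_bcN1 (hB.kahler.isKMat hΨ) (hf Ψ U hΨ) hz v`, `hfN1_param`, `hB.qf_eq`.  Hessian: `(hB.isom Ψ U hΨ).hess` (`kgeo k Ψ U = matGeo (k Ψ) U`, `kgeo_isRiem`/`matGeo_isRiem`, `hB.radial.riem`) with `u = Re f`:
`(kgeo).hess (fun y => (f (Ψ y)).re) z u v = S.hess (Re f) x a b`; `abs_matGeo_hess_re_le`; `IsIsom.nrm`; `hfN2_param`.
**E2.**  `s = min (R/2) (η / (2 Λ + 1))`, `δ = (η²/8) vol (ball 0 s)` (`> 0`, finite: `Metric.measure_ball_pos`, `measure_ball_lt_top`; `vol (ball x s) = vol (ball 0 s)`: `Measure.addHaar_ball_center`/`measure_preimage_add`).  If `‖v x‖ > η` at some `‖x‖ ≤ R/2` then `ball x s ⊆ ball 0 R`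
and `‖v y‖ ≥ η - Λ s ≥ η/2` there, so `∫_{ball 0 R} ‖v‖² ≥ ∫_{ball x s} ‖v‖² ≥ (η²/4) vol (ball 0 s) > δ` (`setIntegral_mono_set`, `setIntegral_mono_on`/`setIntegral_ge_of_const_le`).
**E3.**  Put `m = √M₁` (`M₁ ≥ 0` wlog: replace `M₁` by `max M₁ 0`), `N = card ι`.  CHOICE: `θ > 0`, `r₁ ≤ 1/128` with `√N (θ + 2 m r₁ + 2 m r₁²) ≤ 1/4`; `s ≤ 1/128` with `m s ≤ θ/2`; `η = θ s / 4`; `δ` from `uc_sup_of_L2` with `R = 1/64`, `Λ = 1 + 2 m`, `η`.
(i) `v_a x = x a - f a x` is `Λ`-Lipschitz on `ball 0 (1/64)`: `‖d(f a)_x b‖² ≤ M₁ · 2 ‖b‖²` (`norm_fderiv_sq_le`, `hB.G_le`), `Convex.norm_image_sub_le_of_norm_fderiv_le`.  (ii) `‖v_a‖ ≤ η` on `closedBall 0 (1/128)` (monotonicity of the integral in the domain).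
(iii) `L_a b = b a - d(f a)_0 b`.  For `‖x‖ ≤ 1/64`: `L_a x = v_a x - v_a 0 + (f a x - f a 0 - d(f a)_0 x)`; real and imaginary part of the bracket are `≤ m ‖x‖²/2` (`hB.radial.abs_taylor_le` with `M = m`, `abs_hess_re_le`, `abs_hess_im_le`, `Real.sqrt_le_sqrt`;
`fderiv ℝ (fun y => (f y).re) 0 x = (fderiv ℝ f 0 x).re`).  For `‖x‖ = s`: `‖L_a x‖ ≤ 2 η + m s² ≤ θ s`; by homogeneity `‖L_a b‖ ≤ θ ‖b‖`.
(iv) `‖x‖ < r₁`, `b' = S.ptr x b` (`hB.radial.isPT_ptr`): `d(f a)_x b - b a = d(f a)_x (b - b') + (d(f a)_x b' - d(f a)_0 b) - L_a b`; first term `≤ √(2 M₁) (2/7) ‖x‖² ‖b‖` (`IsPT.norm_sub_le`, `K ≤ 1`), second `≤ 2 m ‖x‖ ‖b‖` (`IsPT.abs_fderiv_sub_le` for `Re`, `Im`).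
(v) `‖dF_x b - b‖² = ∑_a |d(f a)_x b - b a|²` (`EuclideanSpace.norm_sq_eq`, `fderiv_ucVec_apply`); `ContinuousLinearMap.opNorm_le_bound`.
**E4.**  `C₀` from `uc_exists_hol_coords`, `C₁` from `uc_interior`, `v₁ = vol (ball 0 1)`; `M₁ = C₁ (2 v₁ + 2 C₀)`; `δ, r₁` from `uc_fderiv_close_of ι M₁`; `ε₀ = min (1/3) √(δ/C₀)`.  `‖f a y‖² ≤ 2 ‖y a‖² + 2 ‖y a - f a y‖²`, `‖y a‖ ≤ ‖y‖ ≤ 1`, `closedBall 0 (1/2) ⊆ ball 0 1`; `C₀ K² ≤ min C₀ δ`.
**E5.**  `g = F - id` has `‖dg‖ ≤ 1/4` on the convex ball: `‖g x - g y‖ ≤ (1/4) ‖x - y‖` (`Convex.norm_image_sub_le_of_norm_fderiv_le`), i.e. `ApproximatesLinearOn F (ContinuousLinearEquiv.refl ℝ _ : _ →L[ℝ] _) (ball 0 r) (1/4)`.  Injectivity: `‖F x - F y‖ ≥ (3/4) ‖x - y‖`.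
Surjectivity: `ApproximatesLinearOn.surjOn_closedBall_of_nonlinearRightInverse` on `closedBall 0 (5r/6) ⊆ ball 0 r` (or Banach fixed point for `x ↦ F 0 + w - g x`): the image contains `closedBall (F 0) ((3/4)(5r/6))`.
**E6.**  `G = ucInv f r`, `F (G w) = F 0 + w`, `G w ∈ ball 0 r` (`uc_surj_of_close`, `Function.invFunOn_mem/_eq`), `G 0 = 0` (injectivity).  Fix `w₀`, `x₀ = G w₀`, chart `Ψ, U, z₀` at `x₀`; `U₁ = U ∩ Ψ⁻¹ (ball 0 r)` o-p-e-n; `Θ = F ∘ Ψ` is holomorphic on `U₁` (components `f a ∘ Ψ`; `differentiableOn_euclidean`/`differentiableOn_pi` via `PiLp`),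
injective on `U₁`, with injective complex differential (`fderiv ℝ Θ z = dF ∘ dΨ`, both injective; `fderiv ℂ` restricts to `fderiv ℝ`): `StdHol univ Θ U₁`.  `τ w = invFunOn Θ U₁ (F 0 + w)` on `U' = {w ∈ ball 0 (r/2) | F 0 + w ∈ Θ '' U₁}` (o-p-e-n: `StdHol.isOpen_image`): holomorphic
(`StdHol.differentiableOn_invFunOn` composed with a translation), injective, `dτ` injective (`Θ ∘ τ = F 0 + ·`, chain rule), maps `U'` into `U₁ ⊆ U`.  `X.reparam hΨ τ U' ..` and `X.congr`: `Ψ (τ w) = G w` on `U'` (both are the unique point of `ball 0 r` with `F = F 0 + w`).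
Bounds: `hB.qf_eq` for the chart `G` on `U'`: `qf (k G w) v = S.G (G w) (dG_w v) (dG_w v)`; `dF_{G w} (dG_w v) = v` (chain rule for `F ∘ G = F 0 + ·`; `G` is differentiable at `w`: `IsParam.smooth`); `(4/5) ‖v‖ ≤ ‖dG_w v‖ ≤ (4/3) ‖v‖` (`uc_norm_fderiv_bounds`); `hB.le_G`, `hB.G_le`; `uc_cI_le_iff`, `uc_le_cI_iff`
(Hermitian: `hB.kahler.herm`).
-/

set_option autoImplicit false
set_option linter.unusedSectionVars false
set_option maxSynthPendingDepth 3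
open scoped ContDiff Topology ComplexOrder
open MeasureTheory

namespace Claimed.Agent.R316

variable {ι : Type} [Fintype ι] [DecidableEq ι]
variable {X : CMfd (CE ι) ι} {k : HFam (CE ι) ι} {S : RGeo (CE ι)} {K : ℝ}
variable {x : CE ι}

/-- the map `x ↦ (f_a(x))_a`. -/
noncomputable def ucVec (f : ι → CE ι → ℂ) (x : CE ι) : CE ι := WithLp.toLp 2 fun a => f a x

/-- the inverse of `ucVec f` on `ball 0 r`, recentred. -/
noncomputable def ucInv (f : ι → CE ι → ℂ) (r : ℝ) (w : CE ι) : CE ι :=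
  Function.invFunOn (ucVec f) (Metric.ball 0 r) (ucVec f 0 + w)

theorem ucVec_apply (f : ι → CE ι → ℂ) (x : CE ι) (a : ι) : ucVec f x a = f a x := rfl

theorem uc_cI_le_iff {A : Matrix ι ι ℂ} (hA : A.IsHermitian) (c : ℝ) :
    leM (cI c) A ↔ ∀ v : CE ι, c * ‖v‖ ^ 2 ≤ qf A v := by
  have hH : (A - cI c).IsHermitian := by
    refine hA.sub ?_
    unfold cI
    rw [Matrix.IsHermitian, Matrix.conjTranspose_smul, Matrix.conjTranspose_one]
    simp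
  unfold leM
  rw [posSemidef_iff_qf hH]
  have key : ∀ v : ι → ℂ, qf (A - cI c) v = qf A v - c * ‖(WithLp.toLp 2 v : CE ι)‖ ^ 2 := by
    intro v
    rw [qf_sub, cI, qf_smul, qf_one, EuclideanSpace.norm_sq_eq]
  constructor
  · intro H v
    have := H v
    rw [key] at this
    have e : (WithLp.toLp 2 (v : ι → ℂ) : CE ι) = v := rfl
    rw [e] at this
    linarith
  · intro H v
    rw [key]
    have := H (WithLp.toLp 2 v)
    have e : qf A ((WithLp.toLp 2 v : CE ι) : ι → ℂ) = qf A v := rfl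
    rw [e] at this
    linarith

theorem uc_le_cI_iff {A : Matrix ι ι ℂ} (hA : A.IsHermitian) (c : ℝ) :
    leM A (cI c) ↔ ∀ v : CE ι, qf A v ≤ c * ‖v‖ ^ 2 := by
  have hH : (cI c - A).IsHermitian := by
    refine Matrix.IsHermitian.sub ?_ hA
    unfold cI
    rw [Matrix.IsHermitian, Matrix.conjTranspose_smul, Matrix.conjTranspose_one]
    simp
  unfold leM
  rw [posSemidef_iff_qf hH]
  have key : ∀ v : ι → ℂ, qf (cI c - A) v = c * ‖(WithLp.toLp 2 v : CE ι)‖ ^ 2 - qf A v := by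
    intro v
    rw [qf_sub, cI, qf_smul, qf_one, EuclideanSpace.norm_sq_eq]
  constructor
  · intro H v
    have := H v
    rw [key] at this
    have e : (WithLp.toLp 2 (v : ι → ℂ) : CE ι) = v := rfl
    rw [e] at this
    linarith
  · intro H v
    rw [key]
    have := H (WithLp.toLp 2 v)
    have e : qf A ((WithLp.toLp 2 v : CE ι) : ι → ℂ) = qf A v := rfl
    rw [e] at this
    linarith

section realch

variable {f : CE ι → ℂ}

theorem GoodBall.uc_contDiffAt (hB : GoodBall X k S K) (hf : X.HolFun f) (hx : ‖x‖ < 1) :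
    ContDiffAt ℝ ∞ f x := by
  have hx' : x ∈ Metric.ball (0 : CE ι) 1 := by simpa using hx
  exact (hB.contDiffOn_of_holFun hf x hx').contDiffAt (Metric.isOpen_ball.mem_nhds hx')

theorem GoodBall.norm_fderiv_sq_le (hB : GoodBall X k S K) (hf : X.HolFun f) (hx : ‖x‖ < 1)
    (b : CE ι) : ‖fderiv ℝ f x b‖ ^ 2 ≤ hfN1 X k f x * S.G x b b := by
  obtain ⟨Ψ, U, z, hΨ, hz, rfl⟩ := hB.exists_chart hx
  obtain ⟨v, rfl⟩ := hB.surj hΨ hz b
  have hP := X.isParam hΨ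
  have hdΨ : DifferentiableAt ℝ Ψ z := (hP.contDiffAt hz).differentiableAt (by simp)
  have hdf : DifferentiableAt ℝ f (Ψ z) := (GoodBall.uc_contDiffAt hB hf hx).differentiableAt (by simp)
  have hchain : fderiv ℝ (f ∘ Ψ) z v = fderiv ℝ f (Ψ z) (fderiv ℝ Ψ z v) := by
    rw [fderiv_comp z hdf hdΨ]
    rfl
  have h1 := norm_fderiv_sq_le_bcN1 (hB.kahler.isKMat hΨ) (hf Ψ U hΨ) hz v
  rw [hchain, ← hfN1_param hB.kahler hf hΨ hz, hB.qf_eq hΨ hz v] at h1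
  exact h1

theorem GoodBall.abs_hess_re_le (hB : GoodBall X k S K) (hf : X.HolFun f) (hx : ‖x‖ < 1)
    (a b : CE ι) :
    |S.hess (fun y => (f y).re) x a b| ≤ Real.sqrt (hfN2 X k f x) * (S.nrm x a * S.nrm x b) := by
  obtain ⟨Ψ, U, z, hΨ, hz, rfl⟩ := hB.exists_chart hx
  obtain ⟨u, rfl⟩ := hB.surj hΨ hz a
  obtain ⟨v, rfl⟩ := hB.surj hΨ hz b
  have hiso := hB.isom Ψ U hΨ
  have hzU : z ∈ (kgeo k Ψ U).U := hz
  have hu2 : ContDiffAt ℝ 2 (fun y => (f y).re) (Ψ z) :=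
    (Complex.reCLM.contDiff.contDiffAt.comp _ (GoodBall.uc_contDiffAt hB hf hx)).of_le (by norm_cast)
  have h1 := hiso.hess (kgeo_isRiem hB.kahler hΨ) hB.radial.riem hzU hu2 u v
  have h2 := abs_matGeo_hess_re_le (hB.kahler.isKMat hΨ) (hf Ψ U hΨ) hz u v
  rw [← h1, hiso.nrm hzU, hiso.nrm hzU, hfN2_param hB.kahler hf hΨ hz]
  exact h2

theorem GoodBall.abs_hess_im_le (hB : GoodBall X k S K) (hf : X.HolFun f) (hx : ‖x‖ < 1)
    (a b : CE ι) :
    |S.hess (fun y => (f y).im) x a b| ≤ Real.sqrt (hfN2 X k f x) * (S.nrm x a * S.nrm x b) := by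
  obtain ⟨Ψ, U, z, hΨ, hz, rfl⟩ := hB.exists_chart hx
  obtain ⟨u, rfl⟩ := hB.surj hΨ hz a
  obtain ⟨v, rfl⟩ := hB.surj hΨ hz b
  have hiso := hB.isom Ψ U hΨ
  have hzU : z ∈ (kgeo k Ψ U).U := hz
  have hu2 : ContDiffAt ℝ 2 (fun y => (f y).im) (Ψ z) :=
    (Complex.imCLM.contDiff.contDiffAt.comp _ (GoodBall.uc_contDiffAt hB hf hx)).of_le (by norm_cast)
  have h1 := hiso.hess (kgeo_isRiem hB.kahler hΨ) hB.radial.riem hzU hu2 u v
  have h2 := abs_matGeo_hess_im_le (hB.kahler.isKMat hΨ) (hf Ψ U hΨ) hz u v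
  rw [← h1, hiso.nrm hzU, hiso.nrm hzU, hfN2_param hB.kahler hf hΨ hz]
  exact h2

end realch

section supl2

/-- Lipschitz + small `L²` norm ⟹ small sup norm. -/
theorem uc_sup_of_L2 (ι : Type) [Fintype ι] (R Λ η : ℝ) (hR : 0 < R) (hΛ : 0 ≤ Λ) (hη : 0 < η) :
    ∃ δ : ℝ, 0 < δ ∧ ∀ v : CE ι → ℂ,
      (∀ x ∈ Metric.ball (0 : CE ι) R, ∀ y ∈ Metric.ball (0 : CE ι) R,
        ‖v x - v y‖ ≤ Λ * ‖x - y‖) →
      IntegrableOn (fun x => ‖v x‖ ^ 2) (Metric.ball 0 R) →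
      ∫ x in Metric.ball (0 : CE ι) R, ‖v x‖ ^ 2 ≤ δ →
      ∀ x ∈ Metric.closedBall (0 : CE ι) (R / 2), ‖v x‖ ≤ η := by
  obtain ⟨s, hs⟩ : ∃ s, s = min (R / 2) (η / (2 * Λ + 1)) := ⟨_, rfl⟩
  have hs0 : 0 < s := by
    rw [hs]
    exact lt_min (by positivity) (by positivity)
  have hsR : s ≤ R / 2 := hs ▸ min_le_left _ _
  have hsη : s ≤ η / (2 * Λ + 1) := hs ▸ min_le_right _ _
  have hΛs : Λ * s ≤ η / 2 := by
    have h1 : s * (2 * Λ + 1) ≤ η := by rwa [le_div_iff₀ (by positivity)] at hsη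
    nlinarith
  have hvol_pos : 0 < (volume (Metric.ball (0 : CE ι) s)).toReal :=
    ENNReal.toReal_pos (Metric.measure_ball_pos volume _ hs0).ne' measure_ball_lt_top.ne
  refine ⟨η ^ 2 / 8 * (volume (Metric.ball (0 : CE ι) s)).toReal, by positivity, ?_⟩
  intro v hlip hint hle x hx
  by_contra hcon
  push Not at hcon
  have hx' : ‖x‖ ≤ R / 2 := by simpa using hx
  have hxR : x ∈ Metric.ball (0 : CE ι) R := by
    rw [mem_ball_zero_iff]; linarith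
  have hsub : Metric.ball x s ⊆ Metric.ball (0 : CE ι) R := by
    intro y hy
    rw [mem_ball_iff_norm] at hy
    rw [mem_ball_zero_iff]
    calc ‖y‖ = ‖(y - x) + x‖ := by rw [sub_add_cancel]
      _ ≤ ‖y - x‖ + ‖x‖ := norm_add_le _ _
      _ < R := by linarith
  have hlow : ∀ y ∈ Metric.ball x s, η ^ 2 / 4 ≤ ‖v y‖ ^ 2 := by
    intro y hy
    have hy' : ‖y - x‖ < s := by rwa [mem_ball_iff_norm] at hy
    have h1 := hlip x hxR y (hsub hy)
    have h2 : ‖v x‖ ≤ ‖v x - v y‖ + ‖v y‖ := by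
      calc ‖v x‖ = ‖(v x - v y) + v y‖ := by rw [sub_add_cancel]
        _ ≤ _ := norm_add_le _ _
    have h3 : Λ * ‖x - y‖ ≤ Λ * s := by
      rw [norm_sub_rev]
      exact mul_le_mul_of_nonneg_left hy'.le hΛ
    have h4 : η / 2 ≤ ‖v y‖ := by linarith
    calc η ^ 2 / 4 = (η / 2) ^ 2 := by ring
      _ ≤ ‖v y‖ ^ 2 := pow_le_pow_left₀ (by positivity) h4 2
  have h1 : ∫ y in Metric.ball x s, ‖v y‖ ^ 2 ≤ ∫ y in Metric.ball (0 : CE ι) R, ‖v y‖ ^ 2 :=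
    setIntegral_mono_set hint (Filter.Eventually.of_forall fun y => by positivity)
      (Filter.Eventually.of_forall hsub)
  have h2 := setIntegral_ge_of_const_le (μ := (volume : Measure (CE ι))) measurableSet_ball
    measure_ball_lt_top.ne hlow (hint.mono_set hsub)
  rw [Measure.real, Measure.addHaar_ball_center, smul_eq_mul] at h2
  have h3 : 0 < (volume (Metric.ball (0 : CE ι) s)).toReal * η ^ 2 := by positivity
  linarith

end supl2

section close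

theorem uc_hasFDerivAt_ucVec {f : ι → CE ι → ℂ} (hf : ∀ a, DifferentiableAt ℝ (f a) x) :
    HasFDerivAt (ucVec f)
      ((EuclideanSpace.equiv ι ℂ).symm.toContinuousLinearMap.restrictScalars ℝ ∘L
        (ContinuousLinearMap.pi fun a => fderiv ℝ (f a) x)) x := by
  have h1 : HasFDerivAt (fun y => fun a => f a y) (ContinuousLinearMap.pi fun a => fderiv ℝ (f a) x) x :=
    hasFDerivAt_pi.2 fun a => (hf a).hasFDerivAt
  exact ((EuclideanSpace.equiv ι ℂ).symm.toContinuousLinearMap.restrictScalars ℝ).hasFDerivAt.comp x h1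

theorem fderiv_ucVec_apply {f : ι → CE ι → ℂ} (hf : ∀ a, DifferentiableAt ℝ (f a) x) (b : CE ι)
    (a : ι) : fderiv ℝ (ucVec f) x b a = fderiv ℝ (f a) x b := by
  rw [(uc_hasFDerivAt_ucVec hf).fderiv]
  rfl

theorem differentiableAt_ucVec {f : ι → CE ι → ℂ} (hf : ∀ a, DifferentiableAt ℝ (f a) x) :
    DifferentiableAt ℝ (ucVec f) x := by
  exact (uc_hasFDerivAt_ucVec hf).differentiableAt

theorem GoodBall.uc_cd (hB : GoodBall X k S K) {f : CE ι → ℂ} (hf : X.HolFun f) (hx : ‖x‖ < 1) :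
    ContDiffAt ℝ ∞ f x := by
  have hx' : x ∈ Metric.ball (0 : CE ι) 1 := by simpa using hx
  exact (hB.contDiffOn_of_holFun hf x hx').contDiffAt (Metric.isOpen_ball.mem_nhds hx')

/-- (i) the differential of `f` is bounded by `2 m`. -/
theorem GoodBall.uc_close_lip (hB : GoodBall X k S K) (hK : K ≤ 1) {f : CE ι → ℂ} (hf : X.HolFun f)
    {m : ℝ} (hm : 0 ≤ m) (hx : ‖x‖ < 1) (h1 : hfN1 X k f x ≤ m ^ 2) (b : CE ι) :
    ‖fderiv ℝ f x b‖ ≤ 2 * m * ‖b‖ := by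
  have h2 := hB.norm_fderiv_sq_le hf hx b
  have h3 := hB.G_le hK hx b
  have h4 := hB.le_G hK hx b
  have h5 : 0 ≤ S.G x b b := le_trans (by positivity) h4
  have h6 : ‖fderiv ℝ f x b‖ ^ 2 ≤ (2 * m * ‖b‖) ^ 2 := by
    calc ‖fderiv ℝ f x b‖ ^ 2 ≤ hfN1 X k f x * S.G x b b := h2
      _ ≤ m ^ 2 * S.G x b b := mul_le_mul_of_nonneg_right h1 h5
      _ ≤ m ^ 2 * (2 * ‖b‖ ^ 2) := mul_le_mul_of_nonneg_left h3 (by positivity)
      _ ≤ (2 * m * ‖b‖) ^ 2 := by nlinarith [mul_nonneg (sq_nonneg m) (sq_nonneg ‖b‖)]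
  exact (pow_le_pow_iff_left₀ (norm_nonneg _) (by positivity) two_ne_zero).1 h6

theorem uc_fderiv_re {f : CE ι → ℂ} (hf : DifferentiableAt ℝ f x) (b : CE ι) :
    fderiv ℝ (fun y => (f y).re) x b = (fderiv ℝ f x b).re := by
  have h := (Complex.reCLM.hasFDerivAt (x := f x)).comp x hf.hasFDerivAt
  have h2 : fderiv ℝ (fun y => (f y).re) x = Complex.reCLM.comp (fderiv ℝ f x) := h.fderiv
  rw [h2]
  rfl

theorem uc_fderiv_im {f : CE ι → ℂ} (hf : DifferentiableAt ℝ f x) (b : CE ι) :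
    fderiv ℝ (fun y => (f y).im) x b = (fderiv ℝ f x b).im := by
  have h := (Complex.imCLM.hasFDerivAt (x := f x)).comp x hf.hasFDerivAt
  have h2 : fderiv ℝ (fun y => (f y).im) x = Complex.imCLM.comp (fderiv ℝ f x) := h.fderiv
  rw [h2]
  rfl

theorem GoodBall.uc_cd_re (hB : GoodBall X k S K) {f : CE ι → ℂ} (hf : X.HolFun f) :
    ContDiffOn ℝ 2 (fun y => (f y).re) S.U := by
  rw [hB.U_eq]
  exact (Complex.reCLM.contDiff.comp_contDiffOn (hB.contDiffOn_of_holFun hf)).of_le (by norm_cast)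

theorem GoodBall.uc_cd_im (hB : GoodBall X k S K) {f : CE ι → ℂ} (hf : X.HolFun f) :
    ContDiffOn ℝ 2 (fun y => (f y).im) S.U := by
  rw [hB.U_eq]
  exact (Complex.imCLM.contDiff.comp_contDiffOn (hB.contDiffOn_of_holFun hf)).of_le (by norm_cast)

theorem uc_ray_mem {ρ : ℝ} (hx : ‖x‖ ≤ ρ) {t : ℝ} (ht : t ∈ Set.Icc (0 : ℝ) 1) : ‖t • x‖ ≤ ρ := by
  rw [norm_smul, Real.norm_of_nonneg ht.1]
  calc t * ‖x‖ ≤ 1 * ‖x‖ := mul_le_mul_of_nonneg_right ht.2 (norm_nonneg _)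
    _ ≤ ρ := by linarith

/-- Hessian bounds along the ray. -/
theorem GoodBall.uc_close_hess (hB : GoodBall X k S K) {f : CE ι → ℂ} (hf : X.HolFun f)
    {m : ℝ} (hm : 0 ≤ m) (h2 : ∀ y ∈ Metric.closedBall (0 : CE ι) (1 / 64), hfN2 X k f y ≤ m ^ 2)
    (hx : ‖x‖ ≤ 1 / 64) :
    (∀ t ∈ Set.Icc (0 : ℝ) 1, ∀ a b, |S.hess (fun y => (f y).re) (t • x) a b| ≤
      m * (S.nrm (t • x) a * S.nrm (t • x) b)) ∧
    (∀ t ∈ Set.Icc (0 : ℝ) 1, ∀ a b, |S.hess (fun y => (f y).im) (t • x) a b| ≤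
      m * (S.nrm (t • x) a * S.nrm (t • x) b)) := by
  have key : ∀ t ∈ Set.Icc (0 : ℝ) 1, ‖t • x‖ < 1 ∧ Real.sqrt (hfN2 X k f (t • x)) ≤ m := by
    intro t ht
    have h3 := uc_ray_mem hx ht
    refine ⟨by linarith, Real.sqrt_le_iff.2 ⟨hm, h2 _ (by simpa using h3)⟩⟩
  constructor
  · intro t ht a b
    obtain ⟨h3, h4⟩ := key t ht
    exact (hB.abs_hess_re_le hf h3 a b).trans
      (mul_le_mul_of_nonneg_right h4 (mul_nonneg (S.nrm_nonneg _ _) (S.nrm_nonneg _ _)))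
  · intro t ht a b
    obtain ⟨h3, h4⟩ := key t ht
    exact (hB.abs_hess_im_le hf h3 a b).trans
      (mul_le_mul_of_nonneg_right h4 (mul_nonneg (S.nrm_nonneg _ _) (S.nrm_nonneg _ _)))

/-- (iii) first order Taylor formula. -/
theorem GoodBall.uc_close_taylor (hB : GoodBall X k S K) {f : CE ι → ℂ} (hf : X.HolFun f)
    {m : ℝ} (hm : 0 ≤ m) (h2 : ∀ y ∈ Metric.closedBall (0 : CE ι) (1 / 64), hfN2 X k f y ≤ m ^ 2)
    (hx : ‖x‖ ≤ 1 / 64) : ‖f x - f 0 - fderiv ℝ f 0 x‖ ≤ m * ‖x‖ ^ 2 := by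
  obtain ⟨hre, him⟩ := GoodBall.uc_close_hess hB hf hm h2 hx
  have hxU : x ∈ S.U := hB.mem_U_iff.2 (by linarith)
  have hd0 : DifferentiableAt ℝ f 0 := (GoodBall.uc_cd hB hf (by simp)).differentiableAt (by simp)
  have t1 := hB.radial.abs_taylor_le hxU (GoodBall.uc_cd_re hB hf) hre
  have t2 := hB.radial.abs_taylor_le hxU (GoodBall.uc_cd_im hB hf) him
  rw [uc_fderiv_re hd0] at t1
  rw [uc_fderiv_im hd0] at t2
  have h3 := Complex.norm_le_abs_re_add_abs_im (f x - f 0 - fderiv ℝ f 0 x)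
  simp only [Complex.sub_re, Complex.sub_im] at h3
  linarith

/-- (iv) the differential in parallel frames. -/
theorem GoodBall.uc_close_pt (hB : GoodBall X k S K) {f : CE ι → ℂ} (hf : X.HolFun f)
    {m : ℝ} (hm : 0 ≤ m) (h2 : ∀ y ∈ Metric.closedBall (0 : CE ι) (1 / 64), hfN2 X k f y ≤ m ^ 2)
    (hx : ‖x‖ ≤ 1 / 64) {e e' : CE ι} (hpt : S.IsPT x e e') :
    ‖fderiv ℝ f x e' - fderiv ℝ f 0 e‖ ≤ 2 * m * (‖x‖ * ‖e‖) := by
  obtain ⟨hre, him⟩ := GoodBall.uc_close_hess hB hf hm h2 hx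
  have hxU : x ∈ S.U := hB.mem_U_iff.2 (by linarith)
  have hd0 : DifferentiableAt ℝ f 0 := (GoodBall.uc_cd hB hf (by simp)).differentiableAt (by simp)
  have hdx : DifferentiableAt ℝ f x := (GoodBall.uc_cd hB hf (by linarith)).differentiableAt (by simp)
  have t1 := hpt.abs_fderiv_sub_le hB.radial hxU (GoodBall.uc_cd_re hB hf) hre
  have t2 := hpt.abs_fderiv_sub_le hB.radial hxU (GoodBall.uc_cd_im hB hf) him
  rw [uc_fderiv_re hd0, uc_fderiv_re hdx] at t1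
  rw [uc_fderiv_im hd0, uc_fderiv_im hdx] at t2
  have h3 := Complex.norm_le_abs_re_add_abs_im (fderiv ℝ f x e' - fderiv ℝ f 0 e)
  simp only [Complex.sub_re, Complex.sub_im] at h3
  linarith

/-- (iii) the differential at the centre. -/
theorem GoodBall.uc_close_L (hB : GoodBall X k S K) {f : CE ι → ℂ} (hf : X.HolFun f) (a : ι)
    {m η s θ : ℝ} (hm : 0 ≤ m) (h2 : ∀ y ∈ Metric.closedBall (0 : CE ι) (1 / 64), hfN2 X k f y ≤ m ^ 2)
    (hs : 0 < s) (hs' : s ≤ 1 / 128)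
    (hη : ∀ y ∈ Metric.closedBall (0 : CE ι) (1 / 64 / 2), ‖y a - f y‖ ≤ η)
    (hθ : 2 * η + m * s ^ 2 ≤ θ * s) (b : CE ι) : ‖b a - fderiv ℝ f 0 b‖ ≤ θ * ‖b‖ := by
  by_cases hb : b = 0
  · subst hb
    simp
  have hb0 : 0 < ‖b‖ := norm_pos_iff.2 hb
  obtain ⟨y, hy⟩ : ∃ y : CE ι, y = (s / ‖b‖) • b := ⟨_, rfl⟩
  have hyn : ‖y‖ = s := by
    rw [hy, norm_smul, Real.norm_of_nonneg (by positivity)]
    field_simp
  have hy1 : y ∈ Metric.closedBall (0 : CE ι) (1 / 64 / 2) := by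
    rw [mem_closedBall_zero_iff, hyn]
    linarith
  have h0 : (0 : CE ι) ∈ Metric.closedBall (0 : CE ι) (1 / 64 / 2) := by
    rw [mem_closedBall_zero_iff, norm_zero]
    norm_num
  have e1 := hη y hy1
  have e2 := hη 0 h0
  have e3 := GoodBall.uc_close_taylor hB hf hm h2 (x := y) (by rw [hyn]; linarith)
  rw [hyn] at e3
  have hdec : y a - fderiv ℝ f 0 y = (y a - f y) - ((0 : CE ι) a - f 0) + (f y - f 0 - fderiv ℝ f 0 y) := by
    have : (0 : CE ι) a = 0 := rfl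
    rw [this]
    ring
  have e4 : ‖y a - fderiv ℝ f 0 y‖ ≤ θ * s := by
    rw [hdec]
    calc _ ≤ ‖(y a - f y) - ((0 : CE ι) a - f 0)‖ + ‖f y - f 0 - fderiv ℝ f 0 y‖ := norm_add_le _ _
      _ ≤ (‖y a - f y‖ + ‖(0 : CE ι) a - f 0‖) + ‖f y - f 0 - fderiv ℝ f 0 y‖ := by
          gcongr
          exact norm_sub_le _ _
      _ ≤ θ * s := by linarith
  have hlin : y a - fderiv ℝ f 0 y = ((s / ‖b‖ : ℝ) : ℂ) * (b a - fderiv ℝ f 0 b) := by
    rw [hy, map_smul]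
    have : ((s / ‖b‖) • b) a = ((s / ‖b‖ : ℝ) : ℂ) * b a := by
      show (s / ‖b‖) • (b a) = _
      rw [Complex.real_smul]
    rw [this, Complex.real_smul]
    ring
  rw [hlin, norm_mul, Complex.norm_real, Real.norm_of_nonneg (by positivity)] at e4
  have e5 : s / ‖b‖ * ‖b a - fderiv ℝ f 0 b‖ = s * (‖b a - fderiv ℝ f 0 b‖ / ‖b‖) := by ring
  rw [e5, mul_comm θ s] at e4
  have e6 := le_of_mul_le_mul_left e4 hs
  rwa [div_le_iff₀ hb0] at e6

/-- (iv) one component. -/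
theorem GoodBall.uc_close_comp (hB : GoodBall X k S K) (hK : K ≤ 1) {f : CE ι → ℂ} (hf : X.HolFun f)
    (a : ι) {m θ : ℝ} (hm : 0 ≤ m)
    (h1 : ∀ y ∈ Metric.closedBall (0 : CE ι) (1 / 64), hfN1 X k f y ≤ m ^ 2)
    (h2 : ∀ y ∈ Metric.closedBall (0 : CE ι) (1 / 64), hfN2 X k f y ≤ m ^ 2)
    (hL : ∀ b : CE ι, ‖b a - fderiv ℝ f 0 b‖ ≤ θ * ‖b‖) (hx : ‖x‖ ≤ 1 / 64) (b : CE ι) :
    ‖fderiv ℝ f x b - b a‖ ≤ (θ + 2 * m * ‖x‖ + 2 * m * ‖x‖ ^ 2) * ‖b‖ := by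
  have hx1 : ‖x‖ < 1 := by linarith
  have hxU : x ∈ S.U := hB.mem_U_iff.2 hx1
  have hpt := hB.radial.isPT_ptr hxU b
  have hKx := hB.K_mul_le hK hx1
  have e1 := hpt.norm_sub_le hB.radial hxU hKx
  have e2 := GoodBall.uc_close_pt hB hf hm h2 hx hpt
  have e3 := GoodBall.uc_close_lip hB hK hf hm hx1 (h1 x (by simpa using hx)) (b - S.ptr x b)
  have e4 := hL b
  have hK0 := hB.radial.K_nonneg
  have e5 : ‖b - S.ptr x b‖ ≤ ‖x‖ ^ 2 * ‖b‖ := by
    have : K * ‖x‖ ^ 2 ≤ ‖x‖ ^ 2 := by nlinarith [sq_nonneg ‖x‖]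
    calc ‖b - S.ptr x b‖ ≤ 2 / 7 * (K * ‖x‖ ^ 2) * ‖b‖ := e1
      _ ≤ 1 * (‖x‖ ^ 2) * ‖b‖ := by
          apply mul_le_mul_of_nonneg_right _ (norm_nonneg _)
          nlinarith [sq_nonneg ‖x‖, mul_nonneg hK0 (sq_nonneg ‖x‖)]
      _ = _ := by ring
  have hdec : fderiv ℝ f x b - b a = fderiv ℝ f x (b - S.ptr x b) +
      (fderiv ℝ f x (S.ptr x b) - fderiv ℝ f 0 b) - (b a - fderiv ℝ f 0 b) := by
    rw [map_sub]
    ring
  rw [hdec]
  calc _ ≤ ‖fderiv ℝ f x (b - S.ptr x b) + (fderiv ℝ f x (S.ptr x b) - fderiv ℝ f 0 b)‖ +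
        ‖b a - fderiv ℝ f 0 b‖ := norm_sub_le _ _
    _ ≤ (‖fderiv ℝ f x (b - S.ptr x b)‖ + ‖fderiv ℝ f x (S.ptr x b) - fderiv ℝ f 0 b‖) +
        ‖b a - fderiv ℝ f 0 b‖ := by
          gcongr
          exact norm_add_le _ _
    _ ≤ (2 * m * (‖x‖ ^ 2 * ‖b‖) + 2 * m * (‖x‖ * ‖b‖)) + θ * ‖b‖ := by
          have := mul_le_mul_of_nonneg_left e5 (show 0 ≤ 2 * m by positivity)
          linarith
    _ = _ := by ring

/-- (v) from the components to the operator norm. -/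
theorem uc_close_norm {f : ι → CE ι → ℂ} (hf : ∀ a, DifferentiableAt ℝ (f a) x) {c : ℝ} (hc : 0 ≤ c)
    (h : ∀ a (b : CE ι), ‖fderiv ℝ (f a) x b - b a‖ ≤ c * ‖b‖) :
    ‖fderiv ℝ (ucVec f) x - ContinuousLinearMap.id ℝ (CE ι)‖ ≤ Real.sqrt (Fintype.card ι) * c := by
  apply ContinuousLinearMap.opNorm_le_bound _ (by positivity)
  intro b
  have h1 : ‖(fderiv ℝ (ucVec f) x - ContinuousLinearMap.id ℝ (CE ι)) b‖ ^ 2 ≤
      (Real.sqrt (Fintype.card ι) * c * ‖b‖) ^ 2 := by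
    rw [EuclideanSpace.norm_sq_eq]
    calc ∑ a, ‖(fderiv ℝ (ucVec f) x - ContinuousLinearMap.id ℝ (CE ι)) b a‖ ^ 2
        ≤ ∑ _a : ι, (c * ‖b‖) ^ 2 := by
          apply Finset.sum_le_sum
          intro a _
          have : (fderiv ℝ (ucVec f) x - ContinuousLinearMap.id ℝ (CE ι)) b a =
              fderiv ℝ (f a) x b - b a := by
            rw [← fderiv_ucVec_apply hf b a]
            rfl
          rw [this]
          exact pow_le_pow_left₀ (norm_nonneg _) (h a b) 2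
      _ = (Fintype.card ι : ℝ) * (c * ‖b‖) ^ 2 := by
          rw [Finset.sum_const, Finset.card_univ, nsmul_eq_mul]
      _ = (Real.sqrt (Fintype.card ι) * c * ‖b‖) ^ 2 := by
          rw [mul_assoc, mul_pow (Real.sqrt _), Real.sq_sqrt (by positivity)]
  exact (pow_le_pow_iff_left₀ (norm_nonneg _) (by positivity) two_ne_zero).1 h1

/-- **`dF` is close to the identity.** -/
theorem uc_fderiv_close_of (ι : Type) [Fintype ι] [DecidableEq ι] (M₁ : ℝ) :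
    ∃ δ r₁ : ℝ, 0 < δ ∧ 0 < r₁ ∧ r₁ ≤ 1 / 64 ∧
      ∀ (X : CMfd (CE ι) ι) (k : HFam (CE ι) ι) (S : RGeo (CE ι)) (K : ℝ),
      GoodBall X k S K → K ≤ 1 → ∀ f : ι → CE ι → ℂ, (∀ a, X.HolFun (f a)) →
      (∀ a, ∀ x ∈ Metric.closedBall (0 : CE ι) (1 / 64),
        hfN1 X k (f a) x ≤ M₁ ∧ hfN2 X k (f a) x ≤ M₁) →
      (∀ a, IntegrableOn (fun x : CE ι => ‖x a - f a x‖ ^ 2) (Metric.ball 0 1) ∧
        ∫ x in Metric.ball (0 : CE ι) 1, ‖x a - f a x‖ ^ 2 ≤ δ) →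
      ∀ x ∈ Metric.ball (0 : CE ι) r₁,
        ‖fderiv ℝ (ucVec f) x - ContinuousLinearMap.id ℝ (CE ι)‖ ≤ 1 / 4 := by
  obtain ⟨m, hm⟩ : ∃ m, m = Real.sqrt (max M₁ 0) := ⟨_, rfl⟩
  have hm0 : 0 ≤ m := hm ▸ Real.sqrt_nonneg _
  have hmM : M₁ ≤ m ^ 2 := by
    rw [hm, Real.sq_sqrt (le_max_right _ _)]
    exact le_max_left _ _
  obtain ⟨c₀, hc₀⟩ : ∃ c₀, c₀ = 1 / (4 * (Real.sqrt (Fintype.card ι) + 1)) := ⟨_, rfl⟩
  have hsq0 : 0 ≤ Real.sqrt (Fintype.card ι) := Real.sqrt_nonneg _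
  have hc₀pos : 0 < c₀ := by rw [hc₀]; positivity
  have hc₀le : Real.sqrt (Fintype.card ι) * c₀ ≤ 1 / 4 := by
    rw [hc₀, mul_one_div, div_le_iff₀ (by positivity)]
    linarith
  obtain ⟨θ, hθ⟩ : ∃ θ, θ = c₀ / 2 := ⟨_, rfl⟩
  have hθpos : 0 < θ := by rw [hθ]; positivity
  obtain ⟨r₁, hr₁⟩ : ∃ r₁, r₁ = min (1 / 128) (c₀ / (8 * (m + 1))) := ⟨_, rfl⟩
  have hr₁pos : 0 < r₁ := by rw [hr₁]; exact lt_min (by norm_num) (by positivity)
  have hr₁a : r₁ ≤ 1 / 128 := hr₁ ▸ min_le_left _ _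
  have hr₁b : r₁ ≤ c₀ / (8 * (m + 1)) := hr₁ ▸ min_le_right _ _
  have hmr : m * r₁ ≤ c₀ / 8 := by
    rw [le_div_iff₀ (by positivity)] at hr₁b
    nlinarith
  obtain ⟨s, hs⟩ : ∃ s, s = min (1 / 128) (θ / (2 * (m + 1))) := ⟨_, rfl⟩
  have hspos : 0 < s := by rw [hs]; exact lt_min (by norm_num) (by positivity)
  have hsa : s ≤ 1 / 128 := hs ▸ min_le_left _ _
  have hsb : s ≤ θ / (2 * (m + 1)) := hs ▸ min_le_right _ _
  have hms : m * s ≤ θ / 2 := by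
    rw [le_div_iff₀ (by positivity)] at hsb
    nlinarith
  obtain ⟨δ, hδ, Hδ⟩ := uc_sup_of_L2 ι (1 / 64) (1 + 2 * m) (θ * s / 4) (by norm_num) (by positivity)
    (by positivity)
  refine ⟨δ, r₁, hδ, hr₁pos, by linarith, ?_⟩
  intro X k S K hB hK f hf hN hI x hx
  have hxn : ‖x‖ < r₁ := by simpa using hx
  have hx64 : ‖x‖ ≤ 1 / 64 := by linarith
  have h1 : ∀ a, ∀ y ∈ Metric.closedBall (0 : CE ι) (1 / 64), hfN1 X k (f a) y ≤ m ^ 2 :=
    fun a y hy => (hN a y hy).1.trans hmM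
  have h2 : ∀ a, ∀ y ∈ Metric.closedBall (0 : CE ι) (1 / 64), hfN2 X k (f a) y ≤ m ^ 2 :=
    fun a y hy => (hN a y hy).2.trans hmM
  have hsub : Metric.ball (0 : CE ι) (1 / 64) ⊆ Metric.ball 0 1 := Metric.ball_subset_ball (by norm_num)
  -- (i), (ii)
  have hη : ∀ a, ∀ y ∈ Metric.closedBall (0 : CE ι) (1 / 64 / 2), ‖y a - f a y‖ ≤ θ * s / 4 := by
    intro a
    apply Hδ (fun y => y a - f a y)
    · intro y hy y' hy'
      have hd : ∀ z ∈ Metric.ball (0 : CE ι) (1 / 64), DifferentiableAt ℝ (f a) z := fun z hz =>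
        (GoodBall.uc_cd hB (hf a) (by simpa using hsub hz)).differentiableAt (by simp)
      have hbd : ∀ z ∈ Metric.ball (0 : CE ι) (1 / 64), ‖fderiv ℝ (f a) z‖ ≤ 2 * m := by
        intro z hz
        have hz' : ‖z‖ < 1 / 64 := by simpa using hz
        apply ContinuousLinearMap.opNorm_le_bound _ (by positivity)
        intro b
        exact GoodBall.uc_close_lip hB hK (hf a) hm0 (by linarith) (h1 a z (by simpa using hz'.le)) b
      have e1 := Convex.norm_image_sub_le_of_norm_fderiv_le (𝕜 := ℝ) hd hbd (convex_ball 0 _) hy' hy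
      have e2 : ‖y a - y' a‖ ≤ ‖y - y'‖ := PiLp.norm_apply_le (y - y') a
      calc ‖y a - f a y - (y' a - f a y')‖ = ‖(y a - y' a) - (f a y - f a y')‖ := by congr 1; ring
        _ ≤ ‖y a - y' a‖ + ‖f a y - f a y'‖ := norm_sub_le _ _
        _ ≤ (1 + 2 * m) * ‖y - y'‖ := by linarith
    · exact (hI a).1.mono_set hsub
    · exact (setIntegral_mono_set (hI a).1 (Filter.Eventually.of_forall fun y => by positivity)
        (Filter.Eventually.of_forall hsub)).trans (hI a).2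
  -- (iii)
  have hL : ∀ a, ∀ b : CE ι, ‖b a - fderiv ℝ (f a) 0 b‖ ≤ θ * ‖b‖ := by
    intro a
    apply GoodBall.uc_close_L hB (hf a) a hm0 (h2 a) hspos hsa (hη a)
    nlinarith
  -- (iv), (v)
  have hcomp : ∀ a (b : CE ι), ‖fderiv ℝ (f a) x b - b a‖ ≤ c₀ * ‖b‖ := by
    intro a b
    refine (GoodBall.uc_close_comp hB hK (hf a) a hm0 (h1 a) (h2 a) (hL a) hx64 b).trans ?_
    apply mul_le_mul_of_nonneg_right _ (norm_nonneg _)
    have hx0 := norm_nonneg x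
    have e1 : m * ‖x‖ ≤ c₀ / 8 := (mul_le_mul_of_nonneg_left hxn.le hm0).trans hmr
    have e2 : m * ‖x‖ ^ 2 ≤ c₀ / 8 := by
      have : ‖x‖ ^ 2 ≤ ‖x‖ := by nlinarith
      exact (mul_le_mul_of_nonneg_left this hm0).trans e1
    rw [hθ]
    linarith
  have hd : ∀ a, DifferentiableAt ℝ (f a) x := fun a =>
    (GoodBall.uc_cd hB (hf a) (by linarith)).differentiableAt (by simp)
  exact (uc_close_norm hd hc₀pos.le hcomp).trans hc₀le

end close

section assemble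

/-- `∫_{|y| ≤ 1/2} |f_a|² ≤ 2 vol + 2 ∫ |y_a - f_a|²`. -/
theorem GoodBall.integral_normSq_le (hB : GoodBall X k S K) {f : CE ι → ℂ} (hf : X.HolFun f) (a : ι)
    (hi : IntegrableOn (fun x : CE ι => ‖x a - f x‖ ^ 2) (Metric.ball 0 1)) :
    ∫ y in Metric.closedBall (0 : CE ι) (1 / 2), ‖f y‖ ^ 2 ≤
      2 * (volume (Metric.ball (0 : CE ι) 1)).toReal
        + 2 * ∫ x in Metric.ball (0 : CE ι) 1, ‖x a - f x‖ ^ 2 := by
  have hsub : Metric.closedBall (0 : CE ι) (1 / 2) ⊆ Metric.ball 0 1 :=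
    Metric.closedBall_subset_ball (by norm_num)
  have hg : IntegrableOn (fun x : CE ι => 2 + 2 * ‖x a - f x‖ ^ 2) (Metric.ball 0 1) :=
    (integrableOn_const measure_ball_lt_top.ne).add (hi.const_mul 2)
  have h1 : ∫ y in Metric.closedBall (0 : CE ι) (1 / 2), ‖f y‖ ^ 2 ≤
      ∫ y in Metric.closedBall (0 : CE ι) (1 / 2), (2 + 2 * ‖y a - f y‖ ^ 2) := by
    apply integral_mono_of_nonneg (Filter.Eventually.of_forall fun y => by positivity) (hg.mono_set hsub)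
    refine (ae_restrict_iff' measurableSet_closedBall).2 (Filter.Eventually.of_forall fun y hy => ?_)
    have hy1 : ‖y‖ ≤ 1 := by
      have : ‖y‖ ≤ 1 / 2 := by simpa using hy
      linarith
    have hya : ‖y a‖ ≤ 1 := (PiLp.norm_apply_le y a).trans hy1
    have h3 : ‖f y‖ ≤ ‖y a‖ + ‖y a - f y‖ := by
      calc ‖f y‖ = ‖y a - (y a - f y)‖ := by rw [sub_sub_cancel]
        _ ≤ _ := norm_sub_le _ _
    show ‖f y‖ ^ 2 ≤ 2 + 2 * ‖y a - f y‖ ^ 2
    have h4 : ‖f y‖ ^ 2 ≤ (‖y a‖ + ‖y a - f y‖) ^ 2 := pow_le_pow_left₀ (norm_nonneg _) h3 2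
    nlinarith [sq_nonneg (‖y a‖ - ‖y a - f y‖), norm_nonneg (y a), norm_nonneg (y a - f y)]
  have h2 : ∫ y in Metric.closedBall (0 : CE ι) (1 / 2), (2 + 2 * ‖y a - f y‖ ^ 2) ≤
      ∫ y in Metric.ball (0 : CE ι) 1, (2 + 2 * ‖y a - f y‖ ^ 2) :=
    setIntegral_mono_set hg (Filter.Eventually.of_forall fun y => by positivity)
      (Filter.Eventually.of_forall hsub)
  have h3 : ∫ y in Metric.ball (0 : CE ι) 1, (2 + 2 * ‖y a - f y‖ ^ 2) =
      2 * (volume (Metric.ball (0 : CE ι) 1)).toReal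
        + 2 * ∫ x in Metric.ball (0 : CE ι) 1, ‖x a - f x‖ ^ 2 := by
    have hc2 : IntegrableOn (fun _ : CE ι => (2 : ℝ)) (Metric.ball 0 1) :=
      integrableOn_const measure_ball_lt_top.ne
    rw [integral_add hc2 (hi.const_mul 2), integral_const_mul,
      setIntegral_const, Measure.real, smul_eq_mul, mul_comm]
  linarith

/-- **holomorphic functions whose differential is close to the identity.** -/
theorem uc_fderiv_close (ι : Type) [Fintype ι] [DecidableEq ι] [Nonempty ι] :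
    ∃ ε₀ r₁ : ℝ, 0 < ε₀ ∧ ε₀ ≤ 1 / 3 ∧ 0 < r₁ ∧ r₁ ≤ 1 / 64 ∧
      ∀ (X : CMfd (CE ι) ι) (k : HFam (CE ι) ι) (S : RGeo (CE ι)) (K : ℝ),
      GoodBall X k S K → K ≤ ε₀ → ∃ f : ι → CE ι → ℂ, (∀ a, X.HolFun (f a)) ∧
      ∀ x ∈ Metric.ball (0 : CE ι) r₁,
        ‖fderiv ℝ (ucVec f) x - ContinuousLinearMap.id ℝ (CE ι)‖ ≤ 1 / 4 := by
  obtain ⟨C₀, hC₀, H0⟩ := uc_exists_hol_coords ι
  obtain ⟨C₁, hC₁, H1⟩ := uc_interior ι
  obtain ⟨δ, r₁, hδ, hr₁, hr₁', H2⟩ := uc_fderiv_close_of ι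
    (C₁ * (2 * (volume (Metric.ball (0 : CE ι) 1)).toReal + 2 * C₀))
  refine ⟨min (1 / 3) (Real.sqrt (δ / C₀)), r₁, lt_min (by norm_num) (Real.sqrt_pos.2 (by positivity)),
    min_le_left _ _, hr₁, hr₁', ?_⟩
  intro X k S K hB hK
  have hK3 : K ≤ 1 / 3 := hK.trans (min_le_left _ _)
  have hK1 : K ≤ 1 := by linarith
  have hK0 : 0 ≤ K := hB.radial.K_nonneg
  have hKs : K ≤ Real.sqrt (δ / C₀) := hK.trans (min_le_right _ _)
  have hK2 : K ^ 2 ≤ δ / C₀ := by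
    calc K ^ 2 ≤ Real.sqrt (δ / C₀) ^ 2 := pow_le_pow_left₀ hK0 hKs 2
      _ = δ / C₀ := Real.sq_sqrt (by positivity)
  have hCK : C₀ * K ^ 2 ≤ δ := by
    calc C₀ * K ^ 2 ≤ C₀ * (δ / C₀) := mul_le_mul_of_nonneg_left hK2 hC₀.le
      _ = δ := by field_simp
  have hCK' : C₀ * K ^ 2 ≤ C₀ := by
    have : K ^ 2 ≤ 1 := by nlinarith
    nlinarith
  obtain ⟨f, hf, hfi⟩ := H0 X k S K hB hK3
  refine ⟨f, hf, H2 X k S K hB hK1 f hf ?_ ?_⟩
  · intro a x hx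
    have h3 := GoodBall.integral_normSq_le hB (hf a) a (hfi a).1
    have h4 : ∫ y in Metric.closedBall (0 : CE ι) (1 / 2), ‖f a y‖ ^ 2 ≤
        2 * (volume (Metric.ball (0 : CE ι) 1)).toReal + 2 * C₀ := by
      have := (hfi a).2
      linarith
    have h5 := H1 X k S K hB hK1 (f a) (hf a) x hx
    have h6 := mul_le_mul_of_nonneg_left h4 hC₁.le
    exact ⟨h5.1.trans h6, h5.2.trans h6⟩
  · intro a
    exact ⟨(hfi a).1, (hfi a).2.trans hCK⟩

end assemble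

section invreal

variable {E : Type} [NormedAddCommGroup E] [NormedSpace ℝ E] [CompleteSpace E]
variable {F : E → E} {r : ℝ}

theorem uc_norm_fderiv_bounds {y : E}
    (hc : ‖fderiv ℝ F y - ContinuousLinearMap.id ℝ E‖ ≤ 1 / 4) (b : E) :
    3 / 4 * ‖b‖ ≤ ‖fderiv ℝ F y b‖ ∧ ‖fderiv ℝ F y b‖ ≤ 5 / 4 * ‖b‖ := by
  have h1 : ‖fderiv ℝ F y b - b‖ ≤ 1 / 4 * ‖b‖ := by
    have h := (fderiv ℝ F y - ContinuousLinearMap.id ℝ E).le_opNorm b
    simp only [sub_apply, ContinuousLinearMap.id_apply] at h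
    exact h.trans (mul_le_mul_of_nonneg_right hc (norm_nonneg _))
  constructor
  · have h2 : ‖b‖ ≤ ‖fderiv ℝ F y b‖ + ‖fderiv ℝ F y b - b‖ := by
      calc ‖b‖ = ‖fderiv ℝ F y b - (fderiv ℝ F y b - b)‖ := by rw [sub_sub_cancel]
        _ ≤ _ := norm_sub_le _ _
    linarith
  · have h2 : ‖fderiv ℝ F y b‖ ≤ ‖fderiv ℝ F y b - b‖ + ‖b‖ := by
      calc ‖fderiv ℝ F y b‖ = ‖(fderiv ℝ F y b - b) + b‖ := by rw [sub_add_cancel]
        _ ≤ _ := norm_add_le _ _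
    linarith

theorem uc_approx_of_close (hF : DifferentiableOn ℝ F (Metric.ball 0 r))
    (hc : ∀ y ∈ Metric.ball (0 : E) r, ‖fderiv ℝ F y - ContinuousLinearMap.id ℝ E‖ ≤ 1 / 4)
    {y y' : E} (hy : y ∈ Metric.ball (0 : E) r) (hy' : y' ∈ Metric.ball (0 : E) r) :
    ‖F y - F y' - (y - y')‖ ≤ 1 / 4 * ‖y - y'‖ := by
  have hd : ∀ x ∈ Metric.ball (0 : E) r, DifferentiableAt ℝ F x := fun x hx =>
    (hF x hx).differentiableAt (Metric.isOpen_ball.mem_nhds hx)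
  have hd' : ∀ x ∈ Metric.ball (0 : E) r, DifferentiableAt ℝ (fun z => F z - z) x := fun x hx =>
    (hd x hx).sub differentiableAt_id
  have hb : ∀ x ∈ Metric.ball (0 : E) r, ‖fderiv ℝ (fun z => F z - z) x‖ ≤ 1 / 4 := by
    intro x hx
    have : fderiv ℝ (fun z => F z - z) x = fderiv ℝ F x - ContinuousLinearMap.id ℝ E := by
      rw [fderiv_fun_sub (hd x hx) differentiableAt_fun_id, fderiv_fun_id]
    rw [this]
    exact hc x hx
  have h := Convex.norm_image_sub_le_of_norm_fderiv_le (𝕜 := ℝ) hd' hb (convex_ball 0 r) hy' hy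
  have e : F y - y - (F y' - y') = F y - F y' - (y - y') := by abel
  rwa [e] at h

theorem uc_dist_ge_of_close (hF : DifferentiableOn ℝ F (Metric.ball 0 r))
    (hc : ∀ y ∈ Metric.ball (0 : E) r, ‖fderiv ℝ F y - ContinuousLinearMap.id ℝ E‖ ≤ 1 / 4)
    {y y' : E} (hy : y ∈ Metric.ball (0 : E) r) (hy' : y' ∈ Metric.ball (0 : E) r) :
    3 / 4 * ‖y - y'‖ ≤ ‖F y - F y'‖ := by
  have h1 := uc_approx_of_close hF hc hy hy'
  have h2 : ‖y - y'‖ ≤ ‖F y - F y'‖ + ‖F y - F y' - (y - y')‖ := by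
    calc ‖y - y'‖ = ‖(F y - F y') - (F y - F y' - (y - y'))‖ := by rw [sub_sub_cancel]
      _ ≤ _ := norm_sub_le _ _
  linarith

theorem uc_injOn_of_close (hF : DifferentiableOn ℝ F (Metric.ball 0 r))
    (hc : ∀ y ∈ Metric.ball (0 : E) r, ‖fderiv ℝ F y - ContinuousLinearMap.id ℝ E‖ ≤ 1 / 4) :
    Set.InjOn F (Metric.ball 0 r) := by
  intro y hy y' hy' h
  have h1 := uc_dist_ge_of_close hF hc hy hy'
  rw [h, sub_self, norm_zero] at h1
  have h2 : ‖y - y'‖ = 0 := le_antisymm (by linarith) (norm_nonneg _)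
  exact sub_eq_zero.1 (norm_eq_zero.1 h2)

theorem uc_surj_of_close (hr : 0 < r) (hF : DifferentiableOn ℝ F (Metric.ball 0 r))
    (hc : ∀ y ∈ Metric.ball (0 : E) r, ‖fderiv ℝ F y - ContinuousLinearMap.id ℝ E‖ ≤ 1 / 4)
    {w : E} (hw : w ∈ Metric.ball (0 : E) (r / 2)) :
    ∃ y ∈ Metric.ball (0 : E) r, F y = F 0 + w := by
  have happ : ApproximatesLinearOn F (ContinuousLinearMap.id ℝ E) (Metric.ball 0 r) (1 / 4 : NNReal) := by
    intro y hy y' hy'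
    have := uc_approx_of_close hF hc hy hy'
    simpa using this
  let inv : (ContinuousLinearMap.id ℝ E).NonlinearRightInverse :=
    { toFun := id
      nnnorm := 1
      bound' := fun y => by simp
      right_inv' := fun y => by simp }
  have hsub : Metric.closedBall (0 : E) (5 * r / 6) ⊆ Metric.ball 0 r :=
    Metric.closedBall_subset_ball (by linarith)
  have hsurj := happ.surjOn_closedBall_of_nonlinearRightInverse inv (ε := 5 * r / 6) (b := 0)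
    (by positivity) hsub
  have hmem : F 0 + w ∈ Metric.closedBall (F 0) ((((inv.nnnorm : NNReal) : ℝ)⁻¹ - ((1 / 4 : NNReal) : ℝ)) * (5 * r / 6)) := by
    rw [mem_closedBall_iff_norm, add_sub_cancel_left]
    have hw' : ‖w‖ < r / 2 := by simpa using hw
    have : (((inv.nnnorm : NNReal) : ℝ)⁻¹ - ((1 / 4 : NNReal) : ℝ)) = 3 / 4 := by
      show (((1 : NNReal) : ℝ)⁻¹ - ((1 / 4 : NNReal) : ℝ)) = 3 / 4
      push_cast
      norm_num
    rw [this]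
    linarith
  obtain ⟨y, hy, hFy⟩ := hsurj hmem
  exact ⟨y, hsub hy, hFy⟩

end invreal

section invhol

variable {f : ι → CE ι → ℂ} {r : ℝ}

theorem GoodBall.uc_diffAt (hB : GoodBall X k S K) (hf : ∀ a, X.HolFun (f a)) (hx : ‖x‖ < 1) :
    DifferentiableAt ℝ (ucVec f) x := by
  apply differentiableAt_ucVec
  intro a
  have h1 := hB.contDiffOn_of_holFun (hf a)
  have hx' : x ∈ Metric.ball (0 : CE ι) 1 := by simpa using hx
  exact ((h1 x hx').contDiffAt (Metric.isOpen_ball.mem_nhds hx')).differentiableAt (by simp)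

theorem GoodBall.uc_diffOn (hB : GoodBall X k S K) (hf : ∀ a, X.HolFun (f a)) (hr1 : r ≤ 1) :
    DifferentiableOn ℝ (ucVec f) (Metric.ball 0 r) := by
  intro y hy
  have hy' : ‖y‖ < 1 := by
    have : ‖y‖ < r := by simpa using hy
    linarith
  exact (GoodBall.uc_diffAt hB hf hy').differentiableWithinAt

theorem GoodBall.ucInv_spec (hB : GoodBall X k S K) (hf : ∀ a, X.HolFun (f a)) (hr : 0 < r)
    (hr1 : r ≤ 1)
    (hc : ∀ x ∈ Metric.ball (0 : CE ι) r,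
      ‖fderiv ℝ (ucVec f) x - ContinuousLinearMap.id ℝ (CE ι)‖ ≤ 1 / 4)
    {w : CE ι} (hw : w ∈ Metric.ball (0 : CE ι) (r / 2)) :
    ucInv f r w ∈ Metric.ball (0 : CE ι) r ∧ ucVec f (ucInv f r w) = ucVec f 0 + w := by
  have hex := uc_surj_of_close hr (GoodBall.uc_diffOn hB hf hr1) hc hw
  exact ⟨Function.invFunOn_mem hex, Function.invFunOn_eq hex⟩

theorem GoodBall.ucInv_zero (hB : GoodBall X k S K) (hf : ∀ a, X.HolFun (f a)) (hr : 0 < r)
    (hr1 : r ≤ 1)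
    (hc : ∀ x ∈ Metric.ball (0 : CE ι) r,
      ‖fderiv ℝ (ucVec f) x - ContinuousLinearMap.id ℝ (CE ι)‖ ≤ 1 / 4) :
    ucInv f r 0 = 0 := by
  have h0 : (0 : CE ι) ∈ Metric.ball (0 : CE ι) (r / 2) := Metric.mem_ball_self (by positivity)
  obtain ⟨h1, h2⟩ := GoodBall.ucInv_spec hB hf hr hr1 hc h0
  rw [add_zero] at h2
  exact uc_injOn_of_close (GoodBall.uc_diffOn hB hf hr1) hc h1 (Metric.mem_ball_self hr) h2

/-- **the inverse of `F` is an immersed holomorphic chart.** -/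
theorem GoodBall.isLocBihol_ucInv (hB : GoodBall X k S K) (hf : ∀ a, X.HolFun (f a)) (hr : 0 < r)
    (hr1 : r ≤ 1)
    (hc : ∀ x ∈ Metric.ball (0 : CE ι) r,
      ‖fderiv ℝ (ucVec f) x - ContinuousLinearMap.id ℝ (CE ι)‖ ≤ 1 / 4) :
    IsLocBihol X (ucInv f r) (Metric.ball 0 (r / 2)) := by
  refine ⟨Metric.isOpen_ball, fun w₀ hw₀ => ?_⟩
  have hFd := GoodBall.uc_diffOn hB hf hr1
  have hinj := uc_injOn_of_close hFd hc
  obtain ⟨hx₀, hFx₀⟩ := GoodBall.ucInv_spec hB hf hr hr1 hc hw₀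
  have hx₀1 : ‖ucInv f r w₀‖ < 1 := by
    have : ‖ucInv f r w₀‖ < r := by simpa using hx₀
    linarith
  obtain ⟨Ψ, U, z₀, hΨ, hz₀, hΨz₀⟩ := hB.exists_chart hx₀1
  have hP := X.isParam hΨ
  -- the smaller domain
  have hU₁o : IsOpen (U ∩ Ψ ⁻¹' Metric.ball (0 : CE ι) r) :=
    hP.smooth.continuousOn.isOpen_inter_preimage hP.isOpen Metric.isOpen_ball
  have hΘ : StdHol Set.univ (ucVec f ∘ Ψ) (U ∩ Ψ ⁻¹' Metric.ball (0 : CE ι) r) := by
    have hhol : DifferentiableOn ℂ (ucVec f ∘ Ψ) (U ∩ Ψ ⁻¹' Metric.ball (0 : CE ι) r) := by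
      rw [differentiableOn_euclidean]
      intro a
      exact (hf a Ψ U hΨ).mono Set.inter_subset_left
    refine ⟨hU₁o, hhol, ?_, ?_, Set.mapsTo_univ _ _⟩
    · intro z hz z' hz' h
      exact hP.injOn hz.1 hz'.1 (hinj hz.2 hz'.2 h)
    · intro z hz
      have hdC : DifferentiableAt ℂ (ucVec f ∘ Ψ) z := (hhol z hz).differentiableAt (hU₁o.mem_nhds hz)
      have hΨz1 : ‖Ψ z‖ < 1 := hB.param_norm_lt hΨ hz.1
      have hdΨ : DifferentiableAt ℝ Ψ z := (hP.contDiffAt hz.1).differentiableAt (by simp)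
      have hchain : fderiv ℝ (ucVec f ∘ Ψ) z = (fderiv ℝ (ucVec f) (Ψ z)).comp (fderiv ℝ Ψ z) :=
        fderiv_comp z (GoodBall.uc_diffAt hB hf hΨz1) hdΨ
      have hres := hdC.fderiv_restrictScalars ℝ
      intro v v' hvv
      have h1 : fderiv ℝ (ucVec f ∘ Ψ) z v = fderiv ℝ (ucVec f ∘ Ψ) z v' := by
        rw [hres]
        exact hvv
      rw [hchain] at h1
      simp only [ContinuousLinearMap.comp_apply] at h1
      have h2 := (uc_norm_fderiv_bounds (hc _ hz.2) (fderiv ℝ Ψ z v - fderiv ℝ Ψ z v')).1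
      rw [map_sub, h1, sub_self, norm_zero] at h2
      have h3 : ‖fderiv ℝ Ψ z v - fderiv ℝ Ψ z v'‖ = 0 := le_antisymm (by linarith) (norm_nonneg _)
      exact hP.immersion z hz.1 (sub_eq_zero.1 (norm_eq_zero.1 h3))
  obtain ⟨U₁, hU₁⟩ : ∃ U₁, U₁ = U ∩ Ψ ⁻¹' Metric.ball (0 : CE ι) r := ⟨_, rfl⟩
  rw [← hU₁] at hΘ
  obtain ⟨Θ, hΘdef⟩ : ∃ Θ, Θ = ucVec f ∘ Ψ := ⟨_, rfl⟩
  rw [← hΘdef] at hΘ
  obtain ⟨τ, hτdef⟩ : ∃ τ : CE ι → CE ι, τ = fun w => Function.invFunOn Θ U₁ (ucVec f 0 + w) := ⟨_, rfl⟩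
  obtain ⟨U', hU'⟩ : ∃ U' : Set (CE ι), U' = Metric.ball (0 : CE ι) (r / 2) ∩ (fun w => ucVec f 0 + w) ⁻¹' (Θ '' U₁) :=
    ⟨_, rfl⟩
  have hU'o : IsOpen U' := by
    rw [hU']
    exact Metric.isOpen_ball.inter (hΘ.isOpen_image.preimage (continuous_const.add continuous_id))
  have hτmem : ∀ w ∈ U', τ w ∈ U₁ ∧ Θ (τ w) = ucVec f 0 + w := by
    intro w hw
    rw [hU'] at hw
    rw [hτdef]
    exact ⟨Function.invFunOn_mem hw.2, Function.invFunOn_eq hw.2⟩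
  have hτhol : DifferentiableOn ℂ τ U' := by
    rw [hτdef]
    refine hΘ.differentiableOn_invFunOn.comp
      ((differentiable_const _).add differentiable_id).differentiableOn ?_
    intro w hw
    rw [hU'] at hw
    exact hw.2
  have hτinj : Set.InjOn τ U' := by
    intro w hw w' hw' h
    have h1 := (hτmem w hw).2
    have h2 := (hτmem w' hw').2
    rw [h, h2] at h1
    exact (add_left_cancel h1).symm
  have hτimm : ∀ w ∈ U', Function.Injective (fderiv ℂ τ w) := by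
    intro w hw
    have hdτ : DifferentiableAt ℂ τ w := (hτhol w hw).differentiableAt (hU'o.mem_nhds hw)
    have hdΘ : DifferentiableAt ℂ Θ (τ w) := hΘ.differentiableAt (hτmem w hw).1
    have heq : (Θ ∘ τ) =ᶠ[𝓝 w] fun w => ucVec f 0 + w := by
      filter_upwards [hU'o.mem_nhds hw] with y hy
      exact (hτmem y hy).2
    have h1 : fderiv ℂ (Θ ∘ τ) w = ContinuousLinearMap.id ℂ (CE ι) := by
      rw [heq.fderiv_eq, fderiv_const_add, fderiv_fun_id]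
    rw [fderiv_comp w hdΘ hdτ] at h1
    intro v v' hvv
    have h2 := congrArg (fun L : CE ι →L[ℂ] CE ι => L v) h1
    have h3 := congrArg (fun L : CE ι →L[ℂ] CE ι => L v') h1
    simp only [ContinuousLinearMap.comp_apply, ContinuousLinearMap.id_apply] at h2 h3
    rw [← h2, ← h3, hvv]
  have hτmaps : Set.MapsTo τ U' U := by
    intro w hw
    have := (hτmem w hw).1
    rw [hU₁] at this
    exact this.1
  have hhol1 : X.IsHol (Ψ ∘ τ) U' := X.reparam hΨ τ U' hU'o hτhol hτinj hτimm hτmaps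
  have heqOn : Set.EqOn (Ψ ∘ τ) (ucInv f r) U' := by
    intro w hw
    have h1 := hτmem w hw
    have hwb : w ∈ Metric.ball (0 : CE ι) (r / 2) := by
      rw [hU'] at hw
      exact hw.1
    obtain ⟨h2, h3⟩ := GoodBall.ucInv_spec hB hf hr hr1 hc hwb
    have h4 : Ψ (τ w) ∈ Metric.ball (0 : CE ι) r := by
      have := h1.1
      rw [hU₁] at this
      exact this.2
    apply hinj h4 h2
    rw [h3, ← h1.2, hΘdef]
    rfl
  refine ⟨U', ?_, ?_, X.congr hhol1 heqOn⟩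
  · rw [hU']
    exact Set.inter_subset_left
  · rw [hU']
    refine ⟨hw₀, z₀, ?_, ?_⟩
    · rw [hU₁]
      refine ⟨hz₀, ?_⟩
      show Ψ z₀ ∈ Metric.ball (0 : CE ι) r
      rw [hΨz₀]
      exact hx₀
    · rw [hΘdef]
      show ucVec f (Ψ z₀) = _
      rw [hΨz₀, hFx₀]

theorem GoodBall.ucInv_bounds (hB : GoodBall X k S K) (hK : K ≤ 1) (hf : ∀ a, X.HolFun (f a))
    (hr : 0 < r) (hr1 : r ≤ 1)
    (hc : ∀ x ∈ Metric.ball (0 : CE ι) r,
      ‖fderiv ℝ (ucVec f) x - ContinuousLinearMap.id ℝ (CE ι)‖ ≤ 1 / 4)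
    {w : CE ι} (hw : w ∈ Metric.ball (0 : CE ι) (r / 2)) :
    leM (cI (8 / 25)) (k (ucInv f r) w) ∧ leM (k (ucInv f r) w) (cI (32 / 9)) := by
  obtain ⟨U', hU'sub, hwU', hG⟩ := (GoodBall.isLocBihol_ucInv hB hf hr hr1 hc).2 w hw
  have hP := X.isParam hG
  have hherm : (k (ucInv f r) w).IsHermitian := hB.kahler.herm hG w hwU'
  obtain ⟨hGw, hFG⟩ := GoodBall.ucInv_spec hB hf hr hr1 hc hw
  have hGw1 : ‖ucInv f r w‖ < 1 := by
    have : ‖ucInv f r w‖ < r := by simpa using hGw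
    linarith
  have hdG : DifferentiableAt ℝ (ucInv f r) w := (hP.contDiffAt hwU').differentiableAt (by simp)
  have hdF : DifferentiableAt ℝ (ucVec f) (ucInv f r w) := GoodBall.uc_diffAt hB hf hGw1
  have heq : (ucVec f ∘ ucInv f r) =ᶠ[𝓝 w] fun w => ucVec f 0 + w := by
    filter_upwards [hP.isOpen.mem_nhds hwU'] with y hy
    exact (GoodBall.ucInv_spec hB hf hr hr1 hc (hU'sub hy)).2
  have hchain : (fderiv ℝ (ucVec f) (ucInv f r w)).comp (fderiv ℝ (ucInv f r) w) =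
      ContinuousLinearMap.id ℝ (CE ι) := by
    rw [← fderiv_comp w hdF hdG, heq.fderiv_eq, fderiv_const_add, fderiv_fun_id]
  have hb : ∀ v : CE ι, 4 / 5 * ‖v‖ ≤ ‖fderiv ℝ (ucInv f r) w v‖ ∧ ‖fderiv ℝ (ucInv f r) w v‖ ≤ 4 / 3 * ‖v‖ := by
    intro v
    have h1 := congrArg (fun L : CE ι →L[ℝ] CE ι => L v) hchain
    simp only [ContinuousLinearMap.comp_apply, ContinuousLinearMap.id_apply] at h1
    have h2 := uc_norm_fderiv_bounds (hc _ hGw) (fderiv ℝ (ucInv f r) w v)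
    rw [h1] at h2
    constructor <;> linarith [h2.1, h2.2]
  constructor
  · rw [uc_cI_le_iff hherm]
    intro v
    rw [hB.qf_eq hG hwU' v]
    have h1 := hB.le_G hK hGw1 (fderiv ℝ (ucInv f r) w v)
    have h2 := (hb v).1
    have h3 : (4 / 5 * ‖v‖) ^ 2 ≤ ‖fderiv ℝ (ucInv f r) w v‖ ^ 2 := pow_le_pow_left₀ (by positivity) h2 2
    nlinarith
  · rw [uc_le_cI_iff hherm]
    intro v
    rw [hB.qf_eq hG hwU' v]
    have h1 := hB.G_le hK hGw1 (fderiv ℝ (ucInv f r) w v)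
    have h2 := (hb v).2
    have h3 : ‖fderiv ℝ (ucInv f r) w v‖ ^ 2 ≤ (4 / 3 * ‖v‖) ^ 2 := pow_le_pow_left₀ (norm_nonneg _) h2 2
    nlinarith

end invhol

/-- **output of the analytic block**: a holomorphic chart of definite size on a `GoodBall` with small curvature. -/
theorem uc_chart_of_goodBall (ι : Type) [Fintype ι] [DecidableEq ι] [Nonempty ι] :
    ∃ ε₀ r₂ : ℝ, 0 < ε₀ ∧ ε₀ ≤ 1 / 3 ∧ 0 < r₂ ∧
      ∀ (X : CMfd (CE ι) ι) (k : HFam (CE ι) ι) (S : RGeo (CE ι)) (K : ℝ),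
      GoodBall X k S K → K ≤ ε₀ → ∃ G : CE ι → CE ι, IsLocBihol X G (Metric.ball 0 r₂) ∧ G 0 = 0 ∧
        ∀ w ∈ Metric.ball (0 : CE ι) r₂, leM (cI (8 / 25)) (k G w) ∧ leM (k G w) (cI (32 / 9)) := by
  obtain ⟨ε₀, r₁, hε₀, hε₁, hr₁, hr₁', H⟩ := uc_fderiv_close ι
  refine ⟨ε₀, r₁ / 2, hε₀, hε₁, by positivity, fun X k S K hB hK => ?_⟩
  obtain ⟨f, hf, hc⟩ := H X k S K hB hK
  have hr1 : r₁ ≤ 1 := by linarith
  have hK1 : K ≤ 1 := by linarith
  exact ⟨ucInv f r₁, hB.isLocBihol_ucInv hf hr₁ hr1 hc, hB.ucInv_zero hf hr₁ hr1 hc,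
    fun w hw => hB.ucInv_bounds hK1 hf hr₁ hr1 hc hw⟩

end Claimed.Agent.R316
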