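import Claimed.Agent.R316.Base.Chart.ExpBall
import Claimed.Agent.R316.Base.Chart.Inv
import Claimed.Agent.R316.CM.Normal

/-!
# `BP-G14`: holomorphic charts of definite size from a curvature bound (NO injectivity radius)  --  EXPORT FILE

Architect: helper195.  PAPER FREE.
**RESULT** `uc_chart_of_scal_le`: for `κ, ρ > 0` there is `r > 0` (depending only on `ι, κ, ρ`) such that for every complete Kaehler manifold `(𝓜,h)` with `BK ≥ 0` and every `p` with scalar curvature `≤ κ` on the `h`-ball `B(p,ρ)`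
there is an immersed holomorphic chart `Φ : ball 0 r → 𝓜`, `Φ 0 = p`, `h Φ 0 = 1`, `9/100 ≤ h Φ w ≤ 100/9`.   It is PROVED below from the leaves of `Base/Chart/*.lean`.

STRUCTURE OF THE PACKAGE (`Base/Chart/`):
`Normal` (A: one real normal chart, Jacobi/Hessian comparison, `GoodBall`) → `Pull` (X: complex structure and metric pulled back by an immersion) → `ExpBall` (B: `exp_p` unwraps the unit ball: `UcSetup.goodBall`)
→ `Cplx` (K: `J` parallel, `dd|x|² ≈ k`) → `Real` (R/M: volume density, weak form, Moser from `Lib/Dgnm`) → `Dbar` (C: Hoermander `L²` via `Base/L2M`: holomorphic `f_a` with `∫|x_a - f_a|² ≤ C K²`)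
→ `Boch`, `BochG` (Bochner formulas for `|f|², |∂f|², |∇∂f|²`) → `Interior` (P: `|∂f|² + |∇∂f|² ≤ C ∫|f|²`) → `Inv` (E: `dF ≈ id`, inverse function theorem) → `Main` (this file).

## Leaves of this file (sections)  --  BOTH PROVED (helper195): this file is sorry-free
* `G14-F1` (section `scale`): scaling of `scalCurv`, `BisecNonneg`, `hball`, `IsProperMetric`, `leM`.
* `G14-F2` (section `linear`): linear reparametrisation of an immersed chart; `uc_normalize`.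

## RECIPES
**F1.**  `uc_scalCurv_smul`: chart at `x` (`𝓜.cover`), `scalCurv_eq` for both metrics (`IsMetric.smul_real`), `ricF_smul_real`, `(c • H)⁻¹ = c⁻¹ • H⁻¹` (`Matrix.inv_smul`/`smul_inv`; `H` invertible: `PosDef`), `Matrix.trace_smul`.  `uc_bisecNonneg_smul`: `bisec_smul_real`.
`uc_hball_smul`: `(fun Φ z => (c:ℂ) • h Φ z) = smulF (fun _ => c) h` by `rfl`; `hdist_smulF_const`; `√c d < r ↔ d < r/√c` (`lt_div_iff₀'`).  `uc_isProper_smul`: the same for `hcball`.  `uc_leM_smul`: `(c • A - cI a) = c • (A - cI (a/c))`, `PosSemidef.smul`; or `uc_cI_le_iff`-style with `posSemidef_iff_qf`, `qf_smul`.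
**F2.**  `ucLin T` is `ℂ`-linear, continuous (`Matrix.toEuclideanCLM`/`Matrix.toLin'` + `LinearMap.toContinuousLinearMap`), injective (`Matrix.mulVec_injective_iff_isUnit`/`det ≠ 0`), `fderiv ℂ (ucLin T) z = ` itself, `jac (ucLin T) z = T`.  So `StdHol B (ucLin T) B'`; `IsLocBihol.comp_stdHol`.
`form_comp_ucLin`: pick `U ∋ ucLin T w` with `𝓜.IsHol Φ U` (`hΦ.2`), `U' = B' ∩ (ucLin T)⁻¹ U`; `𝓜.reparam` gives `𝓜.IsHol (Φ ∘ ucLin T) U'`; `IsHForm.comp_eq` (`CM/Normal.lean`).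
`uc_normalize`: `H₀ = h Φ 0` is `PosDef` (`IsLocBihol.posDef`); `exists_simDiag`/`nc_exists_frame`/`exists_sqrt_posDef` give `T`, `Tᴴ H₀ T = 1`, `det T ≠ 0`.  `‖v‖² = qf H₀ (T v)` (`qf_conj`, `qf_one`), so `c ‖T v‖² ≤ ‖v‖² ≤ C ‖T v‖²` (`uc_cI_le_iff`, `uc_le_cI_iff`).  `ucLin T` maps `ball 0 (r √c)` into `ball 0 r`.
`h (Φ ∘ ucLin T) w = Tᴴ h Φ (T w) T`, `qf` of it at `v` is `qf (h Φ (T w)) (T v) ∈ [c ‖T v‖², C ‖T v‖²] ⊆ [(c/C) ‖v‖², (C/c) ‖v‖²]`.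
-/

set_option autoImplicit false
set_option linter.unusedSectionVars false
set_option maxSynthPendingDepth 3
open scoped ContDiff Topology ComplexOrder Matrix

namespace Claimed.Agent.R316

variable {V : Type} [NormedAddCommGroup V] [NormedSpace ℝ V] [FiniteDimensional ℝ V]
variable {ι : Type} [Fintype ι] [DecidableEq ι]
variable {𝓜 : CMfd V ι} {h A : HFam V ι} {Φ : CE ι → V} {B B' : Set (CE ι)}

/-- the linear map of a matrix. -/
noncomputable def ucLin (T : Matrix ι ι ℂ) (w : CE ι) : CE ι := WithLp.toLp 2 (T *ᵥ w)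

section scale

theorem uc_scalCurv_smul {c : ℝ} (hc : 0 < c) (hh : IsMetric 𝓜 h) {x : V} (hx : x ∈ 𝓜.carrier) :
    scalCurv 𝓜 (fun Φ z => ((c : ℝ) : ℂ) • h Φ z) x = c⁻¹ * scalCurv 𝓜 h x := by
  obtain ⟨Φ, U, hΦ, z, hz, rfl⟩ := 𝓜.cover x hx
  rw [scalCurv_eq (hh.smul_real hc) hΦ hz, scalCurv_eq hh hΦ hz, ricF_smul_real hc hh hΦ hz,
    forms_inv_smul, Matrix.smul_mul, Matrix.trace_smul, smul_eq_mul, ← Complex.ofReal_inv,
    Complex.re_ofReal_mul]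

theorem uc_bisecNonneg_smul {c : ℝ} (hc : 0 < c) (hh : IsHForm 𝓜 h) (hb : BisecNonneg 𝓜 h) :
    BisecNonneg 𝓜 (fun Φ z => ((c : ℝ) : ℂ) • h Φ z) := by
  intro Φ U hΦ z hz v w
  rw [bisec_smul_real hc.ne' hh hΦ hz]
  exact mul_nonneg hc.le (hb Φ U hΦ z hz v w)

theorem uc_hball_smul {c : ℝ} (hc : 0 < c) (hh : IsMetric 𝓜 h) (x : V) (r : ℝ) :
    hball 𝓜 (fun Φ z => ((c : ℝ) : ℂ) • h Φ z) x r = hball 𝓜 h x (r / Real.sqrt c) := by
  ext y
  have e : hdist 𝓜 (fun Φ z => ((c : ℝ) : ℂ) • h Φ z) x y = Real.sqrt c * hdist 𝓜 h x y :=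
    hdist_smulF_const hh hc x y
  simp only [hball, Set.mem_setOf_eq, e, lt_div_iff₀' (Real.sqrt_pos.2 hc)]

theorem uc_isProper_smul {c : ℝ} (hc : 0 < c) (hh : IsMetric 𝓜 h) (hp : IsProperMetric 𝓜 h) :
    IsProperMetric 𝓜 (fun Φ z => ((c : ℝ) : ℂ) • h Φ z) := by
  intro x hx r
  have e : hcball 𝓜 (fun Φ z => ((c : ℝ) : ℂ) • h Φ z) x r = hcball 𝓜 h x (r / Real.sqrt c) := by
    ext y
    have e : hdist 𝓜 (fun Φ z => ((c : ℝ) : ℂ) • h Φ z) x y = Real.sqrt c * hdist 𝓜 h x y :=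
      hdist_smulF_const hh hc x y
    simp only [hcball, Set.mem_setOf_eq, e, le_div_iff₀' (Real.sqrt_pos.2 hc)]
  rw [e]
  exact hp x hx _

theorem uc_leM_smul {c a b : ℝ} (hc : 0 < c) {M : Matrix ι ι ℂ}
    (h1 : leM (cI a) (((c : ℝ) : ℂ) • M)) (h2 : leM (((c : ℝ) : ℂ) • M) (cI b)) :
    leM (cI (a / c)) M ∧ leM M (cI (b / c)) := by
  have hc' : ((c : ℝ) : ℂ) ≠ 0 := by exact_mod_cast hc.ne'
  have hci : (0 : ℂ) ≤ ((c⁻¹ : ℝ) : ℂ) := by exact_mod_cast (inv_pos.2 hc).le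
  constructor
  · have e : M - cI (a / c) = ((c⁻¹ : ℝ) : ℂ) • (((c : ℝ) : ℂ) • M - cI a) := by
      unfold cI
      rw [smul_sub, smul_smul, smul_smul]
      push_cast
      rw [inv_mul_cancel₀ hc', one_smul, div_eq_inv_mul]
    unfold leM at h1 ⊢
    rw [e]
    exact h1.smul hci
  · have e : cI (b / c) - M = ((c⁻¹ : ℝ) : ℂ) • (cI b - ((c : ℝ) : ℂ) • M) := by
      unfold cI
      rw [smul_sub, smul_smul, smul_smul]
      push_cast
      rw [inv_mul_cancel₀ hc', one_smul, div_eq_inv_mul]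
    unfold leM at h2 ⊢
    rw [e]
    exact h2.smul hci

end scale

section linear

theorem ucLin_eq_clm (T : Matrix ι ι ℂ) :
    ucLin T = ⇑(Matrix.toEuclideanCLM (n := ι) (𝕜 := ℂ) T) := rfl

theorem ucLin_zero (T : Matrix ι ι ℂ) : ucLin T 0 = 0 := by
  rw [ucLin_eq_clm, map_zero]

theorem fderiv_ucLin (T : Matrix ι ι ℂ) (z : CE ι) :
    fderiv ℂ (ucLin T) z = Matrix.toEuclideanCLM (n := ι) (𝕜 := ℂ) T := by
  rw [ucLin_eq_clm]
  exact ContinuousLinearMap.fderiv _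

theorem jac_ucLin (T : Matrix ι ι ℂ) (z : CE ι) : jac (ucLin T) z = T := by
  ext j k
  unfold jac
  rw [fderiv_ucLin]
  show (T *ᵥ (eb k : ι → ℂ)) j = T j k
  have : (eb k : ι → ℂ) = Pi.single k 1 := by
    funext i
    simp [eb, Pi.single_apply]
  rw [this, Matrix.mulVec_single_one]
  rfl

theorem ucLin_injective {T : Matrix ι ι ℂ} (hT : T.det ≠ 0) : Function.Injective (ucLin T) := by
  intro x y hxy
  have h1 : T *ᵥ (x : ι → ℂ) = T *ᵥ (y : ι → ℂ) := congrArg WithLp.ofLp hxy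
  have hu : IsUnit T := (Matrix.isUnit_iff_isUnit_det T).2 (isUnit_iff_ne_zero.2 hT)
  have h2 := Matrix.mulVec_injective_iff_isUnit.2 hu h1
  exact WithLp.ofLp_injective 2 h2

theorem stdHol_ucLin {T : Matrix ι ι ℂ} (hT : T.det ≠ 0) (hB' : IsOpen B')
    (hm : Set.MapsTo (ucLin T) B' B) : StdHol B (ucLin T) B' where
  isOpen := hB'
  hol := by
    rw [ucLin_eq_clm]
    exact (ContinuousLinearMap.differentiable _).differentiableOn
  injOn := (ucLin_injective hT).injOn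
  immersion := fun z _ => by
    rw [fderiv_ucLin, ← ucLin_eq_clm]
    exact ucLin_injective hT
  mapsTo := hm

theorem IsLocBihol.comp_ucLin (hΦ : IsLocBihol 𝓜 Φ B) {T : Matrix ι ι ℂ} (hT : T.det ≠ 0)
    (hB' : IsOpen B') (hm : Set.MapsTo (ucLin T) B' B) : IsLocBihol 𝓜 (Φ ∘ ucLin T) B' :=
  hΦ.comp_stdHol (stdHol_ucLin hT hB' hm)

theorem IsLocBihol.form_comp_ucLin (hΦ : IsLocBihol 𝓜 Φ B) (hA : IsHForm 𝓜 A) {T : Matrix ι ι ℂ}
    (hT : T.det ≠ 0) (hB' : IsOpen B') (hm : Set.MapsTo (ucLin T) B' B) {w : CE ι} (hw : w ∈ B') :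
    A (Φ ∘ ucLin T) w = Tᴴ * A Φ (ucLin T w) * T := by
  obtain ⟨U, _, hwU, hU⟩ := hΦ.2 _ (hm hw)
  have hcont : Continuous (ucLin T) := by
    rw [ucLin_eq_clm]
    exact ContinuousLinearMap.continuous _
  have hU'o : IsOpen (B' ∩ ucLin T ⁻¹' U) := hB'.inter ((CMfd.isOpen_dom hU).preimage hcont)
  have hS : StdHol U (ucLin T) (B' ∩ ucLin T ⁻¹' U) := stdHol_ucLin hT hU'o fun z hz => hz.2
  have h1 : 𝓜.IsHol (Φ ∘ ucLin T) (B' ∩ ucLin T ⁻¹' U) :=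
    𝓜.reparam hU (ucLin T) _ hS.isOpen hS.hol hS.injOn hS.immersion hS.mapsTo
  rw [hA.comp_eq hU h1 hS.mapsTo ⟨hw, hwU⟩, jac_ucLin]

/-- **normalisation at the centre** by a linear change of coordinates. -/
theorem uc_normalize (hh : IsMetric 𝓜 h) {r c C : ℝ} (hr : 0 < r) (hc : 0 < c) (hC : 0 < C)
    (hΦ : IsLocBihol 𝓜 Φ (Metric.ball 0 r))
    (hb : ∀ w ∈ Metric.ball (0 : CE ι) r, leM (cI c) (h Φ w) ∧ leM (h Φ w) (cI C)) :
    ∃ Φ' : CE ι → V, IsLocBihol 𝓜 Φ' (Metric.ball 0 (r * Real.sqrt c)) ∧ Φ' 0 = Φ 0 ∧ h Φ' 0 = 1 ∧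
      ∀ w ∈ Metric.ball (0 : CE ι) (r * Real.sqrt c),
        leM (cI (c / C)) (h Φ' w) ∧ leM (h Φ' w) (cI (C / c)) := by
  have h0 : (0 : CE ι) ∈ Metric.ball (0 : CE ι) r := Metric.mem_ball_self hr
  have hH₀ : (h Φ 0).PosDef := hΦ.posDef hh h0
  obtain ⟨T, _, hT, h1, _⟩ := exists_simDiag hH₀ hH₀.isHermitian
  have key : ∀ v : CE ι, qf (h Φ 0) (ucLin T v) = ‖v‖ ^ 2 := by
    intro v
    rw [EuclideanSpace.norm_sq_eq]
    exact simDiag_qf_one h1 v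
  have lo : ∀ v : CE ι, c * ‖ucLin T v‖ ^ 2 ≤ ‖v‖ ^ 2 := fun v => by
    rw [← key v]
    exact (uc_cI_le_iff hH₀.isHermitian c).1 (hb 0 h0).1 _
  have up : ∀ v : CE ι, ‖v‖ ^ 2 ≤ C * ‖ucLin T v‖ ^ 2 := fun v => by
    rw [← key v]
    exact (uc_le_cI_iff hH₀.isHermitian C).1 (hb 0 h0).2 _
  have hsc : 0 < Real.sqrt c := Real.sqrt_pos.2 hc
  have hm : Set.MapsTo (ucLin T) (Metric.ball 0 (r * Real.sqrt c)) (Metric.ball 0 r) := by
    intro w hw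
    rw [mem_ball_zero_iff] at hw ⊢
    have a1 : ‖w‖ ^ 2 < (r * Real.sqrt c) ^ 2 := pow_lt_pow_left₀ hw (norm_nonneg _) two_ne_zero
    rw [mul_pow, Real.sq_sqrt hc.le] at a1
    have a2 := lo w
    have a3 : ‖ucLin T w‖ ^ 2 < r ^ 2 := by nlinarith
    exact lt_of_pow_lt_pow_left₀ 2 hr.le a3
  have hΦ' := hΦ.comp_ucLin hT Metric.isOpen_ball hm
  have hform : ∀ w ∈ Metric.ball (0 : CE ι) (r * Real.sqrt c),
      h (Φ ∘ ucLin T) w = Tᴴ * h Φ (ucLin T w) * T := fun w hw =>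
    hΦ.form_comp_ucLin hh.toIsHForm hT Metric.isOpen_ball hm hw
  have h0' : (0 : CE ι) ∈ Metric.ball (0 : CE ι) (r * Real.sqrt c) :=
    Metric.mem_ball_self (by positivity)
  refine ⟨Φ ∘ ucLin T, hΦ', by rw [Function.comp_apply, ucLin_zero], ?_, fun w hw => ?_⟩
  · rw [hform 0 h0', ucLin_zero, h1]
  · have hher := hΦ'.isHermitian hh.toIsHForm hw
    have hher2 := hΦ.isHermitian hh.toIsHForm (hm hw)
    rw [uc_cI_le_iff hher, uc_le_cI_iff hher, hform w hw]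
    have b1 := (uc_cI_le_iff hher2 c).1 (hb _ (hm hw)).1
    have b2 := (uc_le_cI_iff hher2 C).1 (hb _ (hm hw)).2
    have e : ∀ v : CE ι, qf (Tᴴ * h Φ (ucLin T w) * T) v = qf (h Φ (ucLin T w)) (ucLin T v) :=
      fun v => qf_conj T _ _
    constructor
    · intro v
      rw [e]
      have a1 := b1 (ucLin T v)
      have a2 := up v
      calc c / C * ‖v‖ ^ 2 ≤ c / C * (C * ‖ucLin T v‖ ^ 2) :=
            mul_le_mul_of_nonneg_left a2 (by positivity)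
        _ = c * ‖ucLin T v‖ ^ 2 := by field_simp
        _ ≤ _ := a1
    · intro v
      rw [e]
      have a1 := b2 (ucLin T v)
      have a2 := lo v
      calc qf (h Φ (ucLin T w)) (ucLin T v) ≤ C * ‖ucLin T v‖ ^ 2 := a1
        _ = C / c * (c * ‖ucLin T v‖ ^ 2) := by field_simp
        _ ≤ C / c * ‖v‖ ^ 2 := mul_le_mul_of_nonneg_left a2 (by positivity)

end linear

/-- **the chart at unit scale** (not yet normalised at the centre). -/
theorem uc_chart_unit (ι : Type) [Fintype ι] [DecidableEq ι] [Nonempty ι] :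
    ∃ ε₁ r : ℝ, 0 < ε₁ ∧ 0 < r ∧
      ∀ (V : Type) [NormedAddCommGroup V] [NormedSpace ℝ V] [FiniteDimensional ℝ V]
        (𝓜 : CMfd V ι) (h : HFam V ι) (p : V), IsClosed 𝓜.carrier → IsConnected 𝓜.carrier →
        IsKahler 𝓜 h → IsProperMetric 𝓜 h → BisecNonneg 𝓜 h → p ∈ 𝓜.carrier →
        (∀ x ∈ hball 𝓜 h p 1, scalCurv 𝓜 h x ≤ ε₁) →
        ∃ Φ : CE ι → V, IsLocBihol 𝓜 Φ (Metric.ball 0 r) ∧ Φ 0 = p ∧
          ∀ w ∈ Metric.ball (0 : CE ι) r,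
            leM (cI (8 / 25)) (h Φ w) ∧ leM (h Φ w) (cI (32 / 9)) := by
  obtain ⟨ε₀, r₂, hε₀, hε₀', hr₂, H⟩ := uc_chart_of_goodBall ι
  refine ⟨ε₀ / 3, r₂, by positivity, hr₂, ?_⟩
  intro V _ _ _ 𝓜 h p hcl hconn hk hprop hbis hp hscal
  obtain ⟨Φ₀, U₀, _, hΦ₀, h0, hp0, hunit, _⟩ :=
    exists_unitary_coords hk.toIsMetric hk.toIsHForm hp
  have hS : UcSetup 𝓜 h Φ₀ U₀ (ε₀ / 3) :=
    ⟨hcl, hconn, hk, hprop, hbis, hΦ₀, h0, hunit, by positivity, by rw [hp0]; exact hscal⟩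
  have hε : 3 * (ε₀ / 3) ≤ 1 := by linarith
  obtain ⟨G, hG, hG0, hGb⟩ := H _ _ _ _ (hS.goodBall hε) (by linarith)
  refine ⟨ucExp 𝓜 h Φ₀ ∘ G, hG.comp_pullMfd (hS.ucImm hε), ?_, fun w hw => hGb w hw⟩
  rw [Function.comp_apply, hG0, hS.ucExp_zero, hp0]

/-- **`BP-G14`, GOAL A: holomorphic charts of definite size.** -/
theorem uc_chart_of_scal_le (ι : Type) [Fintype ι] [DecidableEq ι] [Nonempty ι] (κ ρ : ℝ)
    (hκ : 0 < κ) (hρ : 0 < ρ) :
    ∃ r : ℝ, 0 < r ∧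
      ∀ (V : Type) [NormedAddCommGroup V] [NormedSpace ℝ V] [FiniteDimensional ℝ V]
        (𝓜 : CMfd V ι) (h : HFam V ι) (p : V), IsClosed 𝓜.carrier → IsConnected 𝓜.carrier →
        IsKahler 𝓜 h → IsProperMetric 𝓜 h → BisecNonneg 𝓜 h → p ∈ 𝓜.carrier →
        (∀ x ∈ hball 𝓜 h p ρ, scalCurv 𝓜 h x ≤ κ) →
        ∃ Φ : CE ι → V, IsLocBihol 𝓜 Φ (Metric.ball 0 r) ∧ Φ 0 = p ∧ h Φ 0 = 1 ∧
          ∀ w ∈ Metric.ball (0 : CE ι) r,
            leM (cI (9 / 100)) (h Φ w) ∧ leM (h Φ w) (cI (100 / 9)) := by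
  obtain ⟨ε₁, r₁, hε₁, hr₁, H⟩ := uc_chart_unit ι
  set μ : ℝ := max (κ / ε₁) (1 / ρ ^ 2) with hμdef
  have hμ : 0 < μ := lt_of_lt_of_le (by positivity) (le_max_left _ _)
  refine ⟨r₁ * Real.sqrt (8 / 25 / μ), by positivity, ?_⟩
  intro V _ _ _ 𝓜 h p hcl hconn hk hprop hbis hp hscal
  have hsub : hball 𝓜 (fun Φ z => ((μ : ℝ) : ℂ) • h Φ z) p 1 ⊆ hball 𝓜 h p ρ := by
    rw [uc_hball_smul hμ hk.toIsMetric]
    refine hball_mono 𝓜 h p ?_
    rw [div_le_iff₀ (Real.sqrt_pos.2 hμ)]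
    have h1 : 1 / ρ ^ 2 ≤ μ := le_max_right _ _
    have h2 : 1 / ρ ≤ Real.sqrt μ := by
      refine Real.le_sqrt_of_sq_le ?_
      rw [div_pow, one_pow]
      exact h1
    calc (1 : ℝ) = ρ * (1 / ρ) := by field_simp
      _ ≤ ρ * Real.sqrt μ := mul_le_mul_of_nonneg_left h2 hρ.le
  obtain ⟨Φ', hΦ', hΦ'0, hb⟩ := H V 𝓜 (fun Φ z => ((μ : ℝ) : ℂ) • h Φ z) p hcl hconn
    (hk.smul_real hμ) (uc_isProper_smul hμ hk.toIsMetric hprop)
    (uc_bisecNonneg_smul hμ hk.toIsHForm hbis) hp (by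
      intro x hx
      rw [uc_scalCurv_smul hμ hk.toIsMetric hx.1]
      have h1 := hscal x (hsub hx)
      have h2 : κ / ε₁ ≤ μ := le_max_left _ _
      have h3 : κ ≤ μ * ε₁ := by rwa [div_le_iff₀ hε₁] at h2
      rw [inv_mul_le_iff₀ hμ]
      linarith)
  obtain ⟨Φ, hΦ, hΦ0, hone, hbb⟩ := uc_normalize hk.toIsMetric hr₁
    (show (0 : ℝ) < 8 / 25 / μ by positivity) (show (0 : ℝ) < 32 / 9 / μ by positivity) hΦ'
    (fun w hw => uc_leM_smul hμ (hb w hw).1 (hb w hw).2)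
  refine ⟨Φ, hΦ, hΦ0.trans hΦ'0, hone, fun w hw => ?_⟩
  have e1 : (8 / 25 / μ) / (32 / 9 / μ) = 9 / 100 := by field_simp; norm_num
  have e2 : (32 / 9 / μ) / (8 / 25 / μ) = 100 / 9 := by field_simp; norm_num
  have := hbb w hw
  rwa [e1, e2] at this

end Claimed.Agent.R316
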