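import Claimed.Agent.R316.Pack016_2

/-!
# `BP-G14` part A: a Riemannian structure written in geodesic normal coordinates (ONE real chart)

Architect: helper195.  PAPER FREE.  Everything here is about ONE `RGeo W` on a star shaped domain of a real inner product space `W`
(package `BP-G1`, `import ...Base.RGeo.Api`; all statements of that package are black boxes).

`S.IsRadial K`: `S` is Riemannian on a domain `U ∋ 0`, star shaped about `0`, `G 0` is the inner product of `W`, the straight rays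
`t ↦ t • x` are geodesics (`Γ x x x = 0`) and `|Rm(a,b,b,a)| ≤ K |a|²|b|²` on `U`.
`S.IsPT x e e'`: `e'` is the parallel transport of `e ∈ T_0` along the ray `t ↦ t • x` to the point `x`.

## Leaves (each = one `section`)
* `G14-A1` (section `rays`): rays are geodesics, `rexp 0 = id`, Gauss lemma.
* `G14-A2` (section `transport`): existence/uniqueness/linearity/isometry of `IsPT`, the comparison `|a - P_x a| ≤ (2/9) K |x|² |a|`,
  two sided comparison of `S.nrm x` with the norm of `W`.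
* `G14-A3` (section `hessian`): `|Hess |x|² - 2 G| ≤ 3 K |x|² G`, gradient of `|x|²`.
* `G14-A4` (section `taylor`): first order Taylor estimates along rays from a Hessian bound.

## RECIPES
**A1.**  `mem_ray`: `U` is a nbhd of the compact segment `[0,1] • x`; `{t | t • x ∈ U}` is an o-p-e-n subset of `ℝ` containing `Icc 0 1`, so it contains
`Ioo (-ε) (1+ε)` (`IsCompact.exists_thickening_subset_open` / `Metric` argument or: `-ε`, `1+ε` from the two end points and `star`; for `t ∈ (-ε,0)` use that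
`U` is a nbhd of `0`).  `Γ_ray`: for `y = t • x ∈ U`: `0 = Γ y y y = t² • Γ (t • x) x x`; so `Γ (t • x) x x = 0` if `t ≠ 0`; for `t = 0` by continuity of
`t ↦ Γ (t • x) x x` at `0` (`riem.Γ_smooth.continuousOn`; the function vanishes on a punctured nbhd).  `isGeod_ray`: `deriv (fun t => t • x) = fun _ => x`,
`covD c (deriv c) t = 0 + Γ (t • x) x x`.  `rexp_zero_eq`: `IsGeod.rexp_eq` with `t₀ = 0`, `t = 1`.  `fderiv_rexp_zero_eq`: `rexp 0 = id` on the nbhd `U` of `x`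
(`Filter.EventuallyEq.fderiv_eq`).  `gauss`: `IsRiem.gauss_lemma` at `(0, x)`, rewrite with the three previous lemmas and `G_zero`.
`G_ray`: `gauss` at `t • x` with `w = x`: `t * G (t•x) x x = t * ‖x‖²`; for `t = 0` it is `G_zero` (or use `IsGeod.G_const`).
**A2.**  `exists_isPT`: `IsRiem.exists_parallel` on `I = Ioo (-ε) (1+ε)`.  `IsPT.unique`: take the smaller `ε`, `isParallel_eqOn`.  `add/smul`: `IsParallel.add`,
`IsParallel.const_smul` (smaller `ε`).  `G_eq`: `IsParallel.G_const` between `s = 0`, `t = 1` and `G_zero`.  `exists_isPT_inv`: the map `e ↦ ptr x e` is linear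
(`unique` + `add`/`smul`) and norm preserving into `(W, G x)`, hence injective, hence surjective (finite dimension: `LinearMap.injective_iff_surjective`).
`IsPT.nrm_sub_le`: `f (p, σ) = σ • (x + p)` on `O ×ˢ Ioo (-ε) (1+ε)`, `O` a small ball about `0` (tube lemma: `generalized_tube_lemma` / compactness of `Icc`, all
`σ • (x + p) ∈ U`; shrink `ε`), each `σ ↦ σ • (x+p)` is a geodesic (`isGeod_ray`-proof), so by `IsRiem.isJacobi_of_family` `V σ = σ • a` is a Jacobi field along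
`c σ = σ • x`; `V 0 = 0`, `covD c V 0 = a + Γ 0 x 0 = a`.  `IsJacobi.bounds` with `T = 1`, `A = 0`, `B = Z` (the parallel field of `IsPT x a a'`), any `k ∈ (0,1]` with
`K ‖x‖² ≤ k²`; `hsec` from `sec` and `G_ray`.  Third bound at `t = 1`: `nrm x (a - a') ≤ ‖a‖ (sinh k / k - 1) ≤ (2/9) k² ‖a‖` (`ODE.sinh_sub_le`).  If `K ‖x‖² > 0` take
`k = √(K ‖x‖²)`, otherwise let `k → 0` (`le_of_forall_pos_le_add`).  The fourth bound gives `nrm_cov_sub_le` in the same way (`ODE.cosh_sub_one_le`).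
`nrm_le`, `le_nrm`: triangle inequality for `S.nrm x` (`RGeo.nrm_add_le`/`nrm_sub_le` of `Basic.lean`) and `nrm x a' = ‖a‖`.
**A3.**  `fderiv_normSq`: `HasFDerivAt (fun y => ‖y‖²) (2 • innerSL ℝ x)`.  Differentiate `gauss` (`G y y b = ⟪y,b⟫` on `U`) in the direction `a` with `riem.compat`
(`IsRiem.hasDerivAt_G`/`fderiv_G_comp` of `Cov.lean`): `⟪a,b⟫ - G x x (Γ x a b) = G x (a + Γ x a x) b`.  Hence `hess ρ x a b = 2 G x (a + Γ x x a) b` (`hess_eq`, `Γ_symm`), and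
`a + Γ x x a = covD c V 1` for `V σ = σ • a`; now `nrm_cov_sub_le`, `nrm_sub_le`, Cauchy-Schwarz for `G x` (`RGeo.abs_G_le` of `Basic.lean`) and `‖a‖ ≤ (9/7) nrm x a`:
`|hess ρ x a a - 2 G x a a| ≤ 2 (8/9) K ‖x‖² ‖a‖ nrm x a ≤ (16/7) K‖x‖² G x a a`.
**A4.**  `φ t = fderiv u (t • x) (Z t)`: `φ' t = hess u (t • x) x (Z t)` (chain rule; `Z' = - Γ (t•x) x (Z t)`), `|φ'| ≤ M nrm (x) nrm (Z t) = M ‖x‖ ‖e‖` (`G_ray`, `IsParallel.nrm_const`), mean value
inequality on `[0,1]` (`Convex.norm_image_sub_le_of_norm_deriv_le`).  `g t = u (t • x)`: `g' t = fderiv u (t•x) x`, `g'' t = hess u (t • x) x x` (`hess_comp_curve`, geodesic), `|g''| ≤ M ‖x‖²`;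
`|g' t - g' 0| ≤ M ‖x‖² t`, integrate (`g 1 - g 0 - g' 0 = ∫_0^1 (g' t - g' 0)`) or apply the mean value inequality to `t ↦ g t - g 0 - t g' 0 ∓ M ‖x‖² t²/2` (monotone).
-/

set_option autoImplicit false
set_option linter.unusedSectionVars false
set_option maxSynthPendingDepth 3
open scoped ContDiff Topology

namespace Claimed.Agent.R316
namespace RGeo

variable {W : Type} [NormedAddCommGroup W] [InnerProductSpace ℝ W] [FiniteDimensional ℝ W]

/-- `S` is a Riemannian structure written in geodesic normal coordinates about `0`, with curvature bound `K`. -/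
structure IsRadial (S : RGeo W) (K : ℝ) : Prop where
  riem : S.IsRiem
  K_nonneg : 0 ≤ K
  zero_mem : (0 : W) ∈ S.U
  star : ∀ x ∈ S.U, ∀ t ∈ Set.Icc (0 : ℝ) 1, t • x ∈ S.U
  G_zero : ∀ a b, S.G 0 a b = inner ℝ a b
  radial : ∀ x ∈ S.U, S.Γ x x x = 0
  sec : ∀ x ∈ S.U, ∀ a b, |S.secNum x a b| ≤ K * (S.G x a a * S.G x b b)

/-- `e'` is the parallel transport of `e` along the ray from `0` to `x`. -/
def IsPT (S : RGeo W) (x e e' : W) : Prop :=
  ∃ (Z : ℝ → W) (ε : ℝ), 0 < ε ∧ ContDiffOn ℝ ∞ Z (Set.Ioo (-ε) (1 + ε)) ∧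
    S.IsParallel (fun t : ℝ => t • x) Z (Set.Ioo (-ε) (1 + ε)) ∧ Z 0 = e ∧ Z 1 = e'

/-- the parallel transport along the ray from `0` to `x`. -/
noncomputable def ptr (S : RGeo W) (x e : W) : W := Classical.epsilon fun e' => S.IsPT x e e'

variable {S : RGeo W} {K M : ℝ} {x a b e a' b' e' : W}

section rays

theorem IsRadial.mem_ray (h : S.IsRadial K) (hx : x ∈ S.U) :
    ∃ ε > (0 : ℝ), ∀ t ∈ Set.Ioo (-ε) (1 + ε), t • x ∈ S.U := by
  have hA : IsOpen {t : ℝ | t • x ∈ S.U} :=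
    h.riem.isOpen.preimage (continuous_id.smul continuous_const)
  obtain ⟨ε₀, hε₀, h0⟩ := Metric.isOpen_iff.mp hA 0 (by simpa using h.zero_mem)
  obtain ⟨ε₁, hε₁, h1⟩ := Metric.isOpen_iff.mp hA 1 (by simpa using hx)
  refine ⟨min ε₀ ε₁, lt_min hε₀ hε₁, fun t ht => ?_⟩
  have a0 := min_le_left ε₀ ε₁
  have a1 := min_le_right ε₀ ε₁
  rcases lt_or_ge t 0 with h2 | h2
  · exact h0 (by rw [Metric.mem_ball, Real.dist_eq, sub_zero, abs_of_neg h2]; linarith [ht.1])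
  · rcases le_or_gt t 1 with h3 | h3
    · exact h.star x hx t ⟨h2, h3⟩
    · exact h1 (by rw [Metric.mem_ball, Real.dist_eq, abs_of_pos (by linarith)]; linarith [ht.2])

theorem IsRadial.Γ_ray (h : S.IsRadial K) {t : ℝ} (hx : t • x ∈ S.U) : S.Γ (t • x) x x = 0 := by
  have key : ∀ s : ℝ, s ≠ 0 → s • x ∈ S.U → S.Γ (s • x) x x = 0 := by
    intro s hs hsx
    have h1 := h.radial _ hsx
    simp only [map_smul, _root_.smul_apply, smul_smul] at h1
    exact (smul_eq_zero.mp h1).resolve_left (mul_ne_zero hs hs)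
  by_cases ht : t = 0
  · subst ht
    have hA : IsOpen {s : ℝ | s • x ∈ S.U} :=
      h.riem.isOpen.preimage (continuous_id.smul continuous_const)
    have hc : ContinuousAt (fun s : ℝ => S.Γ (s • x) x x) 0 := by
      have h1 : ContinuousAt S.Γ ((0 : ℝ) • x) :=
        (h.riem.continuousOn_Γ _ hx).continuousAt (h.riem.isOpen.mem_nhds hx)
      have h2 : ContinuousAt (fun s : ℝ => S.Γ (s • x)) 0 :=
        ContinuousAt.comp (f := fun s : ℝ => s • x) h1 (continuous_id.smul continuous_const).continuousAt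
      exact (h2.clm_apply continuousAt_const).clm_apply continuousAt_const
    have h3 : Filter.Tendsto (fun s : ℝ => S.Γ (s • x) x x) (𝓝[≠] 0) (𝓝 (S.Γ ((0 : ℝ) • x) x x)) :=
      hc.tendsto.mono_left nhdsWithin_le_nhds
    have h4 : Filter.Tendsto (fun s : ℝ => S.Γ (s • x) x x) (𝓝[≠] 0) (𝓝 0) := by
      refine tendsto_const_nhds.congr' ?_
      filter_upwards [self_mem_nhdsWithin, nhdsWithin_le_nhds (hA.mem_nhds hx)] with s hs hs'
      exact (key s hs hs').symm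
    exact tendsto_nhds_unique h3 h4
  · exact key t ht hx

theorem deriv_ray (x : W) : deriv (fun t : ℝ => t • x) = fun _ => x := by
  funext t
  simpa using ((hasDerivAt_id t).smul_const x).deriv

/-- the rays are geodesics. -/
theorem IsRadial.isGeod_ray (h : S.IsRadial K) (hx : x ∈ S.U) :
    ∃ ε > 0, S.IsGeod (fun t : ℝ => t • x) (Set.Ioo (-ε) (1 + ε)) := by
  obtain ⟨ε, hε, hm⟩ := h.mem_ray hx
  refine ⟨ε, hε, (contDiff_id.smul contDiff_const).contDiffOn, hm, fun t ht => ?_⟩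
  simp only [covD, deriv_ray, deriv_const, zero_add]
  exact h.Γ_ray (hm t ht)

theorem IsRadial.rexp_zero_eq (h : S.IsRadial K) (hx : x ∈ S.U) :
    ((0 : W), x) ∈ S.expDom ∧ S.rexp 0 x = x ∧ S.rexpV 0 x = x := by
  obtain ⟨ε, hε, hg⟩ := h.isGeod_ray hx
  have := IsGeod.rexp_eq h.riem isOpen_Ioo Set.ordConnected_Ioo hg (t₀ := 0) (t := 1)
    ⟨by linarith, by linarith⟩ ⟨by linarith, by linarith⟩
  simpa [deriv_ray] using this

theorem IsRadial.fderiv_rexp_zero_eq (h : S.IsRadial K) (hx : x ∈ S.U) :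
    fderiv ℝ (S.rexp 0) x = ContinuousLinearMap.id ℝ W := by
  have h1 : S.rexp 0 =ᶠ[𝓝 x] fun y => y := by
    filter_upwards [h.riem.isOpen.mem_nhds hx] with y hy using (h.rexp_zero_eq hy).2.1
  rw [h1.fderiv_eq]
  exact fderiv_fun_id

/-- **Gauss lemma** in normal coordinates. -/
theorem IsRadial.gauss (h : S.IsRadial K) (hx : x ∈ S.U) (w : W) : S.G x x w = inner ℝ x w := by
  obtain ⟨h1, h2, h3⟩ := h.rexp_zero_eq hx
  have := h.riem.gauss_lemma h1 w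
  rwa [h2, h3, h.fderiv_rexp_zero_eq hx, h.G_zero, ContinuousLinearMap.id_apply] at this

theorem IsRadial.G_self (h : S.IsRadial K) (hx : x ∈ S.U) : S.G x x x = ‖x‖ ^ 2 := by
  rw [h.gauss hx, real_inner_self_eq_norm_sq]

theorem IsRadial.G_ray (h : S.IsRadial K) {t : ℝ} (hx : t • x ∈ S.U) :
    S.G (t • x) x x = ‖x‖ ^ 2 := by
  by_cases ht : t = 0
  · subst ht
    rw [zero_smul, h.G_zero, real_inner_self_eq_norm_sq]
  · have h1 := h.gauss hx x
    rw [map_smul, _root_.smul_apply, real_inner_smul_left, real_inner_self_eq_norm_sq,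
      smul_eq_mul] at h1
    exact mul_left_cancel₀ ht h1

theorem IsRadial.nrm_self (h : S.IsRadial K) (hx : x ∈ S.U) : S.nrm x x = ‖x‖ := by
  rw [nrm, h.G_self hx, Real.sqrt_sq (norm_nonneg _)]

/-- restriction to a smaller star shaped domain. -/
theorem IsRadial.restr (h : S.IsRadial K) {U' : Set W} (hU' : IsOpen U') (hsub : U' ⊆ S.U)
    (h0 : (0 : W) ∈ U') (hstar : ∀ x ∈ U', ∀ t ∈ Set.Icc (0 : ℝ) 1, t • x ∈ U') :
    (S.restr U').IsRadial K :=
  ⟨h.riem.restr hU' hsub, h.K_nonneg, h0, hstar, h.G_zero, fun x hx => h.radial x (hsub hx),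
    fun x hx => h.sec x (hsub hx)⟩

theorem IsRadial.mono (h : S.IsRadial K) {K' : ℝ} (hK : K ≤ K') : S.IsRadial K' :=
  ⟨h.riem, h.K_nonneg.trans hK, h.zero_mem, h.star, h.G_zero, h.radial, fun x hx a b =>
    (h.sec x hx a b).trans (mul_le_mul_of_nonneg_right hK
      (mul_nonneg (h.riem.G_self_nonneg hx a) (h.riem.G_self_nonneg hx b)))⟩

end rays

section transport

/-- the interval can be made smaller. -/
theorem IsPT.exists_le (h1 : S.IsPT x e e') {ε₀ : ℝ} (hε₀ : 0 < ε₀) :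
    ∃ (Z : ℝ → W) (ε : ℝ), 0 < ε ∧ ε ≤ ε₀ ∧ ContDiffOn ℝ ∞ Z (Set.Ioo (-ε) (1 + ε)) ∧
      S.IsParallel (fun t : ℝ => t • x) Z (Set.Ioo (-ε) (1 + ε)) ∧ Z 0 = e ∧ Z 1 = e' := by
  obtain ⟨Z, ε, hε, hZ, hP, h0, h1'⟩ := h1
  have hsub : Set.Ioo (-(min ε ε₀)) (1 + min ε ε₀) ⊆ Set.Ioo (-ε) (1 + ε) :=
    Set.Ioo_subset_Ioo (by linarith [min_le_left ε ε₀]) (by linarith [min_le_left ε ε₀])
  exact ⟨Z, min ε ε₀, lt_min hε hε₀, min_le_right _ _, hZ.mono hsub, hP.mono hsub, h0, h1'⟩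

theorem pt_zero_mem {ε : ℝ} (hε : 0 < ε) : (0 : ℝ) ∈ Set.Ioo (-ε) (1 + ε) :=
  ⟨by linarith, by linarith⟩

theorem pt_one_mem {ε : ℝ} (hε : 0 < ε) : (1 : ℝ) ∈ Set.Ioo (-ε) (1 + ε) :=
  ⟨by linarith, by linarith⟩

theorem pt_diff {Z : ℝ → W} {ε : ℝ} (hZ : ContDiffOn ℝ ∞ Z (Set.Ioo (-ε) (1 + ε))) :
    ∀ t ∈ Set.Ioo (-ε) (1 + ε), DifferentiableAt ℝ Z t := fun t ht =>
  (hZ.contDiffAt (isOpen_Ioo.mem_nhds ht)).differentiableAt (by simp)

theorem pt_ray_diff (x : W) (t : ℝ) : DifferentiableAt ℝ (fun t : ℝ => t • x) t :=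
  (differentiableAt_id).smul_const x

/-- two transports on a common interval inside the domain. -/
theorem IsPT.common (h : S.IsRadial K) (hx : x ∈ S.U) (h1 : S.IsPT x a a') (h2 : S.IsPT x b b') :
    ∃ (Y Z : ℝ → W) (ε : ℝ), 0 < ε ∧ (∀ t ∈ Set.Ioo (-ε) (1 + ε), t • x ∈ S.U) ∧
      ContDiffOn ℝ ∞ Y (Set.Ioo (-ε) (1 + ε)) ∧
      S.IsParallel (fun t : ℝ => t • x) Y (Set.Ioo (-ε) (1 + ε)) ∧ Y 0 = a ∧ Y 1 = a' ∧
      ContDiffOn ℝ ∞ Z (Set.Ioo (-ε) (1 + ε)) ∧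
      S.IsParallel (fun t : ℝ => t • x) Z (Set.Ioo (-ε) (1 + ε)) ∧ Z 0 = b ∧ Z 1 = b' := by
  obtain ⟨ε₀, hε₀, hm⟩ := h.mem_ray hx
  obtain ⟨Y, ε₁, hε₁, hle₁, hY, hYP, hY0, hY1⟩ := h1.exists_le hε₀
  obtain ⟨Z, ε₂, hε₂, hle₂, hZ, hZP, hZ0, hZ1⟩ := h2.exists_le hε₁
  have hsub : Set.Ioo (-ε₂) (1 + ε₂) ⊆ Set.Ioo (-ε₁) (1 + ε₁) :=
    Set.Ioo_subset_Ioo (by linarith) (by linarith)
  have hsub0 : Set.Ioo (-ε₂) (1 + ε₂) ⊆ Set.Ioo (-ε₀) (1 + ε₀) :=
    Set.Ioo_subset_Ioo (by linarith) (by linarith)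
  exact ⟨Y, Z, ε₂, hε₂, fun t ht => hm t (hsub0 ht), hY.mono hsub, hYP.mono hsub, hY0, hY1, hZ, hZP,
    hZ0, hZ1⟩

theorem IsRadial.exists_isPT (h : S.IsRadial K) (hx : x ∈ S.U) (e : W) : ∃ e', S.IsPT x e e' := by
  obtain ⟨ε, hε, hm⟩ := h.mem_ray hx
  obtain ⟨Z, hZ, hP, h0⟩ := h.riem.exists_parallel isOpen_Ioo Set.ordConnected_Ioo
    (c := fun t : ℝ => t • x) (contDiff_id.smul contDiff_const).contDiffOn hm (pt_zero_mem hε) e
  exact ⟨Z 1, Z, ε, hε, hZ, hP, h0, rfl⟩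

theorem IsRadial.isPT_ptr (h : S.IsRadial K) (hx : x ∈ S.U) (e : W) : S.IsPT x e (S.ptr x e) :=
  Classical.epsilon_spec (h.exists_isPT hx e)

theorem IsPT.unique (h : S.IsRadial K) (hx : x ∈ S.U) (h1 : S.IsPT x e a') (h2 : S.IsPT x e b') :
    a' = b' := by
  obtain ⟨Y, Z, ε, hε, hm, hY, hYP, hY0, hY1, hZ, hZP, hZ0, hZ1⟩ := IsPT.common h hx h1 h2
  have := isParallel_eqOn h.riem Set.ordConnected_Ioo (fun t ht => ⟨hm t ht, pt_ray_diff x t⟩)
    hYP hZP (pt_diff hY) (pt_diff hZ) (pt_zero_mem hε) (hY0.trans hZ0.symm) (pt_one_mem hε)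
  rw [← hY1, ← hZ1]
  exact this

theorem IsPT.add (h : S.IsRadial K) (hx : x ∈ S.U) (h1 : S.IsPT x a a') (h2 : S.IsPT x b b') :
    S.IsPT x (a + b) (a' + b') := by
  obtain ⟨Y, Z, ε, hε, hm, hY, hYP, hY0, hY1, hZ, hZP, hZ0, hZ1⟩ := IsPT.common h hx h1 h2
  exact ⟨fun t => Y t + Z t, ε, hε, hY.add hZ, hYP.add hZP (pt_diff hY) (pt_diff hZ),
    by simp only [hY0, hZ0], by simp only [hY1, hZ1]⟩

theorem IsPT.smul (h1 : S.IsPT x a a') (r : ℝ) : S.IsPT x (r • a) (r • a') := by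
  obtain ⟨Z, ε, hε, hZ, hP, h0, h1'⟩ := h1
  exact ⟨fun t => r • Z t, ε, hε, hZ.const_smul r, hP.const_smul r, by simp only [h0], by simp only [h1']⟩

/-- parallel transport is isometric. -/
theorem IsPT.G_eq (h : S.IsRadial K) (hx : x ∈ S.U) (h1 : S.IsPT x a a') (h2 : S.IsPT x b b') :
    S.G x a' b' = inner ℝ a b := by
  obtain ⟨Y, Z, ε, hε, hm, hY, hYP, hY0, hY1, hZ, hZP, hZ0, hZ1⟩ := IsPT.common h hx h1 h2
  have := IsParallel.G_const h.riem Set.ordConnected_Ioo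
    (fun t ht => ⟨hm t ht, pt_ray_diff x t⟩) hYP hZP (pt_diff hY) (pt_diff hZ) (pt_zero_mem hε)
    (pt_one_mem hε)
  simp only [zero_smul, one_smul, hY0, hY1, hZ0, hZ1, h.G_zero] at this
  exact this.symm

theorem IsPT.nrm_eq (h : S.IsRadial K) (hx : x ∈ S.U) (h1 : S.IsPT x a a') : S.nrm x a' = ‖a‖ := by
  rw [nrm, IsPT.G_eq h hx h1 h1, real_inner_self_eq_norm_sq, Real.sqrt_sq (norm_nonneg _)]

/-- every vector at `x` is a parallel transport. -/
theorem IsRadial.exists_isPT_inv (h : S.IsRadial K) (hx : x ∈ S.U) (e' : W) :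
    ∃ e, S.IsPT x e e' := by
  let L : W →ₗ[ℝ] W :=
    { toFun := S.ptr x
      map_add' := fun a b =>
        IsPT.unique h hx (h.isPT_ptr hx (a + b)) (IsPT.add h hx (h.isPT_ptr hx a) (h.isPT_ptr hx b))
      map_smul' := fun r a =>
        IsPT.unique h hx (h.isPT_ptr hx (r • a)) ((h.isPT_ptr hx a).smul r) }
  have hinj : Function.Injective L := by
    rw [injective_iff_map_eq_zero]
    intro a ha
    have h1 := IsPT.nrm_eq h hx (h.isPT_ptr hx a)
    have h2 : S.ptr x a = 0 := ha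
    rw [h2, nrm_zero] at h1
    exact norm_eq_zero.mp h1.symm
  obtain ⟨e, he⟩ := (LinearMap.injective_iff_surjective.mp hinj) e'
  exact ⟨e, he ▸ h.isPT_ptr hx e⟩

/-- the radial vector is parallel. -/
theorem IsRadial.isPT_self (h : S.IsRadial K) (hx : x ∈ S.U) : S.IsPT x x x := by
  obtain ⟨ε, hε, hm⟩ := h.mem_ray hx
  refine ⟨fun _ => x, ε, hε, contDiffOn_const, fun t ht => ?_, rfl, rfl⟩
  simp only [covD, deriv_ray, deriv_const, zero_add]
  exact h.Γ_ray (hm t ht)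

/-- a ray inside the domain is a geodesic. -/
theorem IsRadial.isGeod_ray' (h : S.IsRadial K) {y : W} {J : Set ℝ} (hJ : ∀ σ ∈ J, σ • y ∈ S.U) :
    S.IsGeod (fun σ : ℝ => σ • y) J :=
  ⟨(contDiff_id.smul contDiff_const).contDiffOn, hJ, fun t ht => by
    simp only [covD, deriv_ray, deriv_const, zero_add]
    exact h.Γ_ray (hJ t ht)⟩

/-- a tube around the ray stays in the domain. -/
theorem IsRadial.exists_tube (h : S.IsRadial K) (hx : x ∈ S.U) :
    ∃ ε > (0 : ℝ), ∃ r > (0 : ℝ), ∀ p ∈ Metric.ball (0 : W) r, ∀ σ ∈ Set.Ioo (-ε) (1 + ε),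
      σ • (x + p) ∈ S.U := by
  obtain ⟨ε₀, hε₀, hm⟩ := h.mem_ray hx
  have hn : IsOpen {q : W × ℝ | q.2 • (x + q.1) ∈ S.U} :=
    h.riem.isOpen.preimage (continuous_snd.smul (continuous_const.add continuous_fst))
  obtain ⟨u, v, hu, _, hsu, htv, huv⟩ := generalized_tube_lemma (s := ({0} : Set W))
    (t := Set.Icc (-(ε₀ / 2)) (1 + ε₀ / 2)) isCompact_singleton isCompact_Icc hn (by
      rintro ⟨p, σ⟩ ⟨hp, hσ⟩
      have hp' : p = 0 := hp
      subst hp'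
      show σ • (x + 0) ∈ S.U
      rw [add_zero]
      exact hm σ ⟨by linarith [hσ.1], by linarith [hσ.2]⟩)
  obtain ⟨r, hr, hru⟩ := Metric.isOpen_iff.mp hu 0 (hsu rfl)
  exact ⟨ε₀ / 2, by positivity, r, hr, fun p hp σ hσ =>
    huv (show ((p, σ) : W × ℝ) ∈ u ×ˢ v from ⟨hru hp, htv (Set.Ioo_subset_Icc_self hσ)⟩)⟩

theorem IsPT.jacobi_core (h : S.IsRadial K) (hx : x ∈ S.U) (h1 : S.IsPT x a a') {k : ℝ} (hk : 0 < k)
    (hq : K * ‖x‖ ^ 2 ≤ k ^ 2) :
    S.nrm x (a - a') ≤ ‖a‖ * (Real.sinh k / k - 1) ∧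
      S.nrm x (a + S.Γ x x a - a') ≤ ‖a‖ * (Real.cosh k - 1) := by
  obtain ⟨ε₀, hε₀, r, hr, htube⟩ := h.exists_tube hx
  obtain ⟨Z, ε, hε, hle, hZ, hP, hZ0, hZ1⟩ := h1.exists_le hε₀
  have hsub : Set.Ioo (-ε) (1 + ε) ⊆ Set.Ioo (-ε₀) (1 + ε₀) :=
    Set.Ioo_subset_Ioo (by linarith) (by linarith)
  have hf : ContDiffOn ℝ ∞ (fun q : W × ℝ => q.2 • (x + q.1))
      (Metric.ball (0 : W) r ×ˢ Set.Ioo (-ε) (1 + ε)) :=
    (contDiff_snd.smul (contDiff_const.add contDiff_fst)).contDiffOn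
  have hJ0 := h.riem.isJacobi_of_family (f := fun q : W × ℝ => q.2 • (x + q.1)) Metric.isOpen_ball
    isOpen_Ioo hf (fun p hp => h.isGeod_ray' fun σ hσ => htube p hp σ (hsub hσ))
    (Metric.mem_ball_self hr) a
  have hfd : ∀ σ : ℝ, fderiv ℝ (fun q : W × ℝ => q.2 • (x + q.1)) ((0 : W), σ) (a, 0) = σ • a := by
    intro σ
    have h2 : HasFDerivAt (fun q : W × ℝ => q.2 • (x + q.1)) _ ((0 : W), σ) :=
      (hasFDerivAt_snd (𝕜 := ℝ) (p := ((0 : W), σ))).smul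
        ((hasFDerivAt_fst (𝕜 := ℝ) (p := ((0 : W), σ))).const_add x)
    rw [h2.fderiv]
    simp
  simp only [hfd, add_zero] at hJ0
  have hm : ∀ σ ∈ Set.Ioo (-ε) (1 + ε), σ • x ∈ S.U := fun σ hσ => by
    have := htube 0 (Metric.mem_ball_self hr) σ (hsub hσ)
    rwa [add_zero] at this
  have hgeo : S.IsGeod (fun σ : ℝ => σ • x) (Set.Ioo (-ε) (1 + ε)) := h.isGeod_ray' hm
  have hcov : ∀ t : ℝ, S.covD (fun σ : ℝ => σ • x) (fun σ : ℝ => σ • a) t
      = a + S.Γ (t • x) x (t • a) := fun t => by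
    simp only [covD, deriv_ray]
  have hn0 : ∀ v : W, S.nrm 0 v = ‖v‖ := fun v => by
    rw [nrm, h.G_zero, real_inner_self_eq_norm_sq, Real.sqrt_sq (norm_nonneg _)]
  have hb := IsJacobi.bounds h.riem isOpen_Ioo Set.ordConnected_Ioo hgeo hJ0 (T := 1) hk
    (fun t ht => ⟨by linarith [ht.1], by linarith [ht.2]⟩)
    (fun t ht v => by
      have ht' : t ∈ Set.Ioo (-ε) (1 + ε) := ⟨by linarith [ht.1], by linarith [ht.2]⟩
      have h3 := h.sec _ (hm t ht') v x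
      rw [h.G_ray (hm t ht')] at h3
      simp only [deriv_ray]
      refine h3.trans ?_
      have h4 := h.riem.G_self_nonneg (hm t ht') v
      calc K * (S.G (t • x) v v * ‖x‖ ^ 2) = K * ‖x‖ ^ 2 * S.G (t • x) v v := by ring
        _ ≤ k ^ 2 * S.G (t • x) v v := mul_le_mul_of_nonneg_right hq h4)
    (A := fun _ => 0) (B := Z)
    ⟨contDiffOn_const, fun t _ => by simp [covD]⟩ ⟨hZ, hP⟩ (by simp)
    (by rw [hcov, hZ0]; simp) 1 ⟨zero_le_one, le_rfl⟩
  obtain ⟨_, _, b3, b4⟩ := hb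
  simp only [hcov, one_smul, zero_smul, map_zero, add_zero, mul_one, sub_zero, hZ1, hn0, norm_zero,
    zero_mul, zero_add] at b3 b4
  exact ⟨b3, b4⟩

theorem pt_limit {A q c N : ℝ} (hq0 : 0 ≤ q) (hq1 : q ≤ 1) (hc : 0 ≤ c) (hN : 0 ≤ N)
    (H : ∀ k : ℝ, 0 < k → k ≤ 1 → q ≤ k ^ 2 → A ≤ c * k ^ 2 * N) : A ≤ c * q * N := by
  refine le_of_forall_pos_le_add fun η hη => ?_
  have hcN : 0 ≤ c * N := mul_nonneg hc hN
  obtain ⟨η', hη'def⟩ : ∃ η', η' = η / (c * N + 1) := ⟨_, rfl⟩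
  have hη' : 0 < η' := by rw [hη'def]; positivity
  obtain ⟨m, hmdef⟩ : ∃ m, m = min 1 (q + η') := ⟨_, rfl⟩
  have hm0 : 0 < m := by rw [hmdef]; exact lt_min one_pos (by linarith)
  have hm1 : m ≤ 1 := by rw [hmdef]; exact min_le_left _ _
  have hmq : m ≤ q + η' := by rw [hmdef]; exact min_le_right _ _
  have hqm : q ≤ m := by rw [hmdef]; exact le_min hq1 (by linarith)
  have h1 := H (Real.sqrt m) (Real.sqrt_pos.2 hm0) (Real.sqrt_le_one.2 hm1)
    (by rw [Real.sq_sqrt hm0.le]; exact hqm)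
  rw [Real.sq_sqrt hm0.le] at h1
  have h2 : c * N * η' ≤ η := by
    rw [hη'def, mul_div_assoc', div_le_iff₀ (by positivity)]
    nlinarith
  calc A ≤ c * m * N := h1
    _ = c * N * m := by ring
    _ ≤ c * N * (q + η') := mul_le_mul_of_nonneg_left hmq hcN
    _ = c * q * N + c * N * η' := by ring
    _ ≤ c * q * N + η := by linarith

/-- **Jacobi comparison**: in normal coordinates the parallel transport differs from the identity by `O(K |x|²)`. -/
theorem IsPT.nrm_sub_le (h : S.IsRadial K) (hx : x ∈ S.U) (hK : K * ‖x‖ ^ 2 ≤ 1)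
    (h1 : S.IsPT x a a') : S.nrm x (a - a') ≤ 2 / 9 * (K * ‖x‖ ^ 2) * ‖a‖ := by
  refine pt_limit (mul_nonneg h.K_nonneg (by positivity)) hK (by norm_num) (norm_nonneg a)
    fun k hk hk1 hq => ?_
  refine (IsPT.jacobi_core h hx h1 hk hq).1.trans ?_
  have h2 := ODE.sinh_sub_le hk.le hk1
  have h3 : Real.sinh k / k - 1 ≤ 2 / 9 * k ^ 2 := by
    rw [sub_le_iff_le_add, div_le_iff₀ hk]
    nlinarith
  calc ‖a‖ * (Real.sinh k / k - 1) ≤ ‖a‖ * (2 / 9 * k ^ 2) :=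
        mul_le_mul_of_nonneg_left h3 (norm_nonneg a)
    _ = 2 / 9 * k ^ 2 * ‖a‖ := by ring

/-- the covariant derivative at time `1` of the Jacobi field `σ ↦ σ • a`. -/
theorem IsPT.nrm_cov_sub_le (h : S.IsRadial K) (hx : x ∈ S.U) (hK : K * ‖x‖ ^ 2 ≤ 1)
    (h1 : S.IsPT x a a') : S.nrm x (a + S.Γ x x a - a') ≤ 2 / 3 * (K * ‖x‖ ^ 2) * ‖a‖ := by
  refine pt_limit (mul_nonneg h.K_nonneg (by positivity)) hK (by norm_num) (norm_nonneg a)
    fun k hk hk1 hq => ?_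
  refine (IsPT.jacobi_core h hx h1 hk hq).2.trans ?_
  have h2 := ODE.cosh_sub_one_le (u := k) (by rw [abs_of_pos hk]; exact hk1)
  calc ‖a‖ * (Real.cosh k - 1) ≤ ‖a‖ * (2 / 3 * k ^ 2) :=
        mul_le_mul_of_nonneg_left h2 (norm_nonneg a)
    _ = 2 / 3 * k ^ 2 * ‖a‖ := by ring

theorem IsRadial.nrm_le (h : S.IsRadial K) (hx : x ∈ S.U) (hK : K * ‖x‖ ^ 2 ≤ 1) (a : W) :
    S.nrm x a ≤ (1 + 2 / 9 * (K * ‖x‖ ^ 2)) * ‖a‖ := by
  have h1 := h.isPT_ptr hx a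
  have h2 := IsPT.nrm_sub_le h hx hK h1
  have h3 := IsPT.nrm_eq h hx h1
  have h4 := h.riem.nrm_add_le hx (a - S.ptr x a) (S.ptr x a)
  rw [sub_add_cancel] at h4
  linarith

theorem IsRadial.le_nrm (h : S.IsRadial K) (hx : x ∈ S.U) (hK : K * ‖x‖ ^ 2 ≤ 1) (a : W) :
    (1 - 2 / 9 * (K * ‖x‖ ^ 2)) * ‖a‖ ≤ S.nrm x a := by
  have h1 := h.isPT_ptr hx a
  have h2 := IsPT.nrm_sub_le h hx hK h1
  have h3 := IsPT.nrm_eq h hx h1
  have h4 := h.riem.nrm_sub_le hx a (a - S.ptr x a)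
  rw [sub_sub_cancel] at h4
  linarith

/-- crude form: `(1/2) |a|² ≤ G x a a ≤ 2 |a|²`. -/
theorem IsRadial.G_le (h : S.IsRadial K) (hx : x ∈ S.U) (hK : K * ‖x‖ ^ 2 ≤ 1) (a : W) :
    S.G x a a ≤ 2 * ‖a‖ ^ 2 := by
  have h1 := h.nrm_le hx hK a
  have h2 : S.nrm x a ≤ 11 / 9 * ‖a‖ := h1.trans (by nlinarith [norm_nonneg a])
  rw [← h.riem.nrm_sq hx a]
  nlinarith [S.nrm_nonneg x a, norm_nonneg a]

theorem IsRadial.le_G (h : S.IsRadial K) (hx : x ∈ S.U) (hK : K * ‖x‖ ^ 2 ≤ 1) (a : W) :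
    1 / 2 * ‖a‖ ^ 2 ≤ S.G x a a := by
  have h1 := h.le_nrm hx hK a
  have h2 : 7 / 9 * ‖a‖ ≤ S.nrm x a := le_trans (by nlinarith [norm_nonneg a]) h1
  rw [← h.riem.nrm_sq hx a]
  nlinarith [S.nrm_nonneg x a, norm_nonneg a]

/-- Euclidean form of the comparison. -/
theorem IsPT.norm_sub_le (h : S.IsRadial K) (hx : x ∈ S.U) (hK : K * ‖x‖ ^ 2 ≤ 1)
    (h1 : S.IsPT x a a') : ‖a - a'‖ ≤ 2 / 7 * (K * ‖x‖ ^ 2) * ‖a‖ := by
  have h2 := IsPT.nrm_sub_le h hx hK h1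
  have h3 := h.le_nrm hx hK (a - a')
  have h4 : 7 / 9 * ‖a - a'‖ ≤ S.nrm x (a - a') := le_trans (by nlinarith [norm_nonneg (a - a')]) h3
  linarith

end transport

section hessian

theorem fderiv_normSq_apply (y b : W) : fderiv ℝ (fun y : W => ‖y‖ ^ 2) y b = 2 * inner ℝ y b := by
  rw [(hasStrictFDerivAt_norm_sq y).hasFDerivAt.fderiv]
  simp

/-- the derivative of the Gauss lemma. -/
theorem IsRadial.gauss_deriv (h : S.IsRadial K) (hx : x ∈ S.U) (a b : W) :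
    inner ℝ a b = S.G x (a + S.Γ x x a) b + S.G x x (S.Γ x a b) := by
  have h1 := h.riem.fderiv_G_comp (f := fun y : W => y) (Y := fun y : W => y) (Z := fun _ : W => b)
    (p := x) hx differentiableAt_id differentiableAt_id (differentiableAt_const b) a
  have h2 : (fun q : W => S.G q q b) =ᶠ[𝓝 x] fun q => inner ℝ q b := by
    filter_upwards [h.riem.isOpen.mem_nhds hx] with y hy using h.gauss hy b
  have h3 : fderiv ℝ (fun q : W => inner ℝ q b) x a = inner ℝ a b := by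
    have : HasFDerivAt (fun q : W => inner ℝ q b) ((innerSL ℝ).flip b) x :=
      ((innerSL ℝ).flip b).hasFDerivAt
    rw [this.fderiv]
    simp
    exact real_inner_comm _ _
  rw [h2.fderiv_eq, h3] at h1
  rw [h1]
  simp only [covP, fderiv_fun_id, ContinuousLinearMap.id_apply, fderiv_fun_const, Pi.zero_apply,
    _root_.zero_apply, zero_add]
  rw [h.riem.Γ_symm x hx a x]

/-- `Hess |x|² (a,b) = 2 G(a + Γ(x,a), b)`. -/
theorem IsRadial.hess_normSq (h : S.IsRadial K) (hx : x ∈ S.U) (a b : W) :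
    S.hess (fun y => ‖y‖ ^ 2) x a b = 2 * S.G x (a + S.Γ x x a) b := by
  have h1 : (fun y : W => fderiv ℝ (fun y : W => ‖y‖ ^ 2) y b) = fun y => 2 * inner ℝ y b :=
    funext fun y => fderiv_normSq_apply y b
  have h3 : fderiv ℝ (fun q : W => 2 * inner ℝ q b) x a = 2 * inner ℝ a b := by
    have : HasFDerivAt (fun q : W => 2 * inner ℝ q b) ((2 : ℝ) • (innerSL ℝ).flip b) x :=
      (((innerSL ℝ).flip b).hasFDerivAt).const_mul 2
    rw [this.fderiv]
    simp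
    exact real_inner_comm _ _
  rw [hess, h1, h3, fderiv_normSq_apply, ← h.gauss hx, h.gauss_deriv hx a b]
  ring

/-- **Hessian comparison.** -/
theorem IsRadial.abs_hess_normSq_sub_le (h : S.IsRadial K) (hx : x ∈ S.U) (hK : K * ‖x‖ ^ 2 ≤ 1)
    (a : W) :
    |S.hess (fun y => ‖y‖ ^ 2) x a a - 2 * S.G x a a| ≤ 3 * (K * ‖x‖ ^ 2) * S.G x a a := by
  have hq : 0 ≤ K * ‖x‖ ^ 2 := mul_nonneg h.K_nonneg (by positivity)
  have h1 := h.isPT_ptr hx a
  have b1 := IsPT.nrm_sub_le h hx hK h1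
  have b2 := IsPT.nrm_cov_sub_le h hx hK h1
  have b3 := h.riem.nrm_sub_le hx (a + S.Γ x x a - S.ptr x a) (a - S.ptr x a)
  have e1 : a + S.Γ x x a - S.ptr x a - (a - S.ptr x a) = S.Γ x x a := by abel
  rw [e1] at b3
  have b4 := h.riem.abs_G_le hx (S.Γ x x a) a
  have b5 := h.le_nrm hx hK a
  have b6 : 7 / 9 * ‖a‖ ≤ S.nrm x a := le_trans (by nlinarith [norm_nonneg a]) b5
  have hn := S.nrm_nonneg x a
  rw [h.hess_normSq hx, map_add, _root_.add_apply, ← h.riem.nrm_sq hx a]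
  have e2 : 2 * (S.G x a a + S.G x (S.Γ x x a) a) - 2 * S.G x a a = 2 * S.G x (S.Γ x x a) a := by
    ring
  rw [h.riem.nrm_sq hx a, e2, abs_mul, abs_two, ← h.riem.nrm_sq hx a]
  have b7 : S.nrm x (S.Γ x x a) ≤ 8 / 9 * (K * ‖x‖ ^ 2) * ‖a‖ := by linarith
  have b8 : S.nrm x (S.Γ x x a) ≤ 8 / 7 * (K * ‖x‖ ^ 2) * S.nrm x a := by
    refine b7.trans ?_
    nlinarith
  calc 2 * |S.G x (S.Γ x x a) a| ≤ 2 * (S.nrm x (S.Γ x x a) * S.nrm x a) := by linarith
    _ ≤ 2 * (8 / 7 * (K * ‖x‖ ^ 2) * S.nrm x a * S.nrm x a) := by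
        have := mul_le_mul_of_nonneg_right b8 hn
        linarith
    _ ≤ 3 * (K * ‖x‖ ^ 2) * S.nrm x a ^ 2 := by nlinarith [mul_nonneg hq (sq_nonneg (S.nrm x a))]

/-- the gradient of `|x|²` is `2 x`. -/
theorem IsRadial.fderiv_normSq (h : S.IsRadial K) (hx : x ∈ S.U) (b : W) :
    fderiv ℝ (fun y : W => ‖y‖ ^ 2) x b = S.G x ((2 : ℝ) • x) b := by
  rw [fderiv_normSq_apply, map_smul, _root_.smul_apply, h.gauss hx, smul_eq_mul]

end hessian

section taylor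

theorem hasDerivAt_ray (x : W) (t : ℝ) : HasDerivAt (fun t : ℝ => t • x) x t := by
  simpa using (hasDerivAt_id t).smul_const x

/-- the differential of a function with bounded Hessian, read in parallel frames along the ray. -/
theorem IsPT.abs_fderiv_sub_le (h : S.IsRadial K) (hx : x ∈ S.U) {u : W → ℝ}
    (hu : ContDiffOn ℝ 2 u S.U) (hM : ∀ t ∈ Set.Icc (0 : ℝ) 1, ∀ a b,
      |S.hess u (t • x) a b| ≤ M * (S.nrm (t • x) a * S.nrm (t • x) b))
    (h1 : S.IsPT x e e') : |fderiv ℝ u x e' - fderiv ℝ u 0 e| ≤ M * (‖x‖ * ‖e‖) := by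
  obtain ⟨Z, _, ε, hε, hm, hZ, hP, hZ0, hZ1, _⟩ := IsPT.common h hx h1 h1
  have hsub : Set.Icc (0 : ℝ) 1 ⊆ Set.Ioo (-ε) (1 + ε) := fun t ht =>
    ⟨by linarith [ht.1], by linarith [ht.2]⟩
  have hder : ∀ t ∈ Set.Icc (0 : ℝ) 1, HasDerivAt (fun t : ℝ => fderiv ℝ u (t • x) (Z t))
      (S.hess u (t • x) x (Z t)) t := by
    intro t ht
    have ht' := hsub ht
    have hu2 : ContDiffAt ℝ 2 u (t • x) := hu.contDiffAt (h.riem.isOpen.mem_nhds (hm t ht'))
    have d1 : HasFDerivAt (fderiv ℝ u) (fderiv ℝ (fderiv ℝ u) (t • x)) (t • x) :=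
      ((hu2.fderiv_right (m := 1) (by norm_num)).differentiableAt (by norm_num)).hasFDerivAt
    have d2 : HasDerivAt (fun t : ℝ => fderiv ℝ u (t • x)) (fderiv ℝ (fderiv ℝ u) (t • x) x) t :=
      d1.comp_hasDerivAt t (hasDerivAt_ray x t)
    have d3 : HasDerivAt Z (-(S.Γ (t • x) x (Z t))) t := by
      have := hP t ht'
      simp only [covD, deriv_ray] at this
      rw [← eq_neg_of_add_eq_zero_left this]
      exact (pt_diff hZ t ht').hasDerivAt
    have d4 := d2.clm_apply d3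
    rw [S.hess_eq hu2]
    refine d4.congr_deriv ?_
    rw [map_neg]; ring
  have hb : ∀ t ∈ Set.Ico (0 : ℝ) 1, ‖S.hess u (t • x) x (Z t)‖ ≤ M * (‖x‖ * ‖e‖) := by
    intro t ht
    have ht1 : t ∈ Set.Icc (0 : ℝ) 1 := Set.Ico_subset_Icc_self ht
    have ht' := hsub ht1
    have n1 : S.nrm (t • x) x = ‖x‖ := by
      rw [nrm, h.G_ray (hm t ht'), Real.sqrt_sq (norm_nonneg _)]
    have n2 : S.nrm (t • x) (Z t) = ‖e‖ := by
      have := IsParallel.nrm_const h.riem Set.ordConnected_Ioo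
        (fun t ht => ⟨hm t ht, pt_ray_diff x t⟩) hP (pt_diff hZ) ht' (pt_zero_mem hε)
      simp only [zero_smul, hZ0] at this
      rw [this, nrm, h.G_zero, real_inner_self_eq_norm_sq, Real.sqrt_sq (norm_nonneg _)]
    have := hM t ht1 x (Z t)
    rwa [n1, n2] at this
  have := norm_image_sub_le_of_norm_deriv_le_segment_01'
    (f := fun t : ℝ => fderiv ℝ u (t • x) (Z t)) (fun t ht => (hder t ht).hasDerivWithinAt) hb
  simpa [hZ0, hZ1] using this

/-- the radial direction is parallel along every sub-ray. -/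
theorem IsRadial.isPT_smul_self (h : S.IsRadial K) {t : ℝ} (hx : t • x ∈ S.U) :
    S.IsPT (t • x) x x := by
  obtain ⟨ε, hε, hm⟩ := h.mem_ray hx
  refine ⟨fun _ => x, ε, hε, contDiffOn_const, fun s hs => ?_, rfl, rfl⟩
  simp only [covD, deriv_ray, deriv_const, zero_add]
  have h1 := hm s hs
  rw [smul_smul] at h1 ⊢
  rw [map_smul, _root_.smul_apply, h.Γ_ray h1, smul_zero]

/-- first order Taylor formula at the centre. -/
theorem IsRadial.abs_taylor_le (h : S.IsRadial K) (hx : x ∈ S.U) {u : W → ℝ}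
    (hu : ContDiffOn ℝ 2 u S.U) (hM : ∀ t ∈ Set.Icc (0 : ℝ) 1, ∀ a b,
      |S.hess u (t • x) a b| ≤ M * (S.nrm (t • x) a * S.nrm (t • x) b)) :
    |u x - u 0 - fderiv ℝ u 0 x| ≤ M * ‖x‖ ^ 2 / 2 := by
  have hmem : ∀ t ∈ Set.Icc (0 : ℝ) 1, t • x ∈ S.U := fun t ht => h.star x hx t ht
  have hg : ∀ t ∈ Set.Icc (0 : ℝ) 1, HasDerivAt (fun t : ℝ => u (t • x) - u 0 - t * fderiv ℝ u 0 x)
      (fderiv ℝ u (t • x) x - fderiv ℝ u 0 x) t := by
    intro t ht
    have d1 : HasFDerivAt u (fderiv ℝ u (t • x)) (t • x) :=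
      ((hu.contDiffAt (h.riem.isOpen.mem_nhds (hmem t ht))).differentiableAt (by norm_num)).hasFDerivAt
    have d2 := d1.comp_hasDerivAt t (hasDerivAt_ray x t)
    have d3 : HasDerivAt (fun t : ℝ => u (t • x) - u 0 - t * fderiv ℝ u 0 x)
        (fderiv ℝ u (t • x) x - 1 * fderiv ℝ u 0 x) t :=
      (d2.sub_const (u 0)).sub ((hasDerivAt_id t).mul_const (fderiv ℝ u 0 x))
    exact d3.congr_deriv (by rw [one_mul])
  have hb : ∀ t ∈ Set.Ico (0 : ℝ) 1, ‖fderiv ℝ u (t • x) x - fderiv ℝ u 0 x‖ ≤ M * ‖x‖ ^ 2 * t := by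
    intro t ht
    have ht1 : t ∈ Set.Icc (0 : ℝ) 1 := Set.Ico_subset_Icc_self ht
    have := IsPT.abs_fderiv_sub_le h (hmem t ht1) hu (M := M) (fun s hs a b => by
      rw [smul_smul]
      exact hM (s * t) ⟨mul_nonneg hs.1 ht1.1, mul_le_one₀ hs.2 ht1.1 ht1.2⟩ a b)
      (h.isPT_smul_self (hmem t ht1))
    rw [norm_smul, Real.norm_eq_abs, abs_of_nonneg ht1.1] at this
    rw [Real.norm_eq_abs]
    exact this.trans (le_of_eq (by ring))
  have := image_norm_le_of_norm_deriv_right_le_deriv_boundary (a := 0) (b := 1)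
    (f := fun t : ℝ => u (t • x) - u 0 - t * fderiv ℝ u 0 x)
    (f' := fun t => fderiv ℝ u (t • x) x - fderiv ℝ u 0 x)
    (B := fun t => M * ‖x‖ ^ 2 * t ^ 2 / 2) (B' := fun t => M * ‖x‖ ^ 2 * t)
    (fun t ht => (hg t ht).continuousAt.continuousWithinAt)
    (fun t ht => (hg t (Set.Ico_subset_Icc_self ht)).hasDerivWithinAt) (by simp)
    (fun t => by
      have := ((hasDerivAt_pow 2 t).const_mul (M * ‖x‖ ^ 2)).div_const 2
      refine this.congr_deriv ?_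
      norm_num
      ring)
    hb (Set.right_mem_Icc.2 zero_le_one)
  simpa using this

end taylor

end RGeo

/-! ### the interface between the geometric block (`Pull.lean`, `ExpBall.lean`) and the analytic block (`Cplx.lean` ... `Inv.lean`) -/

/-- **`GoodBall X k S K`**: `X` is a complex manifold whose carrier is the unit ball of the REAL vector space `ℂ^ι` (the complex structure of `X` is NOT the standard one),
`k` is a Kaehler metric on `X` with nonnegative bisectional curvature and scalar curvature `≤ K/3`, and the identity chart is a geodesic normal chart: `S` is the Riemannian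
structure of `Re k` in the real coordinates of the ball; at the centre the complex structure of `X` is the standard one. -/
structure GoodBall {ι : Type} [Fintype ι] [DecidableEq ι] (X : CMfd (CE ι) ι) (k : HFam (CE ι) ι)
    (S : RGeo (CE ι)) (K : ℝ) : Prop where
  carrier_eq : X.carrier = Metric.ball 0 1
  U_eq : S.U = Metric.ball 0 1
  kahler : IsKahler X k
  bisec : BisecNonneg X k
  scal_le : ∀ x ∈ Metric.ball (0 : CE ι) 1, 3 * scalCurv X k x ≤ K
  radial : S.IsRadial K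
  isom : ∀ (Ψ : CE ι → CE ι) (U : Set (CE ι)), X.IsHol Ψ U → RGeo.IsIsom (kgeo k Ψ U) S Ψ
  J_zero : ∀ (Ψ : CE ι → CE ι) (U : Set (CE ι)), X.IsHol Ψ U → ∀ z ∈ U, Ψ z = 0 → ∀ a : CE ι,
    fderiv ℝ Ψ z (Complex.I • a) = Complex.I • fderiv ℝ Ψ z a

end Claimed.Agent.R316
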