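import Claimed.Agent.R316.Base.Chart.Normal
import Claimed.Agent.R316.CM.Std
import Claimed.Agent.R316.Pack011
import Claimed.Agent.R316.B4.Geo

/-!
# `BP-G14` part X: unwrapping a complex manifold by a smooth local diffeomorphism `E : B → M`, `B ⊆ ℂ^ι` a domain of the REAL vector space

Architect: helper195.  PAPER FREE.  `E` is NOT holomorphic for the standard structure of `ℂ^ι` (later `E` = exponential map).

* `UcMap 𝓜 E B`: `E` is a smooth map from the domain `B` into the carrier;  `UcImm 𝓜 E B`: moreover an immersion (= local diffeomorphism, equal dimensions).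
* `pullMfd 𝓜 E B hE : CMfd (CE ι) ι`: carrier `B`, holomorphic parametrisations `Ψ : U → B` = the real parametrisations of `B` such that `E ∘ Ψ` is a holomorphic
  parametrisation of `𝓜` (in particular `E` is injective on `Ψ '' U`).  Forms are pulled back by `pullF E A Ψ z = A (E ∘ Ψ) z` (`CM/Std.lean`), so matrices, `ricF`, `bisec`,
  `ddc (u ∘ E)`... of the pull-back ARE (by `rfl`) the ones of `𝓜` in the parametrisation `E ∘ Ψ`.
* `ucG 𝓜 h E x`: the real pulled back metric tensor `Re h (dE·, dE·)` on `B`;  `ucGeo 𝓜 h E B = RGeo.ofMetric B (ucG 𝓜 h E)`: ONE global real chart of `(pullMfd, pullF E h)`.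

## Leaves (sections)
* `G14-X1` (section `atlas`): the four axioms of `pullMfd`.
* `G14-X2` (section `forms`): transfer of forms, Kaehler, curvature, functions.
* `G14-X3` (section `real`): the real structure `ucGeo`.

## RECIPES
**X1.**  `cover`: `(Φ,U₀) = (𝓜.pΦ (E x), 𝓜.pU (E x))`; `θ = invFunOn Φ U₀ ∘ E` is smooth near `x` (`IsParam.contDiffAt_invFunOn_comp`), `dE = dΦ ∘ dθ` (`IsParam.hasFDerivAt_invFunOn_comp`), so `dθ_x` is
injective, hence bijective (`LinearMap.injective_iff_surjective`), `ContDiffAt.toOpenPartialHomeomorph`/`HasStrictFDerivAt.toOpenPartialHomeomorph` gives `e` with source `N ∋ x`, which we shrink so that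
`N ⊆ B`, `θ N ⊆ U₀`, `Φ (θ y) = E y` on `N`.  `U = e.target`, `Ψ = e.symm`: smooth (`ContDiffAt.to_localInverse`/`OpenPartialHomeomorph.contDiffAt_symm`), `E ∘ Ψ = Φ` on `U`:
`𝓜.isHol_mono` + `𝓜.congr`.  `IsParam B Ψ U`: `image`: `Ψ '' U = N = B ∩ N`; `cont_inv`: `invFunOn Ψ U = θ` on `N`; `immersion`: `dθ ∘ dΨ = id`.
`compat`: on `U ∩ Ψ ⁻¹' (Ψ' '' W')` one has `invFunOn Ψ' W' (Ψ z) = invFunOn (E ∘ Ψ') W' (E (Ψ z))` (both are THE point `w ∈ W'` with `Ψ' w = Ψ z`; `IsParam.invFunOn_eq_iff`), and the set is contained in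
the overlap of `E ∘ Ψ`, `E ∘ Ψ'`: `DifferentiableOn.congr` + `.mono` of `𝓜.compat`.  `reparam`: second component = `𝓜.reparam` (`(E ∘ Ψ) ∘ τ = E ∘ (Ψ ∘ τ)` is `rfl`); first component: `τ` is a real
smooth injective immersion between domains of the same dimension, hence an o-p-e-n embedding (copy the proof of `StdHol.reparam`/`StdHol.isParam` in `CM/Std.lean`; `τ '' U'` is o-p-e-n, `IsParam.mono` then transport).
`congr`: all clauses of `IsParam` only see `Ψ` on the o-p-e-n set `U` (`fderiv` by `Filter.EventuallyEq.fderiv_eq`, `invFunOn` by uniqueness).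
**X2.**  `herm`, `smooth`, `posDef`, `closed`, `bisec`: verbatim the statement for `𝓜` in the parametrisation `E ∘ Ψ`.  `compat`: as in X1 `invFunOn Ψ' W' ∘ Ψ` and `invFunOn (E∘Ψ') W' ∘ (E∘Ψ)` agree near `z`, so they have
the same `jac` (`Filter.EventuallyEq.fderiv_eq`).  `scalCurv_pull`: `scalCurv_eq` on both sides with `Ψ = X.pΦ x`.  `smooth_comp`: `(u ∘ E) ∘ Ψ = u ∘ (E ∘ Ψ)`.  `smooth_iff`: `⇒` near `x ∈ B` write `u = (u ∘ Ψ) ∘ invFunOn Ψ U` and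
`invFunOn Ψ U` is smooth on the o-p-e-n set `Ψ '' U` (inverse function theorem, or `IsParam.contDiffAt_invFunOn_comp` with `γ = id`); `⇐` composition.
**X3.**  `ucG_param`: transition law `IsHForm.compat_trans` + chain rule for `invFunOn Φ U ∘ E = (invFunOn Φ U ∘ pΦ) ∘ (invFunOn pΦ pU ∘ E)` near `x`; `fderiv ℝ` of a holomorphic map is `jac.mulVec` (`CMfd.trans_hasFDerivAt_real`).
`contDiffOn_ucG`: near `x₀` use ONE parametrisation `Φ` and `ucG_param`: entries of `h Φ ∘ θ` are smooth, `fderiv θ` is smooth; `contDiffOn_clm_apply` twice.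
`ucG_pos_iff`: `posDef` and `dE = dΦ ∘ dθ`, `dΦ` injective.  `ucGeo_isRiem`: `RGeo.isRiem_ofMetric`.  `isIsom_ucGeo_to`: `isIsom_of_ambient` (or directly from `ucG_param`).  `isIsom_ucGeo`: `RGeo.IsIsom.of_rightInverse` applied to
`isIsom_ucGeo_to` for `Φ = E ∘ Ψ`, `B' = Ψ '' U`, `ρ = Ψ`, then enlarge the target.
-/

set_option autoImplicit false
set_option linter.unusedSectionVars false
set_option maxSynthPendingDepth 3
open scoped ContDiff Topology ComplexOrder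

namespace Claimed.Agent.R316

variable {V : Type} [NormedAddCommGroup V] [NormedSpace ℝ V] [FiniteDimensional ℝ V]
variable {ι : Type} [Fintype ι]

/-- a smooth map from a domain of the real vector space `ℂ^ι` into the manifold. -/
structure UcMap (𝓜 : CMfd V ι) (E : CE ι → V) (B : Set (CE ι)) : Prop where
  isOpen : IsOpen B
  smooth : ContDiffOn ℝ ∞ E B
  mem : ∀ x ∈ B, E x ∈ 𝓜.carrier

/-- a smooth immersion (= local diffeomorphism). -/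
structure UcImm (𝓜 : CMfd V ι) (E : CE ι → V) (B : Set (CE ι)) : Prop extends UcMap 𝓜 E B where
  inj : ∀ x ∈ B, Function.Injective (fderiv ℝ E x)

/-- the holomorphic parametrisations of the unwrapped manifold. -/
def UcHol (𝓜 : CMfd V ι) (E : CE ι → V) (B : Set (CE ι)) (Ψ : CE ι → CE ι) (U : Set (CE ι)) : Prop :=
  IsParam B Ψ U ∧ 𝓜.IsHol (E ∘ Ψ) U

variable {𝓜 : CMfd V ι} {E : CE ι → V} {B : Set (CE ι)}

section atlas

/-- the inverse of a smooth injective immersion between domains of `ℂ^ι`, near a point of the image. -/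
theorem uc_inv_spec {θ : CE ι → CE ι} {N : Set (CE ι)} (hN : IsOpen N) (hθ : ContDiffOn ℝ ∞ θ N)
    (hinj : Set.InjOn θ N) (hder : ∀ y ∈ N, Function.Injective (fderiv ℝ θ y)) {y : CE ι}
    (hy : y ∈ N) :
    ∃ A : CE ι ≃L[ℝ] CE ι, (A : CE ι →L[ℝ] CE ι) = fderiv ℝ θ y ∧
      HasStrictFDerivAt (Function.invFunOn θ N) (A.symm : CE ι →L[ℝ] CE ι) (θ y) ∧
      ContDiffAt ℝ ∞ (Function.invFunOn θ N) (θ y) := by
  obtain ⟨A, hA⟩ := B4.gp_equiv_of_inj (hder y hy)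
  have hc : ContDiffAt ℝ ∞ θ y := hθ.contDiffAt (hN.mem_nhds hy)
  have hd : HasFDerivAt θ (A : CE ι →L[ℝ] CE ι) y := by
    rw [hA]
    exact (hc.differentiableAt (by simp)).hasFDerivAt
  have hs := hc.hasStrictFDerivAt' hd (by simp)
  have hleft : ∀ᶠ v in 𝓝 y, Function.invFunOn θ N (θ v) = v := by
    filter_upwards [hN.mem_nhds hy] with v hv using hinj.leftInvOn_invFunOn hv
  exact ⟨A, hA, hs.to_local_left_inverse hleft,
    (hc.to_localInverse hd (by simp)).congr_of_eventuallyEq (hs.localInverse_unique hleft)⟩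

/-- a smooth injective immersion between domains of `ℂ^ι` is a parametrisation. -/
theorem uc_isParam {θ : CE ι → CE ι} {N B' : Set (CE ι)} (hN : IsOpen N) (hθ : ContDiffOn ℝ ∞ θ N)
    (hinj : Set.InjOn θ N) (hder : ∀ y ∈ N, Function.Injective (fderiv ℝ θ y))
    (hmaps : Set.MapsTo θ N B') : IsParam B' θ N :=
  ⟨hN, hθ, hder, hinj, ⟨θ '' N, B4.isOpen_image_of_injective_fderiv hN hθ hder N subset_rfl hN,
    (Set.inter_eq_right.2 hmaps.image_subset).symm⟩,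
    B4.continuousOn_invFunOn_of_injective_fderiv hN hθ hinj hder⟩

/-- ... and so is its inverse. -/
theorem uc_isParam_inv {θ : CE ι → CE ι} {N B' : Set (CE ι)} (hN : IsOpen N)
    (hθ : ContDiffOn ℝ ∞ θ N) (hinj : Set.InjOn θ N)
    (hder : ∀ y ∈ N, Function.Injective (fderiv ℝ θ y)) (hsub : N ⊆ B') :
    IsParam B' (Function.invFunOn θ N) (θ '' N) := by
  refine uc_isParam (B4.isOpen_image_of_injective_fderiv hN hθ hder N subset_rfl hN) ?_ ?_ ?_ ?_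
  · rintro _ ⟨y, hy, rfl⟩
    obtain ⟨A, -, -, hc⟩ := uc_inv_spec hN hθ hinj hder hy
    exact hc.contDiffWithinAt
  · rintro _ ⟨y, hy, rfl⟩ _ ⟨y', hy', rfl⟩ h
    rw [hinj.leftInvOn_invFunOn hy, hinj.leftInvOn_invFunOn hy'] at h
    rw [h]
  · rintro _ ⟨y, hy, rfl⟩
    obtain ⟨A, -, hs, -⟩ := uc_inv_spec hN hθ hinj hder hy
    rw [hs.hasFDerivAt.fderiv]
    exact A.symm.injective
  · rintro _ ⟨y, hy, rfl⟩
    rw [hinj.leftInvOn_invFunOn hy]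
    exact hsub hy

/-- the part of `B` mapped into the image of a parametrisation. -/
theorem UcMap.isOpen_overlap (hE : UcMap 𝓜 E B) {Φ : CE ι → V} {U : Set (CE ι)} (hΦ : 𝓜.IsHol Φ U) :
    IsOpen (B ∩ E ⁻¹' (Φ '' U)) := by
  obtain ⟨O, hO, hOeq⟩ := (𝓜.isParam hΦ).image
  have e : B ∩ E ⁻¹' (Φ '' U) = B ∩ E ⁻¹' O := by
    ext z
    constructor
    · rintro ⟨hz, hz'⟩
      have : E z ∈ 𝓜.carrier ∩ O := hOeq ▸ hz'
      exact ⟨hz, this.2⟩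
    · rintro ⟨hz, hz'⟩
      refine ⟨hz, ?_⟩
      show E z ∈ Φ '' U
      rw [hOeq]
      exact ⟨hE.mem z hz, hz'⟩
  rw [e]
  exact hE.smooth.continuousOn.isOpen_inter_preimage hE.isOpen hO

theorem UcMap.contDiffAt (hE : UcMap 𝓜 E B) {x : CE ι} (hx : x ∈ B) : ContDiffAt ℝ ∞ E x :=
  hE.smooth.contDiffAt (hE.isOpen.mem_nhds hx)

theorem UcMap.differentiableAt (hE : UcMap 𝓜 E B) {x : CE ι} (hx : x ∈ B) :
    DifferentiableAt ℝ E x := (hE.contDiffAt hx).differentiableAt (by simp)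

theorem UcMap.eventually_mem (hE : UcMap 𝓜 E B) {x : CE ι} (hx : x ∈ B) :
    ∀ᶠ y in 𝓝 x, E y ∈ 𝓜.carrier := by
  filter_upwards [hE.isOpen.mem_nhds hx] with y hy using hE.mem y hy

/-- `E` read in a parametrisation is smooth. -/
theorem UcMap.contDiffOn_co (hE : UcMap 𝓜 E B) {Φ : CE ι → V} {U : Set (CE ι)} (hΦ : 𝓜.IsHol Φ U) :
    ContDiffOn ℝ ∞ (Function.invFunOn Φ U ∘ E) (B ∩ E ⁻¹' (Φ '' U)) := fun y hy =>
  ((𝓜.isParam hΦ).contDiffAt_invFunOn_comp le_rfl (hE.contDiffAt hy.1) (hE.eventually_mem hy.1)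
    hy.2).contDiffWithinAt

/-- chain rule `dE = dΦ ∘ dθ`. -/
theorem UcMap.fderiv_eq (hE : UcMap 𝓜 E B) {Φ : CE ι → V} {U : Set (CE ι)} (hΦ : 𝓜.IsHol Φ U)
    {x : CE ι} (hx : x ∈ B) (hxΦ : E x ∈ Φ '' U) (v : CE ι) :
    fderiv ℝ E x v =
      fderiv ℝ Φ (Function.invFunOn Φ U (E x)) (fderiv ℝ (Function.invFunOn Φ U ∘ E) x v) :=
  ((𝓜.isParam hΦ).hasFDerivAt_invFunOn_comp (hE.differentiableAt hx) (hE.eventually_mem hx) hxΦ).2 v

theorem UcImm.injective_fderiv_co (hE : UcImm 𝓜 E B) {Φ : CE ι → V} {U : Set (CE ι)}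
    (hΦ : 𝓜.IsHol Φ U) {x : CE ι} (hx : x ∈ B) (hxΦ : E x ∈ Φ '' U) :
    Function.Injective (fderiv ℝ (Function.invFunOn Φ U ∘ E) x) := by
  intro v w hvw
  refine hE.inj x hx ?_
  rw [hE.toUcMap.fderiv_eq hΦ hx hxΦ, hE.toUcMap.fderiv_eq hΦ hx hxΦ, hvw]

theorem UcImm.cover (hE : UcImm 𝓜 E B) (x : CE ι) (hx : x ∈ B) :
    ∃ (Ψ : CE ι → CE ι) (U : Set (CE ι)), UcHol 𝓜 E B Ψ U ∧ x ∈ Ψ '' U := by
  have hxc : E x ∈ 𝓜.carrier := hE.mem x hx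
  obtain ⟨Φ, U₀, hΦ, hxΦ⟩ := 𝓜.cover (E x) hxc
  have hp := 𝓜.isParam hΦ
  have hB₁ := hE.toUcMap.isOpen_overlap hΦ
  have hθs := hE.toUcMap.contDiffOn_co hΦ
  have hθi : ∀ y ∈ B ∩ E ⁻¹' (Φ '' U₀), Function.Injective (fderiv ℝ (Function.invFunOn Φ U₀ ∘ E) y) :=
    fun y hy => hE.injective_fderiv_co hΦ hy.1 hy.2
  -- local injectivity
  obtain ⟨A, hA⟩ := B4.gp_equiv_of_inj (hθi x ⟨hx, hxΦ⟩)
  have hc : ContDiffAt ℝ ∞ (Function.invFunOn Φ U₀ ∘ E) x := hθs.contDiffAt (hB₁.mem_nhds ⟨hx, hxΦ⟩)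
  have hd : HasFDerivAt (Function.invFunOn Φ U₀ ∘ E) (A : CE ι →L[ℝ] CE ι) x := by
    rw [hA]
    exact (hc.differentiableAt (by simp)).hasFDerivAt
  obtain ⟨e, he⟩ : ∃ e : OpenPartialHomeomorph (CE ι) (CE ι),
      e = hc.toOpenPartialHomeomorph (Function.invFunOn Φ U₀ ∘ E) hd (by simp) := ⟨_, rfl⟩
  have hecoe : ∀ z, e z = (Function.invFunOn Φ U₀ ∘ E) z := fun z => by rw [he]; rfl
  have hxs : x ∈ e.source := by
    rw [he]
    exact hc.mem_toOpenPartialHomeomorph_source hd (by simp)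
  obtain ⟨N, hNdef⟩ : ∃ N : Set (CE ι), N = e.source ∩ (B ∩ E ⁻¹' (Φ '' U₀)) := ⟨_, rfl⟩
  have hN : IsOpen N := by rw [hNdef]; exact e.open_source.inter hB₁
  have hNsub : N ⊆ B ∩ E ⁻¹' (Φ '' U₀) := by rw [hNdef]; exact Set.inter_subset_right
  have hxN : x ∈ N := by rw [hNdef]; exact ⟨hxs, hx, hxΦ⟩
  have hinj : Set.InjOn (Function.invFunOn Φ U₀ ∘ E) N := by
    intro y hy y' hy' h
    rw [hNdef] at hy hy'
    refine e.injOn hy.1 hy'.1 ?_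
    rw [hecoe, hecoe, h]
  have hθsN := hθs.mono hNsub
  have hθiN : ∀ y ∈ N, Function.Injective (fderiv ℝ (Function.invFunOn Φ U₀ ∘ E) y) :=
    fun y hy => hθi y (hNsub hy)
  have hUo : IsOpen ((Function.invFunOn Φ U₀ ∘ E) '' N) :=
    B4.isOpen_image_of_injective_fderiv hN hθsN hθiN N subset_rfl hN
  have hUsub : (Function.invFunOn Φ U₀ ∘ E) '' N ⊆ U₀ := by
    rintro _ ⟨y, hy, rfl⟩
    exact hp.invFunOn_mem (hNsub hy).2
  refine ⟨Function.invFunOn (Function.invFunOn Φ U₀ ∘ E) N, (Function.invFunOn Φ U₀ ∘ E) '' N,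
    ⟨uc_isParam_inv hN hθsN hinj hθiN (fun y hy => (hNsub hy).1), ?_⟩,
    ⟨_, ⟨x, hxN, rfl⟩, hinj.leftInvOn_invFunOn hxN⟩⟩
  refine 𝓜.congr (𝓜.isHol_mono hΦ hUo hUsub) ?_
  rintro _ ⟨y, hy, rfl⟩
  show Φ (Function.invFunOn Φ U₀ (E y)) = E (Function.invFunOn (Function.invFunOn Φ U₀ ∘ E) N
    ((Function.invFunOn Φ U₀ ∘ E) y))
  rw [hinj.leftInvOn_invFunOn hy, hp.rightInv (hNsub hy).2]

theorem UcHol.compat {Ψ Ψ' : CE ι → CE ι} {U W : Set (CE ι)} (h : UcHol 𝓜 E B Ψ U)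
    (h' : UcHol 𝓜 E B Ψ' W) :
    DifferentiableOn ℂ (Function.invFunOn Ψ' W ∘ Ψ) (U ∩ Ψ ⁻¹' (Ψ' '' W)) := by
  have h1 := 𝓜.compat h.2 h'.2
  refine (h1.mono ?_).congr ?_
  · rintro z ⟨hz, w, hw, hwz⟩
    exact ⟨hz, w, hw, congrArg E hwz⟩
  · rintro z ⟨hz, w, hw, hwz⟩
    show Function.invFunOn Ψ' W (Ψ z) = Function.invFunOn (E ∘ Ψ') W (E (Ψ z))
    rw [← hwz, h'.1.leftInv hw]
    exact ((𝓜.isParam h'.2).leftInv hw).symm

theorem UcHol.reparam {Ψ : CE ι → CE ι} {U : Set (CE ι)} (h : UcHol 𝓜 E B Ψ U)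
    (τ : CE ι → CE ι) (U' : Set (CE ι)) (hU' : IsOpen U') (hτ : DifferentiableOn ℂ τ U')
    (hinj : Set.InjOn τ U') (him : ∀ z ∈ U', Function.Injective (fderiv ℂ τ z))
    (hm : Set.MapsTo τ U' U) : UcHol 𝓜 E B (Ψ ∘ τ) U' := by
  refine ⟨B4.IsParam.comp_injOn h.1 hU' (hol_contDiffOn_real hU' hτ) hinj (fun z hz => ?_) hm,
    𝓜.reparam h.2 τ U' hU' hτ hinj him hm⟩
  rw [((hτ z hz).differentiableAt (hU'.mem_nhds hz)).fderiv_restrictScalars ℝ]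
  exact him z hz

theorem UcHol.congr {Ψ Ψ' : CE ι → CE ι} {U : Set (CE ι)} (h : UcHol 𝓜 E B Ψ U)
    (he : Set.EqOn Ψ Ψ' U) : UcHol 𝓜 E B Ψ' U := by
  exact ⟨B4.IsParam.congr h.1 he, 𝓜.congr h.2 fun z hz => congrArg E (he hz)⟩

end atlas

/-- **the unwrapped manifold**: `B` with the complex structure pulled back by `E`. -/
def pullMfd (𝓜 : CMfd V ι) (E : CE ι → V) (B : Set (CE ι)) (hE : UcImm 𝓜 E B) : CMfd (CE ι) ι where
  carrier := B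
  IsHol := UcHol 𝓜 E B
  isParam := fun h => h.1
  cover := hE.cover
  compat := fun h h' => h.compat h'
  reparam := fun h τ U' hU' hτ hinj him hm => h.reparam τ U' hU' hτ hinj him hm
  congr := fun h he => h.congr he

@[simp] theorem pullMfd_carrier (hE : UcImm 𝓜 E B) : (pullMfd 𝓜 E B hE).carrier = B := rfl

theorem pullMfd_isHol_iff (hE : UcImm 𝓜 E B) {Ψ : CE ι → CE ι} {U : Set (CE ι)} :
    (pullMfd 𝓜 E B hE).IsHol Ψ U ↔ UcHol 𝓜 E B Ψ U := Iff.rfl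

theorem pullMfd_isHol_comp (hE : UcImm 𝓜 E B) {Ψ : CE ι → CE ι} {U : Set (CE ι)}
    (h : (pullMfd 𝓜 E B hE).IsHol Ψ U) : 𝓜.IsHol (E ∘ Ψ) U := h.2

/-- a local biholomorphism into the unwrapped manifold gives one into `𝓜`. -/
theorem IsLocBihol.comp_pullMfd (hE : UcImm 𝓜 E B) {G : CE ι → CE ι} {O : Set (CE ι)}
    (h : IsLocBihol (pullMfd 𝓜 E B hE) G O) : IsLocBihol 𝓜 (E ∘ G) O :=
  ⟨h.1, fun z hz => by
    obtain ⟨U, hU, hzU, hol⟩ := h.2 z hz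
    exact ⟨U, hU, hzU, hol.2⟩⟩

section forms

variable [DecidableEq ι] {A h : HFam V ι}

theorem isHForm_pullMfd (hE : UcImm 𝓜 E B) (hA : IsHForm 𝓜 A) :
    IsHForm (pullMfd 𝓜 E B hE) (pullF E A) := by
  refine ⟨fun hΨ z hz => hA.herm hΨ.2 z hz, fun hΨ j k => hA.smooth hΨ.2 j k, ?_⟩
  intro Ψ Ψ' U W hΨ hΨ' z hz hzW
  obtain ⟨w, hw, hwz⟩ := hzW
  have h1 := hA.compat hΨ.2 hΨ'.2 z hz ⟨w, hw, congrArg E hwz⟩
  have key : ∀ y ∈ U ∩ Ψ ⁻¹' (Ψ' '' W), (Function.invFunOn Ψ' W ∘ Ψ) y =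
      (Function.invFunOn (E ∘ Ψ') W ∘ (E ∘ Ψ)) y := by
    rintro y ⟨-, w', hw', hwy⟩
    show Function.invFunOn Ψ' W (Ψ y) = Function.invFunOn (E ∘ Ψ') W (E (Ψ y))
    rw [← hwy, hΨ'.1.leftInv hw']
    exact ((𝓜.isParam hΨ'.2).leftInv hw').symm
  have hzO : z ∈ U ∩ Ψ ⁻¹' (Ψ' '' W) := ⟨hz, w, hw, hwz⟩
  have e1 : (Function.invFunOn Ψ' W ∘ Ψ) =ᶠ[𝓝 z] (Function.invFunOn (E ∘ Ψ') W ∘ (E ∘ Ψ)) := by
    filter_upwards [(CMfd.isOpen_overlap (𝓜 := pullMfd 𝓜 E B hE) hΨ hΨ').mem_nhds hzO] with y hy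
      using key y hy
  have e2 : Function.invFunOn Ψ' W (Ψ z) = Function.invFunOn (E ∘ Ψ') W ((E ∘ Ψ) z) := key z hzO
  rw [jac_congr e1, e2]
  exact h1

theorem isMetric_pullMfd (hE : UcImm 𝓜 E B) (hh : IsMetric 𝓜 h) :
    IsMetric (pullMfd 𝓜 E B hE) (pullF E h) :=
  { isHForm_pullMfd hE hh.toIsHForm with posDef := fun hΨ z hz => hh.posDef hΨ.2 z hz }

theorem isKahler_pullMfd (hE : UcImm 𝓜 E B) (hh : IsKahler 𝓜 h) :
    IsKahler (pullMfd 𝓜 E B hE) (pullF E h) :=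
  { isMetric_pullMfd hE hh.toIsMetric with closed := fun _ U hΨ z hz => hh.closed _ U hΨ.2 z hz }

theorem bisecNonneg_pullMfd (hE : UcImm 𝓜 E B) (hb : BisecNonneg 𝓜 h) :
    BisecNonneg (pullMfd 𝓜 E B hE) (pullF E h) :=
  fun _ U hΨ z hz v w => hb _ U hΨ.2 z hz v w

theorem ricF_pullF (E : CE ι → V) (h : HFam V ι) : ricF (pullF E h) = pullF E (ricF h) := rfl

theorem ddc_pullF (E : CE ι → V) (u : V → ℝ) : ddc (u ∘ E) = pullF E (ddc u) := rfl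

theorem scalCurv_pullMfd (hE : UcImm 𝓜 E B) (hh : IsMetric 𝓜 h) {x : CE ι} (hx : x ∈ B) :
    scalCurv (pullMfd 𝓜 E B hE) (pullF E h) x = scalCurv 𝓜 h (E x) := by
  have hx' : x ∈ (pullMfd 𝓜 E B hE).carrier := hx
  have hΨ := (pullMfd 𝓜 E B hE).isHol_pΦ hx'
  have hz := (pullMfd 𝓜 E B hE).co_mem hx'
  have hxz := (pullMfd 𝓜 E B hE).pΦ_co hx'
  have e1 := scalCurv_eq (isMetric_pullMfd hE hh) hΨ hz
  have e2 := scalCurv_eq hh hΨ.2 hz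
  rw [hxz] at e1
  have e3 : (E ∘ (pullMfd 𝓜 E B hE).pΦ x) ((pullMfd 𝓜 E B hE).co x) = E x := congrArg E hxz
  rw [e3] at e2
  rw [e1, e2]
  rfl

theorem smooth_comp_pullMfd (hE : UcImm 𝓜 E B) {u : V → ℝ} (hu : 𝓜.Smooth u) :
    (pullMfd 𝓜 E B hE).Smooth (u ∘ E) := fun _ U hΨ => hu _ U hΨ.2

/-- smooth functions on the unwrapped manifold = smooth functions on the domain `B`. -/
theorem smooth_pullMfd_iff (hE : UcImm 𝓜 E B) {u : CE ι → ℝ} :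
    (pullMfd 𝓜 E B hE).Smooth u ↔ ContDiffOn ℝ ∞ u B := by
  constructor
  · intro hu x hx
    have hx' : x ∈ (pullMfd 𝓜 E B hE).carrier := hx
    have hΨ := (pullMfd 𝓜 E B hE).isHol_pΦ hx'
    have hz := (pullMfd 𝓜 E B hE).co_mem hx'
    have hxi := (pullMfd 𝓜 E B hE).mem_image_pΦ hx'
    have hp : IsParam B ((pullMfd 𝓜 E B hE).pΦ x) ((pullMfd 𝓜 E B hE).pU x) := hΨ.1
    have hBx : ∀ᶠ y in 𝓝 x, y ∈ B := hE.isOpen.mem_nhds hx
    have h1 : ContDiffAt ℝ ∞ (Function.invFunOn ((pullMfd 𝓜 E B hE).pΦ x) ((pullMfd 𝓜 E B hE).pU x) ∘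
        fun y : CE ι => y) x :=
      hp.contDiffAt_invFunOn_comp le_rfl contDiffAt_id hBx hxi
    have h2 : ContDiffAt ℝ ∞ (u ∘ (pullMfd 𝓜 E B hE).pΦ x) ((pullMfd 𝓜 E B hE).co x) :=
      (hu _ _ hΨ).contDiffAt (hp.isOpen.mem_nhds hz)
    have h3 := ContDiffAt.comp x (g := u ∘ (pullMfd 𝓜 E B hE).pΦ x)
      (f := Function.invFunOn ((pullMfd 𝓜 E B hE).pΦ x) ((pullMfd 𝓜 E B hE).pU x) ∘
        fun y : CE ι => y) h2 h1
    obtain ⟨O, hO, hOeq⟩ := hp.image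
    have hxO : x ∈ O := by
      have : x ∈ B ∩ O := hOeq ▸ hxi
      exact this.2
    refine (h3.congr_of_eventuallyEq ?_).contDiffWithinAt
    filter_upwards [hBx, hO.mem_nhds hxO] with y hyB hyO
    have hyi : y ∈ (pullMfd 𝓜 E B hE).pΦ x '' (pullMfd 𝓜 E B hE).pU x := by
      rw [hOeq]
      exact ⟨hyB, hyO⟩
    exact (congrArg u (hp.rightInv hyi)).symm
  · intro hu Ψ U hΨ
    exact hu.comp hΨ.1.smooth fun z hz => hΨ.1.mem hz

end forms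

section real

variable [DecidableEq ι] {h : HFam V ι}

/-- the differential of `E` read in the chosen parametrisation at `E x`. -/
noncomputable def ucL (𝓜 : CMfd V ι) (E : CE ι → V) (x : CE ι) : CE ι →L[ℝ] CE ι :=
  fderiv ℝ (fun y => Function.invFunOn (𝓜.pΦ (E x)) (𝓜.pU (E x)) (E y)) x

/-- the real metric tensor `Re h(dE ·, dE ·)`. -/
noncomputable def ucG (𝓜 : CMfd V ι) (h : HFam V ι) (E : CE ι → V) (x : CE ι) :
    CE ι →L[ℝ] CE ι →L[ℝ] ℝ :=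
  ((kgeo h (𝓜.pΦ (E x)) (𝓜.pU (E x))).G (𝓜.co (E x))).bilinearComp (ucL 𝓜 E x) (ucL 𝓜 E x)

/-- the unwrapped Riemannian structure, in ONE real chart. -/
noncomputable def ucGeo (𝓜 : CMfd V ι) (h : HFam V ι) (E : CE ι → V) (B : Set (CE ι)) :
    RGeo (CE ι) := RGeo.ofMetric B (ucG 𝓜 h E)

@[simp] theorem ucGeo_U (𝓜 : CMfd V ι) (h : HFam V ι) (E : CE ι → V) (B : Set (CE ι)) :
    (ucGeo 𝓜 h E B).U = B := rfl

@[simp] theorem ucGeo_G (𝓜 : CMfd V ι) (h : HFam V ι) (E : CE ι → V) (B : Set (CE ι)) :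
    (ucGeo 𝓜 h E B).G = ucG 𝓜 h E := rfl

theorem ucGeo_restr (𝓜 : CMfd V ι) (h : HFam V ι) (E : CE ι → V) (B B' : Set (CE ι)) :
    (ucGeo 𝓜 h E B).restr B' = ucGeo 𝓜 h E B' := rfl

theorem ucG_apply (𝓜 : CMfd V ι) (h : HFam V ι) (E : CE ι → V) (x a b : CE ι) :
    ucG 𝓜 h E x a b = reForm (h (𝓜.pΦ (E x)) (𝓜.co (E x))) (ucL 𝓜 E x a) (ucL 𝓜 E x b) := rfl

/-- `dE = dΦ ∘ ucL` for the chosen parametrisation. -/
theorem UcMap.fderiv_eq_ucL (hE : UcMap 𝓜 E B) {x : CE ι} (hx : x ∈ B) (a : CE ι) :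
    fderiv ℝ E x a = fderiv ℝ (𝓜.pΦ (E x)) (𝓜.co (E x)) (ucL 𝓜 E x a) :=
  hE.fderiv_eq (𝓜.isHol_pΦ (hE.mem x hx)) hx (𝓜.mem_image_pΦ (hE.mem x hx)) a

theorem ucG_eq_ambB_aux (hE : UcMap 𝓜 E B) {x : CE ι} (hx : x ∈ B) (a b : CE ι) :
    ucG 𝓜 h E x a b = ambB 𝓜 h (E x) (fderiv ℝ E x a) (fderiv ℝ E x b) := by
  have hp := 𝓜.isParam (𝓜.isHol_pΦ (hE.mem x hx))
  have hz := 𝓜.co_mem (hE.mem x hx)
  unfold ambB
  rw [hE.fderiv_eq_ucL hx a, hE.fderiv_eq_ucL hx b, hp.coVec_fderiv hz, hp.coVec_fderiv hz]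
  rfl

/-- the metric tensor in any parametrisation. -/
theorem ucG_param (hE : UcMap 𝓜 E B) (hh : IsHForm 𝓜 h) {Φ : CE ι → V} {U : Set (CE ι)}
    (hΦ : 𝓜.IsHol Φ U) {x : CE ι} (hx : x ∈ B) (hxΦ : E x ∈ Φ '' U) (a b : CE ι) :
    ucG 𝓜 h E x a b = reForm (h Φ (Function.invFunOn Φ U (E x)))
      (fderiv ℝ (Function.invFunOn Φ U ∘ E) x a) (fderiv ℝ (Function.invFunOn Φ U ∘ E) x b) := by
  have hp := 𝓜.isParam hΦ
  have hz := hp.invFunOn_mem hxΦ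
  have he := hp.rightInv hxΦ
  rw [ucG_eq_ambB_aux hE hx, hE.fderiv_eq hΦ hx hxΦ a, hE.fderiv_eq hΦ hx hxΦ b]
  have key := ambB_param hh hΦ hz (fderiv ℝ (Function.invFunOn Φ U ∘ E) x a)
    (fderiv ℝ (Function.invFunOn Φ U ∘ E) x b)
  rw [he] at key
  exact key

theorem ucG_eq_ambB (hE : UcMap 𝓜 E B) {x : CE ι} (hx : x ∈ B) (a b : CE ι) :
    ucG 𝓜 h E x a b = ambB 𝓜 h (E x) (fderiv ℝ E x a) (fderiv ℝ E x b) := by
  exact ucG_eq_ambB_aux hE hx a b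

theorem ucG_self_eq_ambQ (hE : UcMap 𝓜 E B) {x : CE ι} (hx : x ∈ B) (a : CE ι) :
    ucG 𝓜 h E x a a = ambQ 𝓜 h (E x) (fderiv ℝ E x a) := by
  rw [ucG_eq_ambB_aux hE hx]
  rfl

/-- smoothness of the metric tensor (NO immersion hypothesis). -/
theorem contDiffOn_ucG (hE : UcMap 𝓜 E B) (hh : IsHForm 𝓜 h) : ContDiffOn ℝ ∞ (ucG 𝓜 h E) B := by
  intro x₀ hx₀
  have hc := hE.mem x₀ hx₀
  have hΦ := 𝓜.isHol_pΦ hc
  have hp := 𝓜.isParam hΦ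
  have hB₁ := hE.isOpen_overlap hΦ
  have hθs := hE.contDiffOn_co hΦ
  have hD : ContDiffOn ℝ ∞ (fderiv ℝ (Function.invFunOn (𝓜.pΦ (E x₀)) (𝓜.pU (E x₀)) ∘ E))
      (B ∩ E ⁻¹' (𝓜.pΦ (E x₀) '' 𝓜.pU (E x₀))) := hθs.fderiv_of_isOpen hB₁ (by simp)
  have hGs : ContDiffOn ℝ ∞ (kgeo h (𝓜.pΦ (E x₀)) (𝓜.pU (E x₀))).G (𝓜.pU (E x₀)) := by
    refine contDiffOn_clm_apply.2 fun a => contDiffOn_clm_apply.2 fun b => ?_
    exact contDiffOn_reForm (fun j k => hh.smooth hΦ j k) a b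
  have h1 : ContDiffOn ℝ ∞ (fun x => (kgeo h (𝓜.pΦ (E x₀)) (𝓜.pU (E x₀))).G
      ((Function.invFunOn (𝓜.pΦ (E x₀)) (𝓜.pU (E x₀)) ∘ E) x))
      (B ∩ E ⁻¹' (𝓜.pΦ (E x₀) '' 𝓜.pU (E x₀))) :=
    hGs.comp hθs fun y hy => hp.invFunOn_mem hy.2
  have h2 : ContDiffOn ℝ ∞ (fun x => ((kgeo h (𝓜.pΦ (E x₀)) (𝓜.pU (E x₀))).G
      ((Function.invFunOn (𝓜.pΦ (E x₀)) (𝓜.pU (E x₀)) ∘ E) x)).bilinearComp
        (fderiv ℝ (Function.invFunOn (𝓜.pΦ (E x₀)) (𝓜.pU (E x₀)) ∘ E) x)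
        (fderiv ℝ (Function.invFunOn (𝓜.pΦ (E x₀)) (𝓜.pU (E x₀)) ∘ E) x))
      (B ∩ E ⁻¹' (𝓜.pΦ (E x₀) '' 𝓜.pU (E x₀))) :=
    RGeo.contDiffOn_flip ((RGeo.contDiffOn_flip (h1.clm_comp hD)).clm_comp hD)
  have hx₁ : x₀ ∈ B ∩ E ⁻¹' (𝓜.pΦ (E x₀) '' 𝓜.pU (E x₀)) := ⟨hx₀, 𝓜.mem_image_pΦ hc⟩
  refine ((h2.contDiffAt (hB₁.mem_nhds hx₁)).congr_of_eventuallyEq ?_).contDiffWithinAt
  filter_upwards [hB₁.mem_nhds hx₁] with y hy
  refine ContinuousLinearMap.ext fun a => ContinuousLinearMap.ext fun b => ?_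
  exact ucG_param hE hh hΦ hy.1 hy.2 a b

theorem ucG_symm (hE : UcMap 𝓜 E B) (hh : IsHForm 𝓜 h) {x : CE ι} (hx : x ∈ B) (a b : CE ι) :
    ucG 𝓜 h E x a b = ucG 𝓜 h E x b a := by
  rw [ucG_apply, ucG_apply]
  exact reForm_symm (hh.herm (𝓜.isHol_pΦ (hE.mem x hx)) _ (𝓜.co_mem (hE.mem x hx))) _ _

theorem ucG_nonneg (hE : UcMap 𝓜 E B) (hh : IsMetric 𝓜 h) {x : CE ι} (hx : x ∈ B) (a : CE ι) :
    0 ≤ ucG 𝓜 h E x a a := by
  rw [ucG_apply]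
  exact qf_nonneg (hh.posDef (𝓜.isHol_pΦ (hE.mem x hx)) _ (𝓜.co_mem (hE.mem x hx))).posSemidef _

/-- positivity detects the immersion property. -/
theorem ucG_pos_iff (hE : UcMap 𝓜 E B) (hh : IsMetric 𝓜 h) {x : CE ι} (hx : x ∈ B) (a : CE ι) :
    0 < ucG 𝓜 h E x a a ↔ fderiv ℝ E x a ≠ 0 := by
  have hc := hE.mem x hx
  have hp := 𝓜.isParam (𝓜.isHol_pΦ hc)
  have hpd := hh.posDef (𝓜.isHol_pΦ hc) _ (𝓜.co_mem hc)
  have hinj := hp.immersion _ (𝓜.co_mem hc)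
  rw [ucG_apply, hE.fderiv_eq_ucL hx a]
  constructor
  · intro hpos h0
    have h1 : ucL 𝓜 E x a = 0 := hinj (h0.trans (map_zero _).symm)
    rw [h1] at hpos
    simp [reForm] at hpos
  · intro hne
    have h1 : ((ucL 𝓜 E x a : CE ι) : ι → ℂ) ≠ 0 := by
      intro h0
      apply hne
      have : ucL 𝓜 E x a = 0 := by
        ext i
        exact congrFun h0 i
      rw [this, map_zero]
    exact (Complex.pos_iff.1 (hpd.dotProduct_mulVec_pos h1)).1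

theorem ucGeo_isRiem (hE : UcImm 𝓜 E B) (hh : IsMetric 𝓜 h) : (ucGeo 𝓜 h E B).IsRiem := by
  refine RGeo.isRiem_ofMetric hE.isOpen (contDiffOn_ucG hE.toUcMap hh.toIsHForm)
    (fun x hx a b => ucG_symm hE.toUcMap hh.toIsHForm hx a b) (fun x hx a ha => ?_)
  rw [ucG_pos_iff hE.toUcMap hh hx]
  intro h0
  exact ha (hE.inj x hx (h0.trans (map_zero _).symm))

/-- `E` read in a parametrisation of `𝓜` is a local isometry. -/
theorem isIsom_ucGeo_to (hE : UcImm 𝓜 E B) (hh : IsMetric 𝓜 h) {Φ : CE ι → V} {U : Set (CE ι)}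
    (hΦ : 𝓜.IsHol Φ U) {B' : Set (CE ι)} (hB' : IsOpen B') (hsub : B' ⊆ B)
    (hmem : ∀ x ∈ B', E x ∈ Φ '' U) :
    RGeo.IsIsom (ucGeo 𝓜 h E B') (kgeo h Φ U) (Function.invFunOn Φ U ∘ E) := by
  exact isIsom_of_ambient (S₀ := ucGeo 𝓜 h E B') hh hΦ hB' (hE.smooth.mono hsub) hmem
    (fun p hp => hE.inj p (hsub hp)) kg_finrank_real_CE
    (fun p hp a b => ucG_eq_ambB_aux hE.toUcMap (hsub hp) a b)

/-- **the holomorphic parametrisations of the unwrapped manifold are local isometries onto the global real chart.** -/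
theorem isIsom_ucGeo (hE : UcImm 𝓜 E B) (hh : IsMetric 𝓜 h) {Ψ : CE ι → CE ι} {U : Set (CE ι)}
    (hΨ : (pullMfd 𝓜 E B hE).IsHol Ψ U) :
    RGeo.IsIsom (kgeo (pullF E h) Ψ U) (ucGeo 𝓜 h E B) Ψ := by
  have hp : IsParam B Ψ U := hΨ.1
  have hΦ : 𝓜.IsHol (E ∘ Ψ) U := hΨ.2
  have hpΦ := 𝓜.isParam hΦ
  refine ⟨hp.smooth, fun z hz => hp.mem hz,
    fun z hz => isInvertible_of_injective_CE (hp.immersion z hz), fun z hz a b => ?_⟩
  have hxB : Ψ z ∈ B := hp.mem hz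
  have hxΦ : E (Ψ z) ∈ (E ∘ Ψ) '' U := ⟨z, hz, rfl⟩
  have hleft : Function.invFunOn (E ∘ Ψ) U (E (Ψ z)) = z := hpΦ.leftInv hz
  have hd : DifferentiableAt ℝ (Function.invFunOn (E ∘ Ψ) U ∘ E) (Ψ z) :=
    ((hE.toUcMap.contDiffOn_co hΦ).contDiffAt
      ((hE.toUcMap.isOpen_overlap hΦ).mem_nhds ⟨hxB, hxΦ⟩)).differentiableAt (by simp)
  have hchain : (fderiv ℝ (Function.invFunOn (E ∘ Ψ) U ∘ E) (Ψ z)).comp (fderiv ℝ Ψ z) =
      ContinuousLinearMap.id ℝ (CE ι) := by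
    rw [← fderiv_comp z hd (hp.differentiableAt hz)]
    have hev : ((Function.invFunOn (E ∘ Ψ) U ∘ E) ∘ Ψ) =ᶠ[𝓝 z] fun y => y := by
      filter_upwards [hp.isOpen.mem_nhds hz] with y hy using hpΦ.leftInv hy
    rw [hev.fderiv_eq]
    exact fderiv_fun_id
  have happ : ∀ v, fderiv ℝ (Function.invFunOn (E ∘ Ψ) U ∘ E) (Ψ z) (fderiv ℝ Ψ z v) = v := fun v =>
    congrArg (fun L : CE ι →L[ℝ] CE ι => L v) hchain
  show reForm (h (E ∘ Ψ) z) a b = ucG 𝓜 h E (Ψ z) (fderiv ℝ Ψ z a) (fderiv ℝ Ψ z b)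
  rw [ucG_param hE.toUcMap hh.toIsHForm hΦ hxB hxΦ, happ, happ, hleft]

end real

end Claimed.Agent.R316
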