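import Claimed.Agent.R316.Base.Chart.Cplx
import Claimed.Agent.R316.Pack018
import Claimed.Agent.Lib.Dgnm.Elliptic

/-!
# `BP-G14` part R/M: analysis on a `GoodBall` in the real normal chart; the mean value inequality (Moser) with a divergence term

Architect: helper195.  PAPER FREE.  Standing hypothesis `hB : GoodBall X k S K`, `K ≤ 1`; so `(1/2)|b|² ≤ S.G x b b ≤ 2 |b|²` on the ball (`GoodBall.le_G`, `G_le`).
The operator `Δ_k` (`lap X k`, a quarter of the Riemannian Laplacian) becomes, in the real chart, a uniformly elliptic operator in divergence form with merely bounded continuous coefficients (NO bound for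
their derivatives), and `Lib/Dgnm` (De Giorgi-Nash-Moser, `dg_elliptic_bound`) applies.  Only the WEAK form is used: no invariance of the Laplace-Beltrami operator.

* `ucDens X k x = det_ℂ (k Ψ z) / |det_ℝ dΨ_z|` (`x = Ψ z`): density of `dV_k` w.r.t. Lebesgue measure of the ball.
* `ucA X k S x = (dens/4) (S.G x)⁻¹ : W^* → W`: `⟨∂u,∂w⟩_k dens = du (A dw)`.
* `ucYr X Y x = dΨ_z (Y Ψ z)`: the real vector field of a `(1,0)`-field: `dφ(Yr) = 2 Re ∑ Y^k ∂_k φ`.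
* `divF h Y Φ z = (det H)⁻¹ ∑_p ∂_p (det H Y^p)`: chartwise divergence.  `pairY 𝓜 Y φ = Re ∑ Y^k ∂_k φ`.

## Leaves (sections)
* `G14-R1` (section `density`)   * `G14-R2` (section `coef`)   * `G14-R3` (section `field`)
* `G14-M0` (section `weak`): weak form of `Δw ≥ 2 Re div Y - c w` on ANY Kaehler manifold (partition of unity; G6 style).
* `G14-M1` (section `moser`): assembly with `dg_elliptic_bound`.

## RECIPES
**R1.**  `ucDens_param`: transition `τ = invFunOn pΦ pU ∘ Ψ` is holomorphic, `Ψ = pΦ ∘ τ` near `z`: `det_ℝ dΨ = det_ℝ dpΦ · det_ℝ dτ`, `det_ℝ dτ = |det jac τ|²` (`det_fderiv_real`, `CW/Integral.lean`), `det (k Ψ z) = |det jac τ|² det (k pΦ (τ z))`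
(`IsHForm.det_re_compat`, `Vol/Exist.lean`).  `ucDens_bounds`: `H = k Ψ z`, `A = dΨ_z` (invertible), `qf H v = G(Av,Av)` (`qf_eq`).  Let `B` = the `ℂ`-linear map of the matrix `H^{-1/2}` (`Matrix.PosDef` square root / `CFC.sqrt`, or `CW/MatAlg`), `det_ℝ B = |det_ℂ B|² = 1/det H`
(`det_restrictScalars_real`).  `T = A ∘ B` satisfies `G(Tv,Tv) = ‖v‖²`, so `‖v‖²/2 ≤ ‖Tv‖² ≤ 2‖v‖²`; hence `2^{-n} ≤ |det_ℝ T| ≤ 2^{n}` (`dim_ℝ = 2n`): `T (ball 0 1) ⊆ ball 0 √2` and `vol (T '' s) = |det T| vol s` (`MeasureTheory.Measure.addHaar_image_continuousLinearMap`), `vol (ball 0 r) = r^{2n} vol (ball 0 1)`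
(`Measure.addHaar_ball_mul`); same for `T⁻¹`.  `dens = det H/|det A| = 1/|det T|`.  `continuousOn_ucDens`: locally `ucDens = (numerator/denominator) ∘ (local inverse of Ψ)`.
`hvol_eq`: show `IsVol X k μ` for `μ = (volume.restrict ball).withDensity (ofReal ∘ dens)` and use `IsVol.eq_hvol`: `μ (Ψ '' A) = ∫⁻_{Ψ '' A} dens = ∫⁻_A |det dΨ_z| dens (Ψ z) = ∫⁻_A det (k Ψ z)` (`lintegral_image_eq_lintegral_abs_det_fderiv_mul`, `Ψ` injective on `U`).
**R2.**  `G x : W →L W^*` is invertible (positive definite, finite dimension), `♯ξ = (G x).inverse ξ` satisfies `G x (♯ξ) b = ξ b`.  `gradInner_mul_dens`: in a chart `x = Ψ z`: `gradInner_eq`-type lemma of `Vol/Calc.lean` gives `gradInner X k u w x = dualIP (k Ψ z) (grad10 (u∘Ψ) z) (grad10 (w∘Ψ) z)`; polarise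
`gradSqF_eq_of_riesz` (`T = dΨ_z⁻¹ ♯(du_x)`): `⟨∂u,∂w⟩ = G(♯du,♯dw)/4 = du(♯dw)/4`.  `ucA_lo`: `‖ξ‖ ≤ √2 nrm(♯ξ)` since `|ξ b| = |G(♯ξ,b)| ≤ nrm(♯ξ) nrm(b) ≤ nrm(♯ξ) √2 ‖b‖`; so `ξ(♯ξ) = G(♯ξ,♯ξ) ≥ ‖ξ‖²/2`.  `ucA_hi`: `‖♯ξ‖² ≤ 2 G(♯ξ,♯ξ) = 2 ξ(♯ξ) ≤ 2‖ξ‖‖♯ξ‖`.
`continuousOn_ucA`: `ContinuousLinearMap.IsInvertible.contDiffAt_map_inverse` / continuity of `inverse` at invertible maps, `S.G` smooth.
**R3.**  `ucYr_param`: `IsVField.compat` and `dΨ = dpΦ ∘ dτ`, `dτ v = jac τ · v`.  `fderiv_ucYr`: `d(φ∘Ψ)_z (v) = 2 Re ∑ v_k ∂_k(φ∘Ψ)` for real `φ` (definition of `dz`; cf. `norm_sum_grad10_sq`, `re_sum_mul_gradV`).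
**M0.**  `K₀` = the compact set carrying `φ`.  `CMfd.exists_finite_partition` gives smooth `χ_i ≥ 0` supported in `Φ_i '' C_i`, `C_i ⊆ U_i` compact, `∑ χ_i = 1` on `K₀`.  Green I (`integral_mul_lap`): `- ∫ ⟨∂φ,∂w⟩ = ∫ φ Δw = ∑_i ∫ χ_i φ Δw`
`= ∑_i ∫_{U_i} (χ_i φ)∘Φ_i · lapP(w∘Φ_i) det H_i` (`integral_hvol_of_support_real`, `lap_eq_lapP`) `≥ ∑_i ∫_{U_i} (χ_iφ)∘Φ_i (2 Re divF - c w) det H_i`; `∫_{U_i} f · (det H)⁻¹ ∑_p ∂_p(det H Y^p) det H = - ∫_{U_i} ∑_p ∂_p f · det H Y^p` (`setIntegral_dz_mul`, `f = (χ_iφ)∘Φ_i` is `C¹` with compact support in `U_i`),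
i.e. `= - ∫ pairY(χ_i φ) dV` after taking real parts (`pairY_param`); `∑_i pairY (χ_i φ) = pairY φ` on the carrier (`Leibniz`, `∑ χ_i = 1` near the support of `φ`... precisely: `pairY (χ_i φ) = χ_i pairY φ + φ pairY χ_i` and `∑_i pairY χ_i = pairY (∑ χ_i) = 0` at points of the interior of `{∑ χ_i = 1}`; choose the partition
equal to `1` on a compact NEIGHBOURHOOD of `K₀` in the carrier).
**M1.**  `W = CE ι`, `m = 2 card ι ≥ 2`, `Sdom = ball 0 R'`.  `E.a = ucA X k S`, `E.f x = -(dens x / w x) • ucYr X Y x`, `E.c x = c2 * dens x`, `E.b = E.F = 0`, `E.g = 0` (values outside `Sdom` irrelevant).  `Ok` with `lam = 2^{-n}/8`, `Lam = max (2^{n-1}) (max (2^n √2 c1) (2^n c2))`, `kF = kg = 0`: `‖Yr‖² ≤ 2 G(Yr,Yr) = 2 qf k Y ≤ 2 c1² w²`.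
`dg_ESub`: for a test function `φ ≥ 0` (`C¹`, compact support in `Sdom`): `∫ dg_eform = ∫_{ball} dens (⟨∂φ,∂w⟩ - 2 pairY φ - c2 φ w) dx = ∫ (..) dV_k ≤ 0` by `integral_hvol_eq` and M0 (`φ` is `LocLip` and `C¹` in charts because the charts are smooth maps; `K₀ = tsupport φ`).
Then `dg_elliptic_bound (CE ι) hm lam Lam .. 1` (`p = 1`; `Real.rpow_one`, `div_one`), `dg_m (CE ι) = 2 card ι` (`finrank_euclideanSpace`, `Complex.finrank_real_complex`, `Module.finrank_mul_finrank`).  `moser_sub`: apply `moser` to `w + η`, `Y = 0` (`c1 = 0`), and let `η → 0`.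
-/

set_option autoImplicit false
set_option linter.unusedSectionVars false
set_option maxSynthPendingDepth 3
open scoped ContDiff Topology ComplexOrder ComplexConjugate
open MeasureTheory

namespace Claimed.Agent.R316

section defs

variable {V : Type} [NormedAddCommGroup V] [NormedSpace ℝ V]
variable {ι : Type} [Fintype ι] [DecidableEq ι]

/-- chartwise divergence of a `(1,0)`-field: `(det H)⁻¹ ∑_p ∂_p (det H · Y^p)`. -/
noncomputable def divF (h : HFam V ι) (Y : (CE ι → V) → CE ι → ι → ℂ) (Φ : CE ι → V) (z : CE ι) : ℂ :=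
  ((h Φ z).det)⁻¹ * ∑ p, dz p (fun y => (h Φ y).det * Y Φ y p) z

/-- chartwise pairing `Re ∑ Y^k ∂_k φ`. -/
noncomputable def pairYF (Y : (CE ι → V) → CE ι → ι → ℂ) (φ : V → ℝ) (Φ : CE ι → V) (z : CE ι) : ℝ :=
  (∑ p, Y Φ z p * grad10 (φ ∘ Φ) z p).re

/-- `Re Y(φ)` as a function on the manifold. -/
noncomputable def pairY (𝓜 : CMfd V ι) (Y : (CE ι → V) → CE ι → ι → ℂ) (φ : V → ℝ) : V → ℝ :=
  𝓜.scal (pairYF Y φ)

/-- density of `dV_k` with respect to the Lebesgue measure of the real chart. -/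
noncomputable def ucDens (X : CMfd (CE ι) ι) (k : HFam (CE ι) ι) (x : CE ι) : ℝ :=
  (k (X.pΦ x) (X.co x)).det.re / |(fderiv ℝ (X.pΦ x) (X.co x)).det|

/-- the coefficient matrix of `Δ_k` in the real chart. -/
noncomputable def ucA (X : CMfd (CE ι) ι) (k : HFam (CE ι) ι) (S : RGeo (CE ι)) (x : CE ι) :
    (CE ι →L[ℝ] ℝ) →L[ℝ] CE ι :=
  (ucDens X k x / 4) • (S.G x).inverse

/-- the real vector field of a `(1,0)`-field. -/
noncomputable def ucYr (X : CMfd (CE ι) ι) (Y : (CE ι → CE ι) → CE ι → ι → ℂ) (x : CE ι) : CE ι :=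
  fderiv ℝ (X.pΦ x) (X.co x) (WithLp.toLp 2 (Y (X.pΦ x) (X.co x)))

end defs

variable {ι : Type} [Fintype ι] [DecidableEq ι]
variable {X : CMfd (CE ι) ι} {k : HFam (CE ι) ι} {S : RGeo (CE ι)} {K : ℝ}
variable {Ψ : CE ι → CE ι} {U : Set (CE ι)} {x z : CE ι}

section density

theorem GoodBall.ucDens_param (hB : GoodBall X k S K) (hΨ : X.IsHol Ψ U) (hz : z ∈ U) :
    ucDens X k (Ψ z) = (k Ψ z).det.re / |(fderiv ℝ Ψ z).det| := by
  have hx : Ψ z ∈ X.carrier := CMfd.mem_carrier hΨ hz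
  have hP := X.isHol_pΦ hx
  have hz' : z ∈ U ∩ Ψ ⁻¹' (X.pΦ (Ψ z) '' X.pU (Ψ z)) := ⟨hz, X.mem_image_pΦ hx⟩
  set τ := Function.invFunOn (X.pΦ (Ψ z)) (X.pU (Ψ z)) ∘ Ψ with hτ
  have e1 : X.co (Ψ z) = τ z := rfl
  have hJ : (jac τ z).det ≠ 0 := CMfd.det_jac_trans_ne_zero hΨ hP hz'
  have hJ' : (0 : ℝ) < ‖(jac τ z).det‖ ^ 2 := by positivity
  have h1 : (k Ψ z).det.re = ‖(jac τ z).det‖ ^ 2 * (k (X.pΦ (Ψ z)) (τ z)).det.re :=
    hB.kahler.toIsHForm.det_re_compat hΨ hP hz'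
  have h2 : fderiv ℝ Ψ z = (fderiv ℝ (X.pΦ (Ψ z)) (τ z)).comp (fderiv ℝ τ z) := by
    ext1 v
    rw [CMfd.fderiv_eq_comp_trans hΨ hP hz' v, (CMfd.trans_hasFDerivAt_real hΨ hP hz').fderiv]
    rfl
  have h3 : (fderiv ℝ Ψ z).det = (fderiv ℝ (X.pΦ (Ψ z)) (τ z)).det * ‖(jac τ z).det‖ ^ 2 := by
    rw [h2, ← det_fderiv_real τ (CMfd.trans_differentiableAt hΨ hP hz')]
    exact LinearMap.det_comp _ _
  unfold ucDens
  rw [e1, h1, h3, abs_mul, abs_of_pos hJ', mul_comm (‖(jac τ z).det‖ ^ 2),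
    mul_div_mul_right _ _ hJ'.ne']

theorem rl_abs_det_le {E : Type} [NormedAddCommGroup E] [NormedSpace ℝ E] [FiniteDimensional ℝ E]
    (L : E →L[ℝ] E) {c : ℝ} (hc : 0 < c)
    (h : ∀ v, ‖L v‖ ≤ c * ‖v‖) : |L.det| ≤ c ^ Module.finrank ℝ E := by
  classical
  let _ : MeasurableSpace E := borel E
  have _ : BorelSpace E := ⟨rfl⟩
  let μ : Measure E := Measure.addHaar
  have h1 : L '' Metric.ball 0 1 ⊆ Metric.ball 0 (c * 1) := by
    rintro _ ⟨v, hv, rfl⟩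
    rw [mem_ball_zero_iff] at hv ⊢
    calc ‖L v‖ ≤ c * ‖v‖ := h v
      _ < c * 1 := by gcongr
  have h2 := measure_mono (μ := μ) h1
  rw [Measure.addHaar_image_continuousLinearMap, Measure.addHaar_ball_mul_of_pos μ 0 hc] at h2
  have hpos : μ (Metric.ball (0 : E) 1) ≠ 0 := (Metric.measure_ball_pos μ 0 one_pos).ne'
  have hfin : μ (Metric.ball (0 : E) 1) ≠ ⊤ := measure_ball_lt_top.ne
  have h3 := (ENNReal.mul_le_mul_iff_left hpos hfin).1 h2
  exact (ENNReal.ofReal_le_ofReal_iff (by positivity)).1 h3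

theorem rl_le_abs_det {E : Type} [NormedAddCommGroup E] [NormedSpace ℝ E] [FiniteDimensional ℝ E]
    (L : E →L[ℝ] E) {c : ℝ} (hc : 0 < c)
    (h : ∀ v, ‖v‖ ≤ c * ‖L v‖) : 1 ≤ c ^ Module.finrank ℝ E * |L.det| := by
  have hdet : L.det ≠ 0 := by
    intro h0
    have h1 := LinearMap.bot_lt_ker_of_det_eq_zero (f := (L : E →ₗ[ℝ] E)) h0
    obtain ⟨v, hv, hv0⟩ := (Submodule.ne_bot_iff _).1 h1.ne'
    have h2 : L v = 0 := hv
    have h3 := h v
    rw [h2, norm_zero, mul_zero] at h3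
    exact hv0 (norm_le_zero_iff.1 h3)
  set e := L.toContinuousLinearEquivOfDetNeZero hdet with he
  have hL : ∀ w, L (e.symm w) = w := fun w => e.apply_symm_apply w
  have h1 := rl_abs_det_le (e.symm : E →L[ℝ] E) hc (fun w => by
    have := h (e.symm w)
    rwa [hL] at this)
  rw [ContinuousLinearEquiv.det_coe_symm] at h1
  have h2 : ((e : E →L[ℝ] E)).det = L.det := rfl
  rw [h2, abs_inv] at h1
  have h3 : 0 < |L.det| := abs_pos.2 hdet
  calc (1 : ℝ) = |L.det|⁻¹ * |L.det| := (inv_mul_cancel₀ h3.ne').symm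
    _ ≤ _ := by gcongr

theorem rl_finrank_CE : Module.finrank ℝ (CE ι) = 2 * Fintype.card ι := by
  rw [← Module.finrank_mul_finrank ℝ ℂ (CE ι), Complex.finrank_real_complex,
    finrank_euclideanSpace]

theorem rl_det_toEuclideanCLM (T : Matrix ι ι ℂ) :
    (Matrix.toEuclideanCLM (n := ι) (𝕜 := ℂ) T).det = T.det := by
  have e : ((Matrix.toEuclideanCLM (n := ι) (𝕜 := ℂ) T : CE ι →L[ℂ] CE ι) : CE ι →ₗ[ℂ] CE ι) =
      Matrix.toLin (EuclideanSpace.basisFun ι ℂ).toBasis (EuclideanSpace.basisFun ι ℂ).toBasis T :=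
    rfl
  rw [ContinuousLinearMap.det, e, LinearMap.det_toLin]

theorem GoodBall.ucDens_bounds (hB : GoodBall X k S K) (hK : K ≤ 1) (hx : ‖x‖ < 1) :
    (1 / 2 : ℝ) ^ Fintype.card ι ≤ ucDens X k x ∧ ucDens X k x ≤ 2 ^ Fintype.card ι := by
  obtain ⟨Ψ, U, z, hΨ, hz, rfl⟩ := hB.exists_chart hx
  rw [hB.ucDens_param hΨ hz]
  have hpd : (k Ψ z).PosDef := hB.kahler.toIsMetric.posDef hΨ z hz
  obtain ⟨T, -, hT0, hT, -⟩ := exists_simDiag hpd hpd.isHermitian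
  set n := Fintype.card ι with hn
  set A := fderiv ℝ Ψ z with hA
  set Bc : CE ι →L[ℂ] CE ι := Matrix.toEuclideanCLM (n := ι) (𝕜 := ℂ) T with hBc
  set L : CE ι →L[ℝ] CE ι := A.comp (Bc.restrictScalars ℝ) with hL
  have hG : ∀ v : CE ι, S.G (Ψ z) (L v) (L v) = ‖v‖ ^ 2 := by
    intro v
    have e1 : L v = A (Bc v) := rfl
    have e2 : ((Bc v : CE ι) : ι → ℂ) = T.mulVec (v : ι → ℂ) := rfl
    rw [e1, ← hB.qf_eq hΨ hz, e2, simDiag_qf_one hT, EuclideanSpace.norm_sq_eq]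
  have hs2 : (0 : ℝ) < Real.sqrt 2 := by positivity
  have hsq : Real.sqrt 2 ^ 2 = 2 := Real.sq_sqrt (by norm_num)
  have h1 : ∀ v, ‖L v‖ ≤ Real.sqrt 2 * ‖v‖ := by
    intro v
    have := hB.le_G hK hx (L v)
    rw [hG] at this
    refine abs_le_of_sq_le_sq' ?_ (by positivity) |>.2
    rw [mul_pow, hsq]
    linarith
  have h2 : ∀ v, ‖v‖ ≤ Real.sqrt 2 * ‖L v‖ := by
    intro v
    have := hB.G_le hK hx (L v)
    rw [hG] at this
    refine abs_le_of_sq_le_sq' ?_ (by positivity) |>.2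
    rw [mul_pow, hsq]
    linarith
  have hpow : Real.sqrt 2 ^ Module.finrank ℝ (CE ι) = 2 ^ n := by
    rw [rl_finrank_CE, pow_mul, hsq]
  have d1 := rl_abs_det_le L hs2 h1
  have d2 := rl_le_abs_det L hs2 h2
  rw [hpow] at d1 d2
  have hD : 0 < (k Ψ z).det.re := (Complex.pos_iff.1 hpd.det_pos).1
  have hDc : (k Ψ z).det = (((k Ψ z).det.re : ℝ) : ℂ) := by
    apply Complex.ext
    · simp
    · simpa using (Complex.pos_iff.1 hpd.det_pos).2.symm
  have hdetT : ‖T.det‖ ^ 2 * (k Ψ z).det.re = 1 := by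
    have e := congrArg Matrix.det hT
    rw [Matrix.det_mul, Matrix.det_mul, Matrix.det_one, Matrix.det_conjTranspose, hDc] at e
    have e2 : (((‖T.det‖ ^ 2 * (k Ψ z).det.re : ℝ)) : ℂ) = 1 := by
      rw [← e]
      push_cast
      rw [← Complex.conj_mul' T.det, Complex.star_def]
      ring
    exact_mod_cast e2
  have hdetL : L.det = A.det * ‖T.det‖ ^ 2 := by
    have e1 : L.det = A.det * (Bc.restrictScalars ℝ).det := LinearMap.det_comp _ _
    rw [e1, det_restrictScalars_real, rl_det_toEuclideanCLM]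
  have habs : |L.det| * (k Ψ z).det.re = |A.det| := by
    rw [hdetL, abs_mul, abs_of_nonneg (by positivity : (0 : ℝ) ≤ ‖T.det‖ ^ 2), mul_assoc, hdetT,
      mul_one]
  have hLpos : 0 < |L.det| := by
    by_contra hcon
    have h0 : |L.det| = 0 := le_antisymm (not_lt.1 hcon) (abs_nonneg _)
    rw [h0, mul_zero] at d2
    linarith
  rw [← habs]
  have e3 : (k Ψ z).det.re / (|L.det| * (k Ψ z).det.re) = |L.det|⁻¹ := by
    field_simp
  rw [e3]
  constructor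
  · rw [one_div, inv_pow]
    exact inv_anti₀ hLpos d1
  · rw [inv_le_iff_one_le_mul₀ hLpos]
    linarith [mul_comm (2 ^ n : ℝ) |L.det|]

/-- continuity can be checked in the holomorphic parametrisations. -/
theorem GoodBall.continuousOn_of_charts (hB : GoodBall X k S K) {F : Type} [TopologicalSpace F]
    {u : CE ι → F}
    (hu : ∀ (Ψ : CE ι → CE ι) (U : Set (CE ι)), X.IsHol Ψ U → ContinuousOn (u ∘ Ψ) U) :
    ContinuousOn u (Metric.ball 0 1) := by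
  intro x hx
  obtain ⟨Ψ, U, z, hΨ, hz, rfl⟩ := hB.exists_chart (mem_ball_zero_iff.1 hx)
  obtain ⟨ρ, U₁, hU₁, hm₁, -, hρ, hmaps, hr, -, -⟩ := hB.exists_local_inverse hΨ hz
  have h1 : ContinuousOn ((u ∘ Ψ) ∘ ρ) U₁ := (hu Ψ U hΨ).comp hρ.continuousOn hmaps
  have h2 : ContinuousAt ((u ∘ Ψ) ∘ ρ) (Ψ z) := h1.continuousAt (hU₁.mem_nhds hm₁)
  have h3 : u =ᶠ[𝓝 (Ψ z)] (u ∘ Ψ) ∘ ρ := by
    filter_upwards [hU₁.mem_nhds hm₁] with w hw
    simp only [Function.comp_apply, hr w hw]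
  exact (h2.congr h3.symm).continuousWithinAt

theorem GoodBall.det_fderiv_ne_zero (hB : GoodBall X k S K) (hΨ : X.IsHol Ψ U) (hz : z ∈ U) :
    (fderiv ℝ Ψ z).det ≠ 0 := by
  obtain ⟨A, hA⟩ := (hB.isom Ψ U hΨ).inv z hz
  rw [← hA]
  exact (LinearEquiv.isUnit_det' A.toLinearEquiv).ne_zero

theorem GoodBall.continuousOn_ucDens (hB : GoodBall X k S K) :
    ContinuousOn (ucDens X k) (Metric.ball 0 1) := by
  refine hB.continuousOn_of_charts fun Ψ U hΨ => ?_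
  have hU := (X.isParam hΨ).isOpen
  have h1 : ContinuousOn (fun z => (k Ψ z).det.re / |(fderiv ℝ Ψ z).det|) U := by
    refine ContinuousOn.div ?_ ?_ fun z hz => abs_ne_zero.2 (hB.det_fderiv_ne_zero hΨ hz)
    · exact (contDiffOn_det_re (fun a b => hB.kahler.smooth hΨ a b)).continuousOn
    · refine ContinuousOn.abs ?_
      exact ContinuousLinearMap.continuous_det.comp_continuousOn
        ((X.isParam hΨ).smooth.fderiv_of_isOpen hU (m := ∞) (by simp)).continuousOn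
  exact h1.congr fun z hz => GoodBall.ucDens_param hB hΨ hz

/-- **the volume measure in the real chart.** -/
theorem GoodBall.hvol_eq (hB : GoodBall X k S K) :
    hvol X k = (volume.restrict (Metric.ball (0 : CE ι) 1)).withDensity
      (fun x => ENNReal.ofReal (ucDens X k x)) := by
  symm
  apply IsVol.eq_hvol
  refine ⟨?_, ?_⟩
  · rw [hB.carrier_eq, withDensity_apply _ measurableSet_ball.compl,
      Measure.restrict_restrict measurableSet_ball.compl, Set.compl_inter_self,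
      Measure.restrict_empty, lintegral_zero_measure]
  · intro Ψ U hΨ A hAU hA
    have hP := X.isParam hΨ
    have hd : ∀ z ∈ A, HasFDerivWithinAt Ψ (fderiv ℝ Ψ z) A z := fun z hz =>
      (hB.param_differentiableAt hΨ (hAU hz)).hasFDerivAt.hasFDerivWithinAt
    have hinj : Set.InjOn Ψ A := hP.injOn.mono hAU
    have hm : MeasurableSet (Ψ '' A) := measurable_image_of_fderivWithin hA hd hinj
    have hsub : Ψ '' A ⊆ Metric.ball 0 1 := by
      rintro _ ⟨z, hz, rfl⟩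
      exact hB.param_mapsTo hΨ (hAU hz)
    rw [withDensity_apply _ hm, Measure.restrict_restrict hm, Set.inter_eq_left.2 hsub,
      lintegral_image_eq_lintegral_abs_det_fderiv_mul volume hA hd hinj]
    refine setLIntegral_congr_fun hA (fun z hz => ?_)
    rw [hB.ucDens_param hΨ (hAU hz), ← ENNReal.ofReal_mul (abs_nonneg _)]
    congr 1
    have hdet : |(fderiv ℝ Ψ z).det| ≠ 0 := abs_ne_zero.2 (hB.det_fderiv_ne_zero hΨ (hAU hz))
    field_simp

theorem GoodBall.ucDens_pos (hB : GoodBall X k S K) (hK : K ≤ 1) (hx : ‖x‖ < 1) :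
    0 < ucDens X k x :=
  lt_of_lt_of_le (by positivity) (hB.ucDens_bounds hK hx).1

theorem GoodBall.aemeasurable_ucDens (hB : GoodBall X k S K) :
    AEMeasurable (fun x => ENNReal.ofReal (ucDens X k x))
      (volume.restrict (Metric.ball (0 : CE ι) 1)) :=
  (hB.continuousOn_ucDens.aemeasurable measurableSet_ball).ennreal_ofReal

theorem GoodBall.ae_toReal_ucDens (hB : GoodBall X k S K) (hK : K ≤ 1) :
    ∀ᵐ x ∂(volume.restrict (Metric.ball (0 : CE ι) 1)),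
      (ENNReal.ofReal (ucDens X k x)).toReal = ucDens X k x := by
  filter_upwards [ae_restrict_mem measurableSet_ball] with x hx
  exact ENNReal.toReal_ofReal (hB.ucDens_pos hK (mem_ball_zero_iff.1 hx)).le

theorem GoodBall.integral_hvol_eq (hB : GoodBall X k S K) (hK : K ≤ 1) (f : CE ι → ℝ) :
    ∫ x, f x ∂(hvol X k) = ∫ x in Metric.ball (0 : CE ι) 1, f x * ucDens X k x := by
  rw [hB.hvol_eq, integral_withDensity_eq_integral_toReal_smul₀ hB.aemeasurable_ucDens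
    (Filter.Eventually.of_forall fun _ => ENNReal.ofReal_lt_top)]
  refine integral_congr_ae ?_
  filter_upwards [hB.ae_toReal_ucDens hK] with x hx
  rw [hx, smul_eq_mul, mul_comm]

theorem GoodBall.integrable_hvol_iff (hB : GoodBall X k S K) (hK : K ≤ 1) (f : CE ι → ℝ) :
    Integrable f (hvol X k) ↔ IntegrableOn f (Metric.ball (0 : CE ι) 1) := by
  rw [hB.hvol_eq, integrable_withDensity_iff_integrable_smul₀' hB.aemeasurable_ucDens
    (Filter.Eventually.of_forall fun _ => ENNReal.ofReal_lt_top)]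
  have hm : AEStronglyMeasurable (ucDens X k) (volume.restrict (Metric.ball (0 : CE ι) 1)) :=
    hB.continuousOn_ucDens.aestronglyMeasurable measurableSet_ball
  have hmi : AEStronglyMeasurable (fun x => (ucDens X k x)⁻¹)
      (volume.restrict (Metric.ball (0 : CE ι) 1)) := hm.aemeasurable.inv.aestronglyMeasurable
  have hmem := ae_restrict_mem (μ := (volume : Measure (CE ι)))
    (measurableSet_ball (x := (0 : CE ι)) (ε := 1))
  constructor
  · intro h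
    have h1 := h.bdd_mul (c := 2 ^ Fintype.card ι) hmi (by
      filter_upwards [hmem] with x hx
      have hx' := mem_ball_zero_iff.1 hx
      have hp := hB.ucDens_pos hK hx'
      rw [Real.norm_eq_abs, abs_of_pos (inv_pos.2 hp), inv_le_comm₀ hp (by positivity), ← inv_pow]
      simpa using (hB.ucDens_bounds hK hx').1)
    refine h1.congr ?_
    filter_upwards [hmem, hB.ae_toReal_ucDens hK] with x hx hx2
    have hp := hB.ucDens_pos hK (mem_ball_zero_iff.1 hx)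
    rw [hx2, smul_eq_mul, ← mul_assoc, inv_mul_cancel₀ hp.ne', one_mul]
  · intro h
    have h1 := Integrable.bdd_mul (c := 2 ^ Fintype.card ι) h hm (by
      filter_upwards [hmem] with x hx
      have hx' := mem_ball_zero_iff.1 hx
      rw [Real.norm_eq_abs, abs_of_pos (hB.ucDens_pos hK hx')]
      exact (hB.ucDens_bounds hK hx').2)
    refine h1.congr ?_
    filter_upwards [hB.ae_toReal_ucDens hK] with x hx2
    rw [hx2, smul_eq_mul]

/-- comparison of integrals of nonnegative functions. -/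
theorem GoodBall.setIntegral_le_integral_hvol (hB : GoodBall X k S K) (hK : K ≤ 1) {f : CE ι → ℝ}
    (hf : Integrable f (hvol X k)) (h0 : ∀ x, ‖x‖ < 1 → 0 ≤ f x) :
    ∫ x in Metric.ball (0 : CE ι) 1, f x ≤ 2 ^ Fintype.card ι * ∫ x, f x ∂(hvol X k) := by
  have hf1 : IntegrableOn f (Metric.ball (0 : CE ι) 1) := (hB.integrable_hvol_iff hK f).1 hf
  have hm : AEStronglyMeasurable (ucDens X k) (volume.restrict (Metric.ball (0 : CE ι) 1)) :=
    hB.continuousOn_ucDens.aestronglyMeasurable measurableSet_ball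
  have hmem := ae_restrict_mem (μ := (volume : Measure (CE ι)))
    (measurableSet_ball (x := (0 : CE ι)) (ε := 1))
  have hf2 : IntegrableOn (fun x => f x * ucDens X k x) (Metric.ball (0 : CE ι) 1) :=
    Integrable.mul_bdd (c := 2 ^ Fintype.card ι) hf1 hm (by
      filter_upwards [hmem] with x hx
      have hx' := mem_ball_zero_iff.1 hx
      rw [Real.norm_eq_abs, abs_of_pos (hB.ucDens_pos hK hx')]
      exact (hB.ucDens_bounds hK hx').2)
  rw [hB.integral_hvol_eq hK, ← integral_const_mul]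
  refine integral_mono_ae hf1 (hf2.const_mul _) ?_
  filter_upwards [hmem] with x hx
  have hx' := mem_ball_zero_iff.1 hx
  have h1 := (hB.ucDens_bounds hK hx').1
  have h2 : (1 : ℝ) ≤ 2 ^ Fintype.card ι * ucDens X k x := by
    calc (1 : ℝ) = 2 ^ Fintype.card ι * (1 / 2 : ℝ) ^ Fintype.card ι := by
          rw [← mul_pow]; norm_num
      _ ≤ _ := mul_le_mul_of_nonneg_left h1 (by positivity)
  show f x ≤ 2 ^ Fintype.card ι * (f x * ucDens X k x)
  nlinarith [h0 x hx']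

theorem GoodBall.integral_hvol_le_setIntegral (hB : GoodBall X k S K) (hK : K ≤ 1) {f : CE ι → ℝ}
    (hf : Integrable f (hvol X k)) (h0 : ∀ x, ‖x‖ < 1 → 0 ≤ f x) :
    ∫ x, f x ∂(hvol X k) ≤ 2 ^ Fintype.card ι * ∫ x in Metric.ball (0 : CE ι) 1, f x := by
  have hf1 : IntegrableOn f (Metric.ball (0 : CE ι) 1) := (hB.integrable_hvol_iff hK f).1 hf
  have hm : AEStronglyMeasurable (ucDens X k) (volume.restrict (Metric.ball (0 : CE ι) 1)) :=
    hB.continuousOn_ucDens.aestronglyMeasurable measurableSet_ball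
  have hmem := ae_restrict_mem (μ := (volume : Measure (CE ι)))
    (measurableSet_ball (x := (0 : CE ι)) (ε := 1))
  have hf2 : IntegrableOn (fun x => f x * ucDens X k x) (Metric.ball (0 : CE ι) 1) :=
    Integrable.mul_bdd (c := 2 ^ Fintype.card ι) hf1 hm (by
      filter_upwards [hmem] with x hx
      have hx' := mem_ball_zero_iff.1 hx
      rw [Real.norm_eq_abs, abs_of_pos (hB.ucDens_pos hK hx')]
      exact (hB.ucDens_bounds hK hx').2)
  rw [hB.integral_hvol_eq hK, ← integral_const_mul]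
  refine integral_mono_ae hf2 (hf1.const_mul _) ?_
  filter_upwards [hmem] with x hx
  have hx' := mem_ball_zero_iff.1 hx
  have h1 := (hB.ucDens_bounds hK hx').2
  show f x * ucDens X k x ≤ 2 ^ Fintype.card ι * f x
  nlinarith [h0 x hx']

end density

section coef

theorem GoodBall.isInvertible_G (hB : GoodBall X k S K) (hx : ‖x‖ < 1) : (S.G x).IsInvertible :=
  hB.radial.riem.isInvertible_G (hB.mem_U_iff.2 hx)

theorem GoodBall.G_inverse_spec (hB : GoodBall X k S K) (hx : ‖x‖ < 1) (ξ : CE ι →L[ℝ] ℝ)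
    (b : CE ι) : S.G x ((S.G x).inverse ξ) b = ξ b := by
  have h1 := ((hB.isInvertible_G hx).inverse_apply_eq (x := (S.G x).inverse ξ) (y := ξ)).1 rfl
  rw [← h1]

/-- the dual pairing of two gradients through their Riesz vectors. -/
theorem dualIP_grad10_of_riesz {A : Matrix ι ι ℂ} (hA : A.PosDef) {u w : CE ι → ℝ}
    (hu : DifferentiableAt ℝ u z) (hw : DifferentiableAt ℝ w z) {Tu Tw : CE ι}
    (hTu : ∀ b, fderiv ℝ u z b = reForm A Tu b) (hTw : ∀ b, fderiv ℝ w z b = reForm A Tw b) :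
    dualIP A (grad10 u z) (grad10 w z) = reForm A Tw Tu / 4 := by
  have hgu : grad10 u z = (1 / 2 : ℂ) • (Matrix.vecMul (star (Tu : ι → ℂ)) A) := by
    funext j; rw [kb_grad10_of_riesz hu hTu j]; rfl
  have hgw : grad10 w z = (1 / 2 : ℂ) • (Matrix.vecMul (star (Tw : ι → ℂ)) A) := by
    funext j; rw [kb_grad10_of_riesz hw hTw j]; rfl
  have h1 : star (Matrix.vecMul (star (Tu : ι → ℂ)) A) = A.mulVec (Tu : ι → ℂ) := by
    rw [Matrix.star_vecMul, star_star, hA.isHermitian.eq]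
  have h2 : A⁻¹.transpose.mulVec (Matrix.vecMul (star (Tw : ι → ℂ)) A) = star (Tw : ι → ℂ) := by
    rw [Matrix.mulVec_transpose, Matrix.vecMul_vecMul,
      Matrix.mul_nonsing_inv _ (isUnit_iff_ne_zero.2 hA.det_pos.ne'), Matrix.vecMul_one]
  unfold dualIP reForm
  rw [hgu, hgw, star_smul, Matrix.mulVec_smul, smul_dotProduct, dotProduct_smul, h1, h2,
    dotProduct_comm]
  simp only [smul_eq_mul]
  have : (star (1 / 2 : ℂ)) = 1 / 2 := by simp
  rw [this, ← mul_assoc]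
  have h3 : ((1 / 2 : ℂ) * (1 / 2)) = ((1 / 4 : ℝ) : ℂ) := by push_cast; norm_num
  rw [h3, Complex.re_ofReal_mul]
  ring

/-- `⟨∂u,∂w⟩_k · dens = du (A dw)`. -/
theorem GoodBall.gradInner_mul_dens (hB : GoodBall X k S K) (hx : ‖x‖ < 1) {u w : CE ι → ℝ}
    (hu : DifferentiableAt ℝ u x) (hw : DifferentiableAt ℝ w x) :
    gradInner X k u w x * ucDens X k x = fderiv ℝ u x (ucA X k S x (fderiv ℝ w x)) := by
  obtain ⟨Ψ, U, z, hΨ, hz, rfl⟩ := hB.exists_chart hx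
  have hiso := hB.isom Ψ U hΨ
  have hd : DifferentiableAt ℝ Ψ z := (X.isParam hΨ).differentiableAt hz
  -- Riesz vectors in the chart
  have key : ∀ f : CE ι → ℝ, DifferentiableAt ℝ f (Ψ z) → ∃ T : CE ι,
      fderiv ℝ Ψ z T = (S.G (Ψ z)).inverse (fderiv ℝ f (Ψ z)) ∧
      ∀ b, fderiv ℝ (f ∘ Ψ) z b = reForm (k Ψ z) T b := by
    intro f hf
    obtain ⟨T, hT⟩ := hB.surj hΨ hz ((S.G (Ψ z)).inverse (fderiv ℝ f (Ψ z)))
    refine ⟨T, hT, fun b => ?_⟩
    rw [fderiv_comp z hf hd, ContinuousLinearMap.comp_apply,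
      ← GoodBall.G_inverse_spec hB hx (fderiv ℝ f (Ψ z)), ← hT]
    exact (hiso.isom z hz T b).symm
  obtain ⟨Tu, hTu, hu'⟩ := key u hu
  obtain ⟨Tw, hTw, hw'⟩ := key w hw
  rw [gradInner_eq hB.kahler.toIsMetric u w hΨ hz,
    dualIP_grad10_of_riesz (hB.kahler.posDef hΨ z hz) (hu.comp z hd) (hw.comp z hd) hu' hw']
  have h1 : reForm (k Ψ z) Tw Tu = fderiv ℝ u (Ψ z) ((S.G (Ψ z)).inverse (fderiv ℝ w (Ψ z))) := by
    have := hiso.isom z hz Tw Tu
    rw [kgeo_G_apply] at this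
    rw [this, hTw, hTu, hB.radial.riem.G_symm _ (hB.mem_U_iff.2 hx),
      GoodBall.G_inverse_spec hB hx]
  rw [h1]
  unfold ucA
  simp only [smul_apply, map_smul, smul_eq_mul]
  ring

/-- `‖ξ‖² ≤ 2 ξ(♯ξ)`. -/
theorem GoodBall.norm_sq_le_sharp (hB : GoodBall X k S K) (hK : K ≤ 1) (hx : ‖x‖ < 1)
    (ξ : CE ι →L[ℝ] ℝ) : ‖ξ‖ ^ 2 ≤ 2 * ξ ((S.G x).inverse ξ) := by
  have hxU := hB.mem_U_iff.2 hx
  have hR := hB.radial.riem
  set s := (S.G x).inverse ξ with hs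
  have hss : ξ s = S.G x s s := (GoodBall.G_inverse_spec hB hx ξ s).symm
  have h0 : 0 ≤ S.G x s s := hR.G_self_nonneg hxU s
  have h1 : ‖ξ‖ ≤ Real.sqrt 2 * S.nrm x s := by
    refine ξ.opNorm_le_bound (mul_nonneg (Real.sqrt_nonneg _) (Real.sqrt_nonneg _)) fun b => ?_
    rw [← GoodBall.G_inverse_spec hB hx ξ b, Real.norm_eq_abs]
    refine (hR.abs_G_le hxU s b).trans ?_
    have h2 : S.nrm x b ≤ Real.sqrt 2 * ‖b‖ := by
      unfold RGeo.nrm
      rw [← Real.sqrt_sq (norm_nonneg b), ← Real.sqrt_mul (by norm_num)]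
      exact Real.sqrt_le_sqrt (hB.G_le hK hx b)
    calc S.nrm x s * S.nrm x b ≤ S.nrm x s * (Real.sqrt 2 * ‖b‖) :=
          mul_le_mul_of_nonneg_left h2 (Real.sqrt_nonneg _)
      _ = Real.sqrt 2 * S.nrm x s * ‖b‖ := by ring
  have h3 : ‖ξ‖ ^ 2 ≤ (Real.sqrt 2 * S.nrm x s) ^ 2 := pow_le_pow_left₀ (norm_nonneg _) h1 2
  rw [mul_pow, Real.sq_sqrt (by norm_num : (0 : ℝ) ≤ 2), hR.nrm_sq hxU] at h3
  rw [hss]
  exact h3

theorem GoodBall.norm_sharp_le (hB : GoodBall X k S K) (hK : K ≤ 1) (hx : ‖x‖ < 1)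
    (ξ : CE ι →L[ℝ] ℝ) : ‖(S.G x).inverse ξ‖ ≤ 2 * ‖ξ‖ := by
  set s := (S.G x).inverse ξ with hs
  have hss : ξ s = S.G x s s := (GoodBall.G_inverse_spec hB hx ξ s).symm
  have h1 := hB.le_G hK hx s
  have h2 : ξ s ≤ ‖ξ‖ * ‖s‖ := (le_abs_self _).trans (ξ.le_opNorm s)
  have h3 : ‖s‖ * ‖s‖ ≤ 2 * ‖ξ‖ * ‖s‖ := by nlinarith
  by_cases h0 : ‖s‖ = 0
  · rw [h0]; positivity
  · exact le_of_mul_le_mul_right h3 (lt_of_le_of_ne (norm_nonneg _) (Ne.symm h0))

theorem GoodBall.ucA_lo (hB : GoodBall X k S K) (hK : K ≤ 1) (hx : ‖x‖ < 1) (ξ : CE ι →L[ℝ] ℝ) :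
    (1 / 2 : ℝ) ^ Fintype.card ι / 8 * ‖ξ‖ ^ 2 ≤ ξ (ucA X k S x ξ) := by
  have h1 := hB.norm_sq_le_sharp hK hx ξ
  have h2 := (hB.ucDens_bounds hK hx).1
  have h3 : (0 : ℝ) < (1 / 2 : ℝ) ^ Fintype.card ι := by positivity
  unfold ucA
  simp only [smul_apply, map_smul, smul_eq_mul]
  have h4 : 0 ≤ ‖ξ‖ ^ 2 := by positivity
  nlinarith

theorem GoodBall.ucA_hi (hB : GoodBall X k S K) (hK : K ≤ 1) (hx : ‖x‖ < 1) (ξ : CE ι →L[ℝ] ℝ) :
    ‖ucA X k S x ξ‖ ≤ 2 ^ Fintype.card ι / 2 * ‖ξ‖ := by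
  have h1 := hB.norm_sharp_le hK hx ξ
  have h2 := hB.ucDens_bounds hK hx
  have h3 : (0 : ℝ) < (1 / 2 : ℝ) ^ Fintype.card ι := by positivity
  have h5 : 0 ≤ ucDens X k x := h3.le.trans h2.1
  unfold ucA
  rw [smul_apply, norm_smul, Real.norm_eq_abs, abs_of_nonneg (by positivity)]
  calc ucDens X k x / 4 * ‖(S.G x).inverse ξ‖ ≤ 2 ^ Fintype.card ι / 4 * (2 * ‖ξ‖) := by
        apply mul_le_mul _ h1 (norm_nonneg _) (by positivity)
        linarith [h2.2]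
    _ = 2 ^ Fintype.card ι / 2 * ‖ξ‖ := by ring

theorem GoodBall.continuousOn_ucA (hB : GoodBall X k S K) :
    ContinuousOn (ucA X k S) (Metric.ball 0 1) := by
  unfold ucA
  refine (hB.continuousOn_ucDens.div_const 4).smul ?_
  intro x hx
  have hx' : ‖x‖ < 1 := mem_ball_zero_iff.1 hx
  have h1 : ContinuousAt (ContinuousLinearMap.inverse : (CE ι →L[ℝ] CE ι →L[ℝ] ℝ) → _) (S.G x) :=
    ((hB.isInvertible_G hx').contDiffAt_map_inverse (n := 0)).continuousAt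
  have h2 : ContinuousWithinAt S.G (Metric.ball 0 1) x := by
    have := hB.radial.riem.continuousOn_G
    rw [hB.U_eq] at this
    exact this x hx
  exact h1.comp_continuousWithinAt h2

end coef

section field

variable {Y : (CE ι → CE ι) → CE ι → ι → ℂ}

theorem GoodBall.ucYr_param (hB : GoodBall X k S K) (hY : IsVField X Y) (hΨ : X.IsHol Ψ U)
    (hz : z ∈ U) : ucYr X Y (Ψ z) = fderiv ℝ Ψ z (WithLp.toLp 2 (Y Ψ z)) := by
  have hx : Ψ z ∈ X.carrier := CMfd.mem_carrier hΨ hz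
  have hP := X.isHol_pΦ hx
  have hz' : z ∈ U ∩ Ψ ⁻¹' (X.pΦ (Ψ z) '' X.pU (Ψ z)) := ⟨hz, X.mem_image_pΦ hx⟩
  have h1 := hY.compat hΨ hP z hz hz'.2
  have h2 := CMfd.fderiv_eq_comp_trans hΨ hP hz' (WithLp.toLp 2 (Y Ψ z))
  rw [h2]
  have h3 : fderiv ℂ (Function.invFunOn (X.pΦ (Ψ z)) (X.pU (Ψ z)) ∘ Ψ) z (WithLp.toLp 2 (Y Ψ z)) =
      WithLp.toLp 2 (Y (X.pΦ (Ψ z)) (X.co (Ψ z))) := by
    ext j
    rw [← jac_mulVec]
    exact (congrFun h1 j).symm
  rw [h3]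
  rfl

theorem GoodBall.G_ucYr (hB : GoodBall X k S K) (hY : IsVField X Y) (hΨ : X.IsHol Ψ U)
    (hz : z ∈ U) : S.G (Ψ z) (ucYr X Y (Ψ z)) (ucYr X Y (Ψ z)) = qf (k Ψ z) (Y Ψ z) := by
  rw [hB.ucYr_param hY hΨ hz, ← hB.qf_eq hΨ hz]

/-- `dφ(Yr) = 2 Re Y(φ)`. -/
theorem GoodBall.fderiv_ucYr (hB : GoodBall X k S K) (hY : IsVField X Y) (hx : ‖x‖ < 1)
    {φ : CE ι → ℝ} (hφ : DifferentiableAt ℝ φ x) :
    fderiv ℝ φ x (ucYr X Y x) = 2 * pairY X Y φ x := by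
  have hxc : x ∈ X.carrier := hB.mem_carrier_iff.2 hx
  have hP := X.isHol_pΦ hxc
  have hz := X.co_mem hxc
  have hxz := X.pΦ_co hxc
  have hd : DifferentiableAt ℝ (X.pΦ x) (X.co x) := (X.isParam hP).differentiableAt hz
  have hφ' : DifferentiableAt ℝ φ (X.pΦ x (X.co x)) := by rw [hxz]; exact hφ
  have h1 : fderiv ℝ (φ ∘ X.pΦ x) (X.co x) =
      (fderiv ℝ φ (X.pΦ x (X.co x))).comp (fderiv ℝ (X.pΦ x) (X.co x)) := fderiv_comp _ hφ' hd
  have h2 := fderiv_real_eq (φ ∘ X.pΦ x) (hφ'.comp _ hd) (WithLp.toLp 2 (Y (X.pΦ x) (X.co x)))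
  rw [h1, hxz] at h2
  refine h2.trans ?_
  congr 2
  exact Finset.sum_congr rfl fun j _ => mul_comm _ _

theorem GoodBall.contDiffOn_ucYr (hB : GoodBall X k S K) (hY : IsVField X Y) :
    ContDiffOn ℝ ∞ (ucYr X Y) (Metric.ball 0 1) := by
  refine hB.contDiffOn_of_charts fun Ψ U hΨ => ?_
  have hU : IsOpen U := (X.isParam hΨ).isOpen
  have h1 : ContDiffOn ℝ ∞ (fderiv ℝ Ψ) U := (X.isParam hΨ).smooth.fderiv_of_isOpen hU (by simp)
  have h2 : ContDiffOn ℝ ∞ (fun z => (WithLp.toLp 2 (Y Ψ z) : CE ι)) U := by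
    rw [contDiffOn_piLp]
    exact fun j => hY.smooth hΨ j
  refine (h1.clm_apply h2).congr fun z hz => ?_
  exact hB.ucYr_param hY hΨ hz

theorem GoodBall.continuousOn_ucYr (hB : GoodBall X k S K) (hY : IsVField X Y) :
    ContinuousOn (ucYr X Y) (Metric.ball 0 1) :=
  (hB.contDiffOn_ucYr hY).continuousOn

end field

section weak

variable {V : Type} [NormedAddCommGroup V] [NormedSpace ℝ V] [FiniteDimensional ℝ V]
  [MeasurableSpace V] [BorelSpace V]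
variable {𝓜 : CMfd V ι} {h : HFam V ι} {Y : (CE ι → V) → CE ι → ι → ℂ} {w φ : V → ℝ}

/-- the pairing `∑ Y^k ∂_k φ` does not depend on the parametrisation (`φ` differentiable at the point). -/
theorem ucw_pairing (hY : IsVField 𝓜 Y) {φ : V → ℝ}
    {Φ Ψ : CE ι → V} {U W : Set (CE ι)} (hΦ : 𝓜.IsHol Φ U) (hΨ : 𝓜.IsHol Ψ W) {z y : CE ι}
    (hz : z ∈ U) (hy : y ∈ W) (hzy : Φ z = Ψ y) (hd : DifferentiableAt ℝ (φ ∘ Ψ) y) :
    ∑ k, Y Φ z k * grad10 (φ ∘ Φ) z k = ∑ k, Y Ψ y k * grad10 (φ ∘ Ψ) y k := by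
  have hz' : z ∈ U ∩ Φ ⁻¹' (Ψ '' W) := ⟨hz, ⟨y, hy, hzy.symm⟩⟩
  have hτ : (Function.invFunOn Ψ W ∘ Φ) z = y := CMfd.trans_eq hΦ hΨ hy hzy
  have h1 : grad10 (φ ∘ Φ) z = (jac (Function.invFunOn Ψ W ∘ Φ) z).transpose.mulVec
      (grad10 (φ ∘ Ψ) ((Function.invFunOn Ψ W ∘ Φ) z)) := by
    rw [grad10_congr (CMfd.eventually_comp_eq φ hΦ hΨ hz')]
    exact grad10_comp_hol' _ _ (CMfd.trans_differentiableAt hΦ hΨ hz') (by rw [hτ]; exact hd)
  have h2 := hY.compat hΦ hΨ z hz hz'.2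
  rw [hτ] at h1
  have hτ' : Function.invFunOn Ψ W (Φ z) = y := hτ
  rw [hτ'] at h2
  rw [h1, h2]
  simp only [Matrix.mulVec, dotProduct, Matrix.transpose_apply, Finset.mul_sum, Finset.sum_mul]
  rw [Finset.sum_comm]
  refine Finset.sum_congr rfl fun a _ => Finset.sum_congr rfl fun b _ => ?_
  ring

/-- the pairing in any parametrisation (`φ` of class `C¹` in parametrisations). -/
theorem pairY_param (hY : IsVField 𝓜 Y)
    (hφ : ∀ (Φ : CE ι → V) (U : Set (CE ι)), 𝓜.IsHol Φ U → ContDiffOn ℝ 1 (φ ∘ Φ) U)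
    {Φ : CE ι → V} {U : Set (CE ι)} (hΦ : 𝓜.IsHol Φ U) {z : CE ι} (hz : z ∈ U) :
    pairY 𝓜 Y φ (Φ z) = pairYF Y φ Φ z := by
  have hx := CMfd.mem_carrier hΦ hz
  have hd : DifferentiableAt ℝ (φ ∘ Φ) z :=
    ((hφ Φ U hΦ).contDiffAt ((CMfd.isOpen_dom hΦ).mem_nhds hz)).differentiableAt one_ne_zero
  show (∑ p, Y (𝓜.pΦ (Φ z)) (𝓜.co (Φ z)) p * grad10 (φ ∘ 𝓜.pΦ (Φ z)) (𝓜.co (Φ z)) p).re
    = (∑ p, Y Φ z p * grad10 (φ ∘ Φ) z p).re
  rw [ucw_pairing hY (𝓜.isHol_pΦ hx) hΦ (𝓜.co_mem hx) hz (𝓜.pΦ_co hx) hd]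


theorem ucw_continuousOn_pairY (hY : IsVField 𝓜 Y)
    (hφ : ∀ (Φ : CE ι → V) (U : Set (CE ι)), 𝓜.IsHol Φ U → ContDiffOn ℝ 1 (φ ∘ Φ) U) :
    ContinuousOn (pairY 𝓜 Y φ) 𝓜.carrier := by
  rw [CMfd.continuousOn_iff]
  intro Ψ W hΨ
  have hW := CMfd.isOpen_dom hΨ
  have h1 : ContinuousOn (fun z => (∑ k, Y Ψ z k * grad10 (φ ∘ Ψ) z k).re) W :=
    Complex.continuous_re.comp_continuousOn (continuousOn_finsetSum _ fun k _ =>
      (hY.smooth hΨ k).continuousOn.mul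
        (ci_continuousOn_dz hW (contDiffOn_ofReal (hφ Ψ W hΨ)) k))
  exact h1.congr fun z hz => pairY_param hY hφ hΨ hz

theorem ucw_pairY_eq_zero {K : Set V} (hK : IsClosed K)
    (h0 : ∀ x ∈ 𝓜.carrier, x ∉ K → φ x = 0) {x : V} (hx : x ∈ 𝓜.carrier) (hxK : x ∉ K) :
    pairY 𝓜 Y φ x = 0 := by
  have h1 : (φ ∘ 𝓜.pΦ x) =ᶠ[𝓝 (𝓜.co x)] fun _ => 0 :=
    CMfd.eventually_eq_zero_of_notMem hK h0 (𝓜.isHol_pΦ hx) (𝓜.co_mem hx)
      (by rw [𝓜.pΦ_co hx]; exact hxK)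
  show (∑ p, Y (𝓜.pΦ x) (𝓜.co x) p * grad10 (φ ∘ 𝓜.pΦ x) (𝓜.co x) p).re = 0
  simp only [grad10_congr h1, grad10_const, Pi.zero_apply, mul_zero, Finset.sum_const_zero,
    Complex.zero_re]

/-- integration by parts in one parametrisation, real form. -/
theorem ucw_ibp (hh : IsMetric 𝓜 h) (hY : IsVField 𝓜 Y)
    {Φ : CE ι → V} {U C : Set (CE ι)} (hΦ : 𝓜.IsHol Φ U) (hC : IsCompact C) (hCU : C ⊆ U)
    (hφ : ContDiffOn ℝ 1 (φ ∘ Φ) U) (hsupp : ∀ z ∈ U, z ∉ C → φ (Φ z) = 0) :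
    IntegrableOn (fun z => φ (Φ z) * (divF h Y Φ z).re * (h Φ z).det.re) U ∧
    ∫ z in U, pairYF Y φ Φ z * (h Φ z).det.re
      = - ∫ z in U, φ (Φ z) * (divF h Y Φ z).re * (h Φ z).det.re := by
  have hU := CMfd.isOpen_dom hΦ
  set F : CE ι → ℂ := fun z => (((φ ∘ Φ) z : ℝ) : ℂ) with hF
  set Yd : ι → CE ι → ℂ := fun k w => (h Φ w).det * Y Φ w k with hYd
  have hFs : ContDiffOn ℝ 1 F U := contDiffOn_ofReal hφ
  have hYs : ∀ k, ContDiffOn ℝ 1 (Yd k) U := fun k =>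
    (hY.contDiffOn_det_mul hh hΦ k).of_le (by norm_num)
  have hF0 : ∀ z ∈ U, z ∉ C → F z = 0 := by
    intro z hz hzC
    simp only [hF, Function.comp_apply, hsupp z hz hzC, Complex.ofReal_zero]
  have i1 : ∀ k, IntegrableOn (fun z => F z * dz k (Yd k) z) U :=
    fun k => integrableOn_of_continuousOn_of_compact hU hC hCU
      (hFs.continuousOn.mul (ci_continuousOn_dz hU (hYs k) k))
      (fun z hz hzC => by rw [hF0 z hz hzC, zero_mul])
  have i2 : ∀ k, IntegrableOn (fun z => dz k F z * Yd k z) U :=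
    fun k => integrableOn_of_continuousOn_of_compact hU hC hCU
      ((ci_continuousOn_dz hU hFs k).mul (hYs k).continuousOn)
      (fun z hz hzC => by rw [ci_dz_zero hU hC hF0 k z hz hzC, zero_mul])
  have I1 : IntegrableOn (fun z => ∑ k, F z * dz k (Yd k) z) U :=
    integrable_finsetSum _ fun k _ => i1 k
  have I2 : IntegrableOn (fun z => ∑ k, dz k F z * Yd k z) U :=
    integrable_finsetSum _ fun k _ => i2 k
  have e0 : ∫ z in U, ∑ k, dz k F z * Yd k z = - ∫ z in U, ∑ k, F z * dz k (Yd k) z := by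
    rw [integral_finsetSum _ fun k _ => i1 k, integral_finsetSum _ fun k _ => i2 k,
      ← Finset.sum_neg_distrib]
    exact Finset.sum_congr rfl fun k _ => setIntegral_dz_mul hU hC hCU hFs (hYs k) hF0 k
  have r1 : ∀ z ∈ U, (∑ k, F z * dz k (Yd k) z).re
      = φ (Φ z) * (divF h Y Φ z).re * (h Φ z).det.re := by
    intro z hz
    have hd : (h Φ z).det ≠ 0 := hh.det_ne_zero hΦ hz
    have e : ∑ k, dz k (Yd k) z = (((h Φ z).det.re : ℝ) : ℂ) * divF h Y Φ z := by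
      rw [ofReal_det_re_of_isHermitian (hh.herm hΦ z hz)]
      simp only [divF]
      rw [mul_inv_cancel_left₀ hd]
    rw [← Finset.mul_sum, e]
    simp only [hF, Function.comp_apply, Complex.re_ofReal_mul]
    ring
  have r2 : ∀ z ∈ U, (∑ k, dz k F z * Yd k z).re = pairYF Y φ Φ z * (h Φ z).det.re := by
    intro z hz
    have e : ∑ k, dz k F z * Yd k z
        = (((h Φ z).det.re : ℝ) : ℂ) * ∑ p, Y Φ z p * grad10 (φ ∘ Φ) z p := by
      rw [ofReal_det_re_of_isHermitian (hh.herm hΦ z hz), Finset.mul_sum]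
      refine Finset.sum_congr rfl fun k _ => ?_
      rw [grad10_apply]
      simp only [hYd, hF]
      ring
    rw [e, Complex.re_ofReal_mul, mul_comm]
    rfl
  refine ⟨?_, ?_⟩
  · have I1r : IntegrableOn (fun z => (∑ k, F z * dz k (Yd k) z).re) U := I1.re
    exact I1r.congr_fun (fun z hz => r1 z hz) hU.measurableSet
  · have a1 : ∫ z in U, pairYF Y φ Φ z * (h Φ z).det.re
        = ∫ z in U, (∑ k, dz k F z * Yd k z).re :=
      setIntegral_congr_fun hU.measurableSet fun z hz => (r2 z hz).symm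
    have a2 : ∫ z in U, φ (Φ z) * (divF h Y Φ z).re * (h Φ z).det.re
        = ∫ z in U, (∑ k, F z * dz k (Yd k) z).re :=
      setIntegral_congr_fun hU.measurableSet fun z hz => (r1 z hz).symm
    have b1 : ∫ z in U, (∑ k, dz k F z * Yd k z).re = (∫ z in U, ∑ k, dz k F z * Yd k z).re :=
      integral_re I2
    have b2 : ∫ z in U, (∑ k, F z * dz k (Yd k) z).re
        = (∫ z in U, ∑ k, F z * dz k (Yd k) z).re := integral_re I1
    rw [a1, a2, b1, b2, e0, Complex.neg_re]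


/-- one piece: `φ` supported in one parametrisation. -/
theorem ucw_piece (hK : IsKahler 𝓜 h) (hw : 𝓜.Smooth w) (hY : IsVField 𝓜 Y) {O : Set V} (c : ℝ)
    (hineq : ∀ (Φ : CE ι → V) (U : Set (CE ι)), 𝓜.IsHol Φ U → ∀ z ∈ U, Φ z ∈ O →
      2 * (divF h Y Φ z).re - c * w (Φ z) ≤ lapP (h Φ z) (w ∘ Φ) z)
    (hφ : ∀ (Φ : CE ι → V) (U : Set (CE ι)), 𝓜.IsHol Φ U → ContDiffOn ℝ 1 (φ ∘ Φ) U)
    {Φ : CE ι → V} {U C : Set (CE ι)} (hΦ : 𝓜.IsHol Φ U) (hC : IsCompact C) (hCU : C ⊆ U)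
    (hsupp : ∀ x ∈ 𝓜.carrier, x ∉ Φ '' C → φ x = 0) (hO : ∀ x ∈ 𝓜.carrier, x ∉ O → φ x = 0)
    (h0 : ∀ x, 0 ≤ φ x) :
    Integrable (fun x => gradInner 𝓜 h φ w x - 2 * pairY 𝓜 Y φ x - c * (φ x * w x)) (hvol 𝓜 h) ∧
    ∫ x, (gradInner 𝓜 h φ w x - 2 * pairY 𝓜 Y φ x - c * (φ x * w x)) ∂(hvol 𝓜 h) ≤ 0 := by
  have hh := hK.toIsMetric
  have hU := CMfd.isOpen_dom hΦ
  have hCc : IsCompact (Φ '' C) :=
    hC.image_of_continuousOn ((𝓜.isParam hΦ).continuousOn.mono hCU)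
  have hCsub : Φ '' C ⊆ 𝓜.carrier := (Set.image_mono hCU).trans (𝓜.isParam hΦ).image_subset
  have hcs : 𝓜.CSupp φ := ⟨_, hCc, hCsub, hsupp⟩
  have hL : 𝓜.LocLip φ := fun Ψ W hΨ =>
    locallyLipschitzOn_of_contDiffOn (CMfd.isOpen_dom hΨ) (hφ Ψ W hΨ)
  have i1 : Integrable (gradInner 𝓜 h φ w) (hvol 𝓜 h) :=
    integrable_gradInner_of_csupp_left hh hL hcs hw.locLip
  have i2 : Integrable (pairY 𝓜 Y φ) (hvol 𝓜 h) :=
    integrable_hvol_of_csupp hh (ucw_continuousOn_pairY hY hφ)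
      ⟨_, hCc, hCsub, fun x hx hxC => ucw_pairY_eq_zero hCc.isClosed hsupp hx hxC⟩
  have i3 : Integrable (fun x => φ x * w x) (hvol 𝓜 h) :=
    integrable_hvol_of_csupp hh (hL.continuousOn.mul hw.continuousOn) (hcs.mul_right w)
  refine ⟨(i1.sub (i2.const_mul 2)).sub (i3.const_mul c), ?_⟩
  have esplit : ∫ x, (gradInner 𝓜 h φ w x - 2 * pairY 𝓜 Y φ x - c * (φ x * w x)) ∂(hvol 𝓜 h)
      = ∫ x, gradInner 𝓜 h φ w x ∂(hvol 𝓜 h) - 2 * ∫ x, pairY 𝓜 Y φ x ∂(hvol 𝓜 h)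
        - c * ∫ x, φ x * w x ∂(hvol 𝓜 h) := by
    have a1 : Integrable (fun x => gradInner 𝓜 h φ w x - 2 * pairY 𝓜 Y φ x) (hvol 𝓜 h) :=
      i1.sub (i2.const_mul 2)
    rw [integral_sub a1 (i3.const_mul c), integral_sub i1 (i2.const_mul 2),
      integral_const_mul, integral_const_mul]
  rw [esplit]
  have g1 := integral_mul_lap hK hL hcs hw
  have hsubs : Φ '' C ⊆ Φ '' U := Set.image_mono hCU
  have hz0 : ∀ z ∈ U, z ∉ C → φ (Φ z) = 0 := CMfd.comp_eq_zero_of_notMem hΦ hsupp hCU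
  have c1 := integral_hvol_of_support_real hh hΦ (fun x => φ x * lap 𝓜 h w x)
    (fun x hx hxU => by rw [hsupp x hx (fun hxC => hxU (hsubs hxC)), zero_mul])
  have c2 := integral_hvol_of_support_real hh hΦ (pairY 𝓜 Y φ)
    (fun x hx hxU => ucw_pairY_eq_zero hCc.isClosed hsupp hx (fun hxC => hxU (hsubs hxC)))
  have c3 := integral_hvol_of_support_real hh hΦ (fun x => φ x * w x)
    (fun x hx hxU => by rw [hsupp x hx (fun hxC => hxU (hsubs hxC)), zero_mul])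
  obtain ⟨j1, hibp⟩ := ucw_ibp hh hY hΦ hC hCU (hφ Φ U hΦ) hz0
  have c2' : ∫ x, pairY 𝓜 Y φ x ∂(hvol 𝓜 h)
      = - ∫ z in U, φ (Φ z) * (divF h Y Φ z).re * (h Φ z).det.re := by
    rw [c2, ← hibp]
    exact setIntegral_congr_fun hU.measurableSet fun z hz => by
      simp only [pairY_param hY hφ hΦ hz]
  have hφc : ContinuousOn (fun z => φ (Φ z)) U := (hφ Φ U hΦ).continuousOn
  have hdc : ContinuousOn (fun z => (h Φ z).det.re) U := hh.toIsHForm.continuousOn_det_re hΦ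
  have hwc : ContinuousOn (fun z => w (Φ z)) U := (hw Φ U hΦ).continuousOn
  have hlc : ContinuousOn (fun z => lap 𝓜 h w (Φ z)) U := (smooth_lap hh hw Φ U hΦ).continuousOn
  have j2 : IntegrableOn (fun z => φ (Φ z) * lap 𝓜 h w (Φ z) * (h Φ z).det.re) U :=
    integrableOn_of_continuousOn_of_compact hU hC hCU ((hφc.mul hlc).mul hdc)
      (fun z hz hzC => by rw [hz0 z hz hzC, zero_mul, zero_mul])
  have j3 : IntegrableOn (fun z => φ (Φ z) * w (Φ z) * (h Φ z).det.re) U :=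
    integrableOn_of_continuousOn_of_compact hU hC hCU ((hφc.mul hwc).mul hdc)
      (fun z hz hzC => by rw [hz0 z hz hzC, zero_mul, zero_mul])
  have hmono : ∫ z in U, (2 * (φ (Φ z) * (divF h Y Φ z).re * (h Φ z).det.re)
        - c * (φ (Φ z) * w (Φ z) * (h Φ z).det.re))
      ≤ ∫ z in U, φ (Φ z) * lap 𝓜 h w (Φ z) * (h Φ z).det.re := by
    refine setIntegral_mono_on ((j1.const_mul 2).sub (j3.const_mul c)) j2 hU.measurableSet ?_
    intro z hz
    have hd : 0 < (h Φ z).det.re := hh.det_re_pos hΦ hz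
    by_cases hzO : Φ z ∈ O
    · have q := hineq Φ U hΦ z hz hzO
      rw [← lap_eq_lapP hh hw hΦ hz] at q
      have := mul_le_mul_of_nonneg_left q (mul_nonneg (h0 (Φ z)) hd.le)
      nlinarith
    · rw [hO _ (CMfd.mem_carrier hΦ hz) hzO]
      simp
  rw [integral_sub (j1.const_mul 2) (j3.const_mul c), integral_const_mul, integral_const_mul]
    at hmono
  rw [← c1, ← c3, g1] at hmono
  rw [c2']
  linarith

/-- **weak form of `Δ w ≥ 2 Re div Y - c w` on `O`.** -/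
theorem uc_weak_sub (hK : IsKahler 𝓜 h) (hw : 𝓜.Smooth w) (hY : IsVField 𝓜 Y) {O : Set V}
    (hO : IsOpen O) (c : ℝ)
    (hineq : ∀ (Φ : CE ι → V) (U : Set (CE ι)), 𝓜.IsHol Φ U → ∀ z ∈ U, Φ z ∈ O →
      2 * (divF h Y Φ z).re - c * w (Φ z) ≤ lapP (h Φ z) (w ∘ Φ) z)
    (hφ : ∀ (Φ : CE ι → V) (U : Set (CE ι)), 𝓜.IsHol Φ U → ContDiffOn ℝ 1 (φ ∘ Φ) U)
    {K₀ : Set V} (hK₀ : IsCompact K₀) (hK₀M : K₀ ⊆ 𝓜.carrier ∩ O)
    (hsupp : ∀ x ∈ 𝓜.carrier, x ∉ K₀ → φ x = 0) (h0 : ∀ x, 0 ≤ φ x) :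
    Integrable (fun x => gradInner 𝓜 h φ w x - 2 * pairY 𝓜 Y φ x - c * (φ x * w x)) (hvol 𝓜 h) ∧
    ∫ x, (gradInner 𝓜 h φ w x - 2 * pairY 𝓜 Y φ x - c * (φ x * w x)) ∂(hvol 𝓜 h) ≤ 0 := by
  have hh := hK.toIsMetric
  have hcs : 𝓜.CSupp φ := ⟨K₀, hK₀, hK₀M.trans Set.inter_subset_left, hsupp⟩
  obtain ⟨m, χ, Φ, r, hχ, hχ01, hr, hΦ, hχ0, hsum⟩ := hcs.exists_decomp
  have hcb : ∀ i, Metric.closedBall (0 : CE ι) (r i) ⊆ Metric.ball 0 (2 * r i) :=
    fun i => Metric.closedBall_subset_ball (by linarith [hr i])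
  have hχs : ∀ i, 𝓜.Smooth (χ i) := fun i => CMfd.smooth_of_contDiff (hχ i)
  set ψ : Fin m → V → ℝ := fun i x => χ i x * φ x with hψ
  have hψ1 : ∀ i (Ψ : CE ι → V) (W : Set (CE ι)), 𝓜.IsHol Ψ W → ContDiffOn ℝ 1 (ψ i ∘ Ψ) W :=
    fun i Ψ W hΨ => ((hχs i Ψ W hΨ).of_le (by norm_num)).mul (hφ Ψ W hΨ)
  have hpiece := fun i => ucw_piece (φ := ψ i) hK hw hY (O := O) c hineq (hψ1 i) (hΦ i)
    (isCompact_closedBall 0 (r i)) (hcb i)
    (fun y hy hyn => by simp only [hψ, hχ0 i y hy hyn, zero_mul])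
    (fun y hy hyO => by
      simp only [hψ, hsupp y hy (fun hyK => hyO (hK₀M hyK).2), mul_zero])
    (fun y => mul_nonneg (hχ01 i y).1 (h0 y))
  have hd : ∀ i, ∀ x ∈ 𝓜.carrier, 𝓜.DiffAt (ψ i) x := fun i x hx =>
    ((hψ1 i _ _ (𝓜.isHol_pΦ hx)).contDiffAt
      ((CMfd.isOpen_dom (𝓜.isHol_pΦ hx)).mem_nhds (𝓜.co_mem hx))).differentiableAt one_ne_zero
  have key : ∀ x ∈ 𝓜.carrier,
      gradInner 𝓜 h φ w x - 2 * pairY 𝓜 Y φ x - c * (φ x * w x)
        = ∑ i, (gradInner 𝓜 h (ψ i) w x - 2 * pairY 𝓜 Y (ψ i) x - c * (ψ i x * w x)) := by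
    intro x hx
    have e1 : gradInner 𝓜 h φ w x = ∑ i, gradInner 𝓜 h (ψ i) w x := by
      rw [← gradInner_sum_left h Finset.univ (fun i _ => hd i x hx) w]
      exact gradInner_congr_left h hx (eventually_nhdsWithin_of_forall hsum)
    have e2 : pairY 𝓜 Y φ x = ∑ i, pairY 𝓜 Y (ψ i) x := by
      have hp := 𝓜.isHol_pΦ hx
      have hco := 𝓜.co_mem hx
      have hev : (φ ∘ 𝓜.pΦ x) =ᶠ[𝓝 (𝓜.co x)] fun z => ∑ i, (ψ i ∘ 𝓜.pΦ x) z := by
        filter_upwards [(CMfd.isOpen_dom hp).mem_nhds hco] with z hz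
        exact hsum _ (CMfd.mem_carrier hp hz)
      have hg : grad10 (φ ∘ 𝓜.pΦ x) (𝓜.co x) = ∑ i, grad10 (ψ i ∘ 𝓜.pΦ x) (𝓜.co x) := by
        rw [grad10_congr hev, grad10_sum Finset.univ (fun i => ψ i ∘ 𝓜.pΦ x)
          (fun i _ => hd i x hx)]
      show (∑ p, Y (𝓜.pΦ x) (𝓜.co x) p * grad10 (φ ∘ 𝓜.pΦ x) (𝓜.co x) p).re
        = ∑ i, (∑ p, Y (𝓜.pΦ x) (𝓜.co x) p * grad10 (ψ i ∘ 𝓜.pΦ x) (𝓜.co x) p).re
      rw [hg, ← Complex.re_sum, Finset.sum_comm]
      congr 1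
      refine Finset.sum_congr rfl fun p _ => ?_
      rw [Finset.sum_apply, Finset.mul_sum]
    have e3 : φ x = ∑ i, ψ i x := hsum x hx
    rw [e1, e2, Finset.sum_sub_distrib, Finset.sum_sub_distrib, ← Finset.mul_sum,
      ← Finset.mul_sum, ← Finset.sum_mul, ← e3]
  have hI : Integrable (fun x => ∑ i, (gradInner 𝓜 h (ψ i) w x - 2 * pairY 𝓜 Y (ψ i) x
      - c * (ψ i x * w x))) (hvol 𝓜 h) := integrable_finsetSum _ fun i _ => (hpiece i).1
  refine ⟨(integrable_hvol_congr key).2 hI, ?_⟩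
  rw [integral_hvol_congr key, integral_finsetSum _ fun i _ => (hpiece i).1]
  exact Finset.sum_nonpos fun i _ => (hpiece i).2

end weak

section moser

open Claimed.Agent.Lib.Dgnm

theorem uc_finrank (ι : Type) [Fintype ι] : Module.finrank ℝ (CE ι) = 2 * Fintype.card ι := by
  rw [← Module.finrank_mul_finrank ℝ ℂ (CE ι), Complex.finrank_real_complex, finrank_euclideanSpace]

/-- the coefficients of the weak inequality in the real chart. -/
noncomputable def ucECoef (X : CMfd (CE ι) ι) (k : HFam (CE ι) ι) (S : RGeo (CE ι))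
    (Y : (CE ι → CE ι) → CE ι → ι → ℂ) (w : CE ι → ℝ) (c2 : ℝ) : dg_ECoef (CE ι) where
  a := ucA X k S
  f := fun x => (-(ucDens X k x / w x)) • ucYr X Y x
  b := fun _ => 0
  c := fun x => c2 * ucDens X k x
  F := fun _ => 0
  g := fun _ => 0

theorem GoodBall.norm_ucYr_le (hB : GoodBall X k S K) (hK : K ≤ 1)
    {Y : (CE ι → CE ι) → CE ι → ι → ℂ} (hY : IsVField X Y) (hx : ‖x‖ < 1) {M : ℝ} (hM : 0 ≤ M)
    (hb : ∀ (Ψ : CE ι → CE ι) (U : Set (CE ι)), X.IsHol Ψ U → ∀ z ∈ U, Ψ z = x →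
      qf (k Ψ z) (Y Ψ z) ≤ M ^ 2) : ‖ucYr X Y x‖ ≤ Real.sqrt 2 * M := by
  obtain ⟨Ψ, U, z, hΨ, hz, rfl⟩ := hB.exists_chart hx
  have h1 := hB.le_G hK hx (ucYr X Y (Ψ z))
  rw [hB.G_ucYr hY hΨ hz] at h1
  have h2 := hb Ψ U hΨ z hz rfl
  have h3 : ‖ucYr X Y (Ψ z)‖ ^ 2 ≤ (Real.sqrt 2 * M) ^ 2 := by
    rw [mul_pow, Real.sq_sqrt (by norm_num : (0 : ℝ) ≤ 2)]
    linarith
  exact abs_le_of_sq_le_sq' h3 (by positivity) |>.2

theorem GoodBall.ucECoef_ok (hB : GoodBall X k S K) (hK : K ≤ 1) {c1 c2 R' : ℝ} (hc1 : 0 ≤ c1)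
    (hc2 : 0 ≤ c2) (hR' : R' ≤ 1) {w : CE ι → ℝ} {Y : (CE ι → CE ι) → CE ι → ι → ℂ}
    (hw : X.Smooth w) (hY : IsVField X Y) (hpos : ∀ x ∈ Metric.ball (0 : CE ι) R', 0 < w x)
    (hYb : ∀ (Ψ : CE ι → CE ι) (U : Set (CE ι)), X.IsHol Ψ U → ∀ z ∈ U,
      Ψ z ∈ Metric.ball (0 : CE ι) R' → qf (k Ψ z) (Y Ψ z) ≤ c1 ^ 2 * w (Ψ z) ^ 2) :
    (ucECoef X k S Y w c2).Ok (Metric.ball 0 R') ((1 / 2 : ℝ) ^ Fintype.card ι / 8)
      (max (2 ^ Fintype.card ι / 2)
        (max (2 ^ Fintype.card ι * (Real.sqrt 2 * c1)) (2 ^ Fintype.card ι * c2))) 0 0 := by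
  have hsub : Metric.ball (0 : CE ι) R' ⊆ Metric.ball 0 1 := Metric.ball_subset_ball hR'
  have hlt : ∀ x ∈ Metric.ball (0 : CE ι) R', ‖x‖ < 1 := fun x hx => by
    simpa using hsub hx
  have hwc : ContinuousOn w (Metric.ball 0 R') := ((hB.smooth_iff.1 hw).continuousOn).mono hsub
  have hdc : ContinuousOn (ucDens X k) (Metric.ball 0 R') := hB.continuousOn_ucDens.mono hsub
  have hms : MeasurableSet (Metric.ball (0 : CE ι) R') := measurableSet_ball
  refine ⟨(hB.continuousOn_ucA.mono hsub).aestronglyMeasurable hms, ?_,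
    aestronglyMeasurable_const, (continuousOn_const.mul hdc).aestronglyMeasurable hms,
    aestronglyMeasurable_const, aestronglyMeasurable_const, ?_, ?_, ?_, ?_, ?_, ?_, ?_⟩
  · refine ContinuousOn.aestronglyMeasurable ?_ hms
    exact ((hdc.div hwc fun x hx => (hpos x hx).ne').neg).smul
      ((hB.continuousOn_ucYr hY).mono hsub)
  · intro x hx ξ
    exact hB.ucA_lo hK (hlt x hx) ξ
  · intro x hx ξ
    exact (hB.ucA_hi hK (hlt x hx) ξ).trans
      (mul_le_mul_of_nonneg_right (le_max_left _ _) (norm_nonneg _))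
  · intro x hx
    have hwx := hpos x hx
    have hd := hB.ucDens_bounds hK (hlt x hx)
    have hd0 : 0 ≤ ucDens X k x := le_trans (by positivity) hd.1
    have h1 : ‖ucYr X Y x‖ ≤ Real.sqrt 2 * (c1 * w x) :=
      hB.norm_ucYr_le hK hY (hlt x hx) (mul_nonneg hc1 hwx.le) (by
        rintro Ψ U hΨ z hz rfl
        rw [mul_pow]
        exact hYb Ψ U hΨ z hz hx)
    show ‖(-(ucDens X k x / w x)) • ucYr X Y x‖ ≤ _
    rw [norm_smul, norm_neg, Real.norm_eq_abs, abs_of_nonneg (div_nonneg hd0 hwx.le)]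
    refine le_trans ?_ ((le_max_left _ _).trans (le_max_right _ _))
    calc ucDens X k x / w x * ‖ucYr X Y x‖
        ≤ ucDens X k x / w x * (Real.sqrt 2 * (c1 * w x)) :=
          mul_le_mul_of_nonneg_left h1 (div_nonneg hd0 hwx.le)
      _ = ucDens X k x * (Real.sqrt 2 * c1) := by field_simp
      _ ≤ 2 ^ Fintype.card ι * (Real.sqrt 2 * c1) :=
          mul_le_mul_of_nonneg_right hd.2 (by positivity)
  · intro x _
    show ‖(0 : CE ι)‖ ≤ _
    rw [norm_zero]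
    exact le_trans (by positivity) (le_max_left _ _)
  · intro x hx
    have hd := hB.ucDens_bounds hK (hlt x hx)
    have hd0 : 0 ≤ ucDens X k x := le_trans (by positivity) hd.1
    show |c2 * ucDens X k x| ≤ _
    rw [abs_of_nonneg (mul_nonneg hc2 hd0)]
    refine le_trans ?_ ((le_max_right _ _).trans (le_max_right _ _))
    rw [mul_comm]
    exact mul_le_mul_of_nonneg_right hd.2 hc2
  · intro x _
    show ‖(0 : CE ι)‖ ≤ 0
    rw [norm_zero]
  · intro x _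
    show |(0 : ℝ)| ≤ 0
    rw [abs_zero]

theorem GoodBall.ucECoef_sub (hB : GoodBall X k S K) (hK : K ≤ 1) {c2 R' : ℝ} (hR' : R' ≤ 1)
    {w : CE ι → ℝ} {Y : (CE ι → CE ι) → CE ι → ι → ℂ}
    (hw : X.Smooth w) (hY : IsVField X Y) (hpos : ∀ x ∈ Metric.ball (0 : CE ι) R', 0 < w x)
    (hineq : ∀ (Ψ : CE ι → CE ι) (U : Set (CE ι)), X.IsHol Ψ U → ∀ z ∈ U,
      Ψ z ∈ Metric.ball (0 : CE ι) R' →
      2 * (divF k Y Ψ z).re - c2 * w (Ψ z) ≤ lapP (k Ψ z) (w ∘ Ψ) z) :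
    dg_ESub (ucECoef X k S Y w c2) (Metric.ball 0 R') w := by
  intro φ hφ h0
  have hsub : Metric.ball (0 : CE ι) R' ⊆ Metric.ball 0 1 := Metric.ball_subset_ball hR'
  have hW := uc_weak_sub (𝓜 := X) (h := k) (Y := Y) (w := w) (φ := φ) hB.kahler hw hY
    (O := Metric.ball 0 R') Metric.isOpen_ball c2 hineq
    (fun Φ U hΦ => hφ.smooth.comp_contDiffOn
      ((X.isParam hΦ).smooth.of_le (by exact_mod_cast le_top)))
    (K₀ := tsupport φ) hφ.cpt
    (fun x hx => ⟨by rw [hB.carrier_eq]; exact hsub (hφ.supp hx), hφ.supp hx⟩)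
    (fun x _ hx => image_eq_zero_of_notMem_tsupport hx) h0
  rw [hB.integral_hvol_eq hK] at hW
  refine le_trans (le_of_eq ?_) hW.2
  rw [← setIntegral_eq_integral_of_forall_compl_eq_zero (s := Metric.ball (0 : CE ι) 1)]
  · refine setIntegral_congr_fun measurableSet_ball fun x hx => ?_
    have hx1 : ‖x‖ < 1 := by simpa using hx
    have hφd : DifferentiableAt ℝ φ x := hφ.smooth.differentiable one_ne_zero x
    have hwd : DifferentiableAt ℝ w x :=
      ((hB.smooth_iff.1 hw).contDiffAt (Metric.isOpen_ball.mem_nhds hx)).differentiableAt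
        (by simp)
    have e1 := hB.gradInner_mul_dens hx1 hφd hwd
    have e2 := hB.fderiv_ucYr hY hx1 hφd
    by_cases hxs : x ∈ tsupport φ
    · have hwx : w x ≠ 0 := (hpos x (hφ.supp hxs)).ne'
      simp only [dg_eform, ucECoef, map_add, map_smul, map_zero, smul_eq_mul, add_zero, zero_add,
        e2]
      rw [← e1]
      field_simp
      ring
    · have hφ0 : φ x = 0 := image_eq_zero_of_notMem_tsupport hxs
      have hdφ0 : fderiv ℝ φ x = 0 := by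
        have : φ =ᶠ[𝓝 x] fun _ => 0 := by
          have ho : IsOpen (tsupport φ)ᶜ := (isClosed_tsupport φ).isOpen_compl
          filter_upwards [ho.mem_nhds hxs] with y hy
          exact image_eq_zero_of_notMem_tsupport hy
        rw [this.fderiv_eq]
        simp
      have e3 : gradInner X k φ w x * ucDens X k x = 0 := by rw [e1, hdφ0]; simp
      have e4 : pairY X Y φ x = 0 := by
        have := e2
        rw [hdφ0] at this
        simp at this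
        linarith
      simp only [dg_eform, hdφ0, hφ0, e4]
      simp only [zero_apply, mul_zero, sub_zero, zero_mul]
      linarith [e3]
  · intro x hx
    have hxs : x ∉ tsupport φ := fun h => hx (hsub (hφ.supp h))
    have hφ0 : φ x = 0 := image_eq_zero_of_notMem_tsupport hxs
    have hdφ0 : fderiv ℝ φ x = 0 := by
      have : φ =ᶠ[𝓝 x] fun _ => 0 := by
        have ho : IsOpen (tsupport φ)ᶜ := (isClosed_tsupport φ).isOpen_compl
        filter_upwards [ho.mem_nhds hxs] with y hy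
        exact image_eq_zero_of_notMem_tsupport hy
      rw [this.fderiv_eq]
      simp
    simp only [dg_eform, hdφ0, hφ0]
    simp

/-- **mean value inequality with a divergence term.**  The constant depends only on `ι, c1, c2`. -/
theorem uc_moser (ι : Type) [Fintype ι] [DecidableEq ι] [Nonempty ι] (c1 c2 : ℝ) (hc1 : 0 ≤ c1)
    (hc2 : 0 ≤ c2) :
    ∃ C : ℝ, 0 < C ∧ ∀ (X : CMfd (CE ι) ι) (k : HFam (CE ι) ι) (S : RGeo (CE ι)) (K : ℝ),
      GoodBall X k S K → K ≤ 1 →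
      ∀ (w : CE ι → ℝ) (Y : (CE ι → CE ι) → CE ι → ι → ℂ) (R' : ℝ), R' ≤ 1 → X.Smooth w →
        IsVField X Y → (∀ x ∈ Metric.ball (0 : CE ι) R', 0 < w x) →
        (∀ (Ψ : CE ι → CE ι) (U : Set (CE ι)), X.IsHol Ψ U → ∀ z ∈ U, Ψ z ∈ Metric.ball (0 : CE ι) R' →
          qf (k Ψ z) (Y Ψ z) ≤ c1 ^ 2 * w (Ψ z) ^ 2) →
        (∀ (Ψ : CE ι → CE ι) (U : Set (CE ι)), X.IsHol Ψ U → ∀ z ∈ U, Ψ z ∈ Metric.ball (0 : CE ι) R' →
          2 * (divF k Y Ψ z).re - c2 * w (Ψ z) ≤ lapP (k Ψ z) (w ∘ Ψ) z) →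
        ∀ (x0 : CE ι) (r : ℝ), 0 < r → r ≤ 1 → Metric.closedBall x0 r ⊆ Metric.ball 0 R' →
          ∀ x ∈ Metric.closedBall x0 (r / 2),
            w x ≤ C * (r ^ (-(2 * Fintype.card ι : ℝ)) * ∫ y in Metric.closedBall x0 r, w y) := by
  have hcard : 1 ≤ Fintype.card ι := Fintype.card_pos
  have hm : 2 ≤ Module.finrank ℝ (CE ι) := by rw [uc_finrank]; omega
  have hl : (0 : ℝ) < (1 / 2 : ℝ) ^ Fintype.card ι / 8 := by positivity
  have hL : (1 / 2 : ℝ) ^ Fintype.card ι / 8 ≤ max (2 ^ Fintype.card ι / 2)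
      (max (2 ^ Fintype.card ι * (Real.sqrt 2 * c1)) (2 ^ Fintype.card ι * c2)) := by
    refine le_trans ?_ (le_max_left _ _)
    have h1 : (1 / 2 : ℝ) ^ Fintype.card ι ≤ 1 := pow_le_one₀ (by norm_num) (by norm_num)
    have h2 : (1 : ℝ) ≤ 2 ^ Fintype.card ι := one_le_pow₀ (by norm_num)
    linarith
  obtain ⟨C, hC, H⟩ := dg_elliptic_bound (CE ι) hm _ _ hl hL 1 one_pos (by norm_num)
  refine ⟨C, hC, ?_⟩
  intro X k S K hB hK w Y R' hR' hw hY hpos hYb hineq x0 r hr hr1 hsub x hx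
  have hsubB : Metric.ball (0 : CE ι) R' ⊆ Metric.ball 0 1 := Metric.ball_subset_ball hR'
  have h1 := H (Metric.ball 0 R') (ucECoef X k S Y w c2) w 0 0 Metric.isOpen_ball
    (hB.ucECoef_ok hK hc1 hc2 hR' hw hY hpos hYb)
    (((hB.smooth_iff.1 hw).mono hsubB).of_le (by exact_mod_cast le_top))
    (fun x hx => (hpos x hx).le) (hB.ucECoef_sub hK hR' hw hY hpos hineq) x0 r hr hr1 hsub x hx
  simp only [Real.rpow_one, div_one, mul_zero, add_zero] at h1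
  have e : dg_m (CE ι) = 2 * (Fintype.card ι : ℝ) := by
    unfold dg_m
    rw [uc_finrank]
    push_cast
    ring
  rw [e] at h1
  exact h1

theorem isVField_zero (X : CMfd (CE ι) ι) : IsVField X (fun _ _ _ => 0) where
  smooth := fun _ _ => contDiffOn_const
  compat := fun _ _ _ _ _ => by
    funext i
    simp [Matrix.mulVec, dotProduct]

/-- the case of nonnegative functions with `Δ w ≥ - c w`. -/
theorem uc_moser_sub (ι : Type) [Fintype ι] [DecidableEq ι] [Nonempty ι] (c2 : ℝ) (hc2 : 0 ≤ c2) :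
    ∃ C : ℝ, 0 < C ∧ ∀ (X : CMfd (CE ι) ι) (k : HFam (CE ι) ι) (S : RGeo (CE ι)) (K : ℝ),
      GoodBall X k S K → K ≤ 1 →
      ∀ (w : CE ι → ℝ) (R' : ℝ), R' ≤ 1 → X.Smooth w → (∀ x ∈ Metric.ball (0 : CE ι) R', 0 ≤ w x) →
        (∀ x ∈ Metric.ball (0 : CE ι) R', - c2 * w x ≤ lap X k w x) →
        ∀ (x0 : CE ι) (r : ℝ), 0 < r → r ≤ 1 → Metric.closedBall x0 r ⊆ Metric.ball 0 R' →
          ∀ x ∈ Metric.closedBall x0 (r / 2),
            w x ≤ C * (r ^ (-(2 * Fintype.card ι : ℝ)) * ∫ y in Metric.closedBall x0 r, w y) := by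
  obtain ⟨C, hC, H⟩ := uc_moser ι 0 c2 le_rfl hc2
  refine ⟨C, hC, ?_⟩
  intro X k S K hB hK w R' hR' hw h0 hlap x0 r hr hr1 hsub x hx
  have hsubB : Metric.ball (0 : CE ι) R' ⊆ Metric.ball 0 1 := Metric.ball_subset_ball hR'
  have hwc : ContinuousOn w (Metric.closedBall x0 r) :=
    ((hB.smooth_iff.1 hw).continuousOn).mono (hsub.trans hsubB)
  have hwi : IntegrableOn w (Metric.closedBall x0 r) :=
    hwc.integrableOn_compact (isCompact_closedBall x0 r)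
  have key : ∀ η : ℝ, 0 < η → w x + η ≤ C * (r ^ (-(2 * Fintype.card ι : ℝ)) *
      ((∫ y in Metric.closedBall x0 r, w y) + η * (volume (Metric.closedBall x0 r)).toReal)) := by
    intro η hη
    have h1 := H X k S K hB hK (fun y => w y + η) (fun _ _ _ => 0) R' hR'
      (hB.smooth_iff.2 ((hB.smooth_iff.1 hw).add contDiffOn_const)) (isVField_zero X)
      (fun y hy => by have := h0 y hy; linarith)
      (fun Ψ U _ z _ _ => by
        have : qf (k Ψ z) (fun _ => (0 : ℂ)) = 0 := qf_zero_vec _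
        rw [this]
        simp)
      (fun Ψ U hΨ z hz hzR => by
        have e1 : divF k (fun _ _ _ => 0) Ψ z = 0 := by
          simp [divF, dz]
        have e2 : lapP (k Ψ z) ((fun y => w y + η) ∘ Ψ) z = lap X k w (Ψ z) := by
          rw [lap_eq_lapP hB.kahler.toIsMetric hw hΨ hz]
          exact lapP_add_const (f := w ∘ Ψ) (k Ψ z) η
        rw [e1, e2]
        have := hlap _ hzR
        simp only [Complex.zero_re, mul_zero, zero_sub]
        nlinarith)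
      x0 r hr hr1 hsub x hx
    have e3 : ∫ y in Metric.closedBall x0 r, (w y + η)
        = (∫ y in Metric.closedBall x0 r, w y) + η * (volume (Metric.closedBall x0 r)).toReal := by
      rw [integral_add hwi (integrableOn_const (by
        exact (isCompact_closedBall x0 r).measure_lt_top.ne))]
      simp [Measure.real, mul_comm]
    rw [e3] at h1
    exact h1
  refine le_of_forall_pos_le_add fun ε hε => ?_
  set v : ℝ := (volume (Metric.closedBall x0 r)).toReal with hv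
  have hv0 : 0 ≤ v := ENNReal.toReal_nonneg
  set a : ℝ := r ^ (-(2 * Fintype.card ι : ℝ)) with ha
  have ha0 : 0 ≤ a := Real.rpow_nonneg hr.le _
  have hD : 0 < C * a * v + 1 := by positivity
  have h2 := key (ε / (C * a * v + 1)) (by positivity)
  have h3 : C * a * v * (ε / (C * a * v + 1)) ≤ ε := by
    rw [mul_div_assoc', div_le_iff₀ hD]
    nlinarith [mul_nonneg (mul_nonneg hC.le ha0) hv0]
  have h4 : 0 < ε / (C * a * v + 1) := by positivity
  calc w x ≤ w x + ε / (C * a * v + 1) := by linarith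
    _ ≤ C * (a * ((∫ y in Metric.closedBall x0 r, w y) + ε / (C * a * v + 1) * v)) := h2
    _ = C * (a * ∫ y in Metric.closedBall x0 r, w y) + C * a * v * (ε / (C * a * v + 1)) := by ring
    _ ≤ C * (a * ∫ y in Metric.closedBall x0 r, w y) + ε := by linarith

end moser

end Claimed.Agent.R316
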